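import Vale.Agent.Lib.P230L.DefsL

/-!
# P230, lattice half: union bound over minimal dependent sets of alive vectors (module M3)
-/

namespace Vale.Agent.P230

open MeasureTheory Set

namespace CircAux

theorem indep_iff {p M : ℕ} [Fact p.Prime] (C : Finset (FV p M)) :
    LinearIndependent (ZMod p) (fun h : C => (h : FV p M)) ↔
      ∀ f : FV p M → ZMod p, ∑ h ∈ C, f h • h = 0 → ∀ h ∈ C, f h = 0 :=
  linearIndepOn_finset_iff (v := id)

/-- a dependent set of bounded size contains a circuit -/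
theorem exists_circuit {p M : ℕ} [Fact p.Prime] (S T : Finset (FV p M)) (hTS : T ⊆ S)
    (hS : IndepUpTo 2 S) (r : ℕ) (hT : ¬ IndepUpTo r T) :
    ∃ ρ : ℕ, 2 ≤ ρ ∧ ρ < r ∧ ∃ lam : Fin ρ → ZMod p, (∀ i, lam i ≠ 0) ∧
      ∃ h : Fin ρ → FV p M, (∀ i, h i ∈ T) ∧ ∑ i, lam i • h i ∈ T ∧
        LinearIndependent (ZMod p) h := by
  classical
  -- minimal dependent subset
  set F : Finset (Finset (FV p M)) := T.powerset.filter (fun C => C.card ≤ r ∧
    ¬ LinearIndependent (ZMod p) (fun h : C => (h : FV p M))) with hF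
  have hFne : F.Nonempty := by
    unfold IndepUpTo at hT
    push Not at hT
    obtain ⟨C, hC1, hC2, hC3⟩ := hT
    exact ⟨C, by rw [hF, Finset.mem_filter, Finset.mem_powerset]; exact ⟨hC1, hC2, hC3⟩⟩
  obtain ⟨C, hCF, hCmin⟩ := Finset.exists_min_image F (fun C => C.card) hFne
  rw [hF, Finset.mem_filter, Finset.mem_powerset] at hCF
  obtain ⟨hCT, hCr, hCdep⟩ := hCF
  have hmin : ∀ c ∈ C, LinearIndependent (ZMod p) (fun h : (C.erase c) => (h : FV p M)) := by
    intro c hc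
    by_contra hcon
    have h1 : (C.erase c).card < C.card := Finset.card_erase_lt_of_mem hc
    have h2 : C.erase c ∈ F := by
      rw [hF, Finset.mem_filter, Finset.mem_powerset]
      exact ⟨(Finset.erase_subset c C).trans hCT, by omega, hcon⟩
    have h3 := hCmin _ h2
    omega
  rw [indep_iff] at hCdep
  push Not at hCdep
  obtain ⟨f, hf, c0, hc0, hfc0⟩ := hCdep
  have hfne : ∀ c ∈ C, f c ≠ 0 := by
    intro c hc hfc
    have h1 := (indep_iff _).mp (hmin c hc) f (by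
      rw [← hf]
      exact Finset.sum_erase C (by rw [hfc, zero_smul])) c0
      (Finset.mem_erase.mpr ⟨fun h => hfc0 (by rw [h]; exact hfc), hc0⟩)
    exact hfc0 h1
  set D := C.erase c0 with hD
  have hDcard : D.card + 1 = C.card := Finset.card_erase_add_one hc0
  have hDC : D ⊆ C := Finset.erase_subset c0 C
  have hsum : ∑ x ∈ D, (-(f x) / f c0) • x = c0 := by
    have h1 : ∑ x ∈ D, f x • x + f c0 • c0 = 0 := by
      rw [← hf]
      exact Finset.sum_erase_add C (fun x => f x • x) hc0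
    have h2 : ∑ x ∈ D, (-(f x) / f c0) • x = (-(1 / f c0)) • ∑ x ∈ D, f x • x := by
      rw [Finset.smul_sum]
      refine Finset.sum_congr rfl (fun x _ => ?_)
      rw [smul_smul]
      congr 1
      ring
    rw [h2, eq_neg_of_add_eq_zero_left h1, smul_neg, neg_smul, neg_neg, smul_smul,
      one_div_mul_cancel hfc0, one_smul]
  set e : Fin D.card ≃ D := D.equivFin.symm with he
  refine ⟨D.card, ?_, by omega, fun i => -(f (e i : FV p M)) / f c0, ?_,
    fun i => (e i : FV p M), ?_, ?_, ?_⟩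
  · by_contra hcon
    have hC2 : C.card ≤ 2 := by omega
    have h1 := (indep_iff _).mp (hS C (hCT.trans hTS) hC2) f hf c0 hc0
    exact hfc0 h1
  · intro i
    have h1 : (e i : FV p M) ∈ C := hDC (e i).2
    exact div_ne_zero (neg_ne_zero.mpr (hfne _ h1)) hfc0
  · intro i
    exact hCT (hDC (e i).2)
  · have h1 : ∑ i, (-(f (e i : FV p M)) / f c0) • (e i : FV p M)
        = ∑ x : D, (-(f (x : FV p M)) / f c0) • (x : FV p M) :=
      Equiv.sum_comp e (fun x : D => (-(f (x : FV p M)) / f c0) • (x : FV p M))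
    have h2 : ∑ x : D, (-(f (x : FV p M)) / f c0) • (x : FV p M)
        = ∑ x ∈ D, (-(f x) / f c0) • x :=
      Finset.sum_coe_sort D (fun x => (-(f x) / f c0) • x)
    rw [h1, h2, hsum]
    exact hCT hc0
  · exact (hmin c0 hc0).comp e e.injective

/-- number of functionals vanishing at `ρ` independent vectors -/
theorem card_ker {p M ρ : ℕ} [Fact p.Prime] (h : Fin ρ → FV p M)
    (hh : LinearIndependent (ZMod p) h) :
    {ψ : FV p M | ∀ j, ψ ⬝ᵥ h j = 0}.ncard * p ^ ρ = p ^ M := by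
  set A : Matrix (Fin ρ) (Fin M) (ZMod p) := Matrix.of h with hA
  have hrank : A.rank = ρ := by
    have := LinearIndependent.rank_matrix (M := A) hh
    rw [this, Fintype.card_fin]
  have h1 := LinearMap.finrank_range_add_finrank_ker A.mulVecLin
  rw [Module.finrank_fin_fun] at h1
  have h2 : Module.finrank (ZMod p) (LinearMap.range A.mulVecLin) = ρ := hrank
  rw [h2] at h1
  have h3 : {ψ : FV p M | ∀ j, ψ ⬝ᵥ h j = 0} = (LinearMap.ker A.mulVecLin : Set (FV p M)) := by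
    ext ψ
    simp only [Set.mem_ofPred_eq, SetLike.mem_coe, LinearMap.mem_ker, Matrix.mulVecLin_apply]
    constructor
    · intro hψ
      funext j
      rw [Matrix.mulVec, Pi.zero_apply, dotProduct_comm]
      exact hψ j
    · intro hψ j
      have := congrFun hψ j
      rw [Matrix.mulVec, Pi.zero_apply, dotProduct_comm] at this
      exact this
  have h4 : (LinearMap.ker A.mulVecLin : Set (FV p M)).ncard
      = p ^ Module.finrank (ZMod p) (LinearMap.ker A.mulVecLin) := by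
    have h5 := Module.natCard_eq_pow_finrank (K := ZMod p) (V := LinearMap.ker A.mulVecLin)
    rw [Nat.card_zmod] at h5
    rw [← h5]
    rfl
  rw [h3, h4, ← pow_add, add_comm, h1]

theorem card_kers {p M ρ a : ℕ} [Fact p.Prime] (h : Fin ρ → FV p M)
    (hh : LinearIndependent (ZMod p) h) :
    ({Φ : Fin a → FV p M | ∀ i j, Φ i ⬝ᵥ h j = 0}.ncard : ℝ)
      = ((p : ℝ) ^ M) ^ a / ((p : ℝ) ^ a) ^ ρ := by
  classical
  have hp : (0 : ℝ) < p := by exact_mod_cast (Fact.out : p.Prime).pos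
  have h1 : {Φ : Fin a → FV p M | ∀ i j, Φ i ⬝ᵥ h j = 0}.ncard
      = {ψ : FV p M | ∀ j, ψ ⬝ᵥ h j = 0}.ncard ^ a := by
    rw [Set.ncard_eq_toFinset_card', Set.ncard_eq_toFinset_card']
    have h2 : {Φ : Fin a → FV p M | ∀ i j, Φ i ⬝ᵥ h j = 0}.toFinset
        = Fintype.piFinset (fun _ : Fin a => {ψ : FV p M | ∀ j, ψ ⬝ᵥ h j = 0}.toFinset) := by
      ext Φ
      simp
    rw [h2, Fintype.card_piFinset, Finset.prod_const, Finset.card_univ, Fintype.card_fin]
  have h3 : ({ψ : FV p M | ∀ j, ψ ⬝ᵥ h j = 0}.ncard : ℝ) * (p : ℝ) ^ ρ = (p : ℝ) ^ M := by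
    exact_mod_cast card_ker h hh
  rw [h1, Nat.cast_pow, eq_div_iff (by positivity), ← h3, mul_pow, ← pow_mul, ← pow_mul,
    mul_comm a ρ]

end CircAux

open CircAux

/-- M3 -/
theorem circuits_bound {p M a : ℕ} [Fact p.Prime] (S : Finset (FV p M)) (hS : IndepUpTo 2 S)
    (r : ℕ) (η : ℝ) (hη : 0 ≤ η) (hF : FewRel r η S) :
    ({Φ : Fin a → FV p M | ¬ IndepUpTo r (alive Φ S)}.ncard : ℝ)
      ≤ (∑ ρ ∈ Finset.Ico 2 r, η * ((p : ℝ) * S.card / (p : ℝ) ^ a) ^ ρ) * ((p : ℝ) ^ M) ^ a := by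
  classical
  have hp : (0 : ℝ) < p := by exact_mod_cast (Fact.out : p.Prime).pos
  set AL : (ρ : ℕ) → Finset (Fin ρ → ZMod p) := fun ρ => Finset.univ.filter (fun lam => ∀ i, lam i ≠ 0)
    with hAL
  set HL : (ρ : ℕ) → (Fin ρ → ZMod p) → Finset (Fin ρ → FV p M) := fun ρ lam =>
    Finset.univ.filter (fun h => (∀ i, h i ∈ S) ∧ ∑ i, lam i • h i ∈ S ∧
      LinearIndependent (ZMod p) h) with hHL
  set KL : (ρ : ℕ) → (Fin ρ → FV p M) → Finset (Fin a → FV p M) := fun ρ h =>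
    Finset.univ.filter (fun Φ => ∀ i j, Φ i ⬝ᵥ h j = 0) with hKL
  have hsub : {Φ : Fin a → FV p M | ¬ IndepUpTo r (alive Φ S)} ⊆
      (((Finset.Ico 2 r).biUnion fun ρ => (AL ρ).biUnion fun lam => (HL ρ lam).biUnion fun h =>
        KL ρ h : Finset (Fin a → FV p M)) : Set (Fin a → FV p M)) := by
    intro Φ hΦ
    have hTS : alive Φ S ⊆ S := Finset.filter_subset _ _
    obtain ⟨ρ, hρ2, hρr, lam, hlam, h, hh, hsum, hind⟩ := exists_circuit S _ hTS hS r hΦ
    simp only [Finset.coe_biUnion, Set.mem_iUnion, Finset.mem_coe]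
    refine ⟨ρ, Finset.mem_Ico.mpr ⟨hρ2, hρr⟩, lam, ?_, h, ?_, ?_⟩
    · rw [hAL, Finset.mem_filter]
      exact ⟨Finset.mem_univ _, hlam⟩
    · rw [hHL, Finset.mem_filter]
      exact ⟨Finset.mem_univ _, fun i => hTS (hh i), hTS hsum, hind⟩
    · rw [hKL, Finset.mem_filter]
      refine ⟨Finset.mem_univ _, fun i j => ?_⟩
      exact (Finset.mem_filter.mp (hh j)).2 i
  have hcard : ({Φ : Fin a → FV p M | ¬ IndepUpTo r (alive Φ S)}.ncard : ℝ)
      ≤ ∑ ρ ∈ Finset.Ico 2 r, ∑ lam ∈ AL ρ, ∑ h ∈ HL ρ lam, ((KL ρ h).card : ℝ) := by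
    have h1 := Set.ncard_le_ncard hsub (Finset.finite_toSet _)
    rw [Set.ncard_coe_finset] at h1
    have h2 : ((Finset.Ico 2 r).biUnion fun ρ => (AL ρ).biUnion fun lam =>
        (HL ρ lam).biUnion fun h => KL ρ h).card
        ≤ ∑ ρ ∈ Finset.Ico 2 r, ∑ lam ∈ AL ρ, ∑ h ∈ HL ρ lam, (KL ρ h).card := by
      refine Finset.card_biUnion_le.trans (Finset.sum_le_sum fun ρ _ => ?_)
      refine Finset.card_biUnion_le.trans (Finset.sum_le_sum fun lam _ => ?_)
      exact Finset.card_biUnion_le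
    exact_mod_cast h1.trans h2
  refine hcard.trans ?_
  rw [Finset.sum_mul]
  refine Finset.sum_le_sum (fun ρ hρ => ?_)
  rw [Finset.mem_Ico] at hρ
  -- the kernels
  have hK : ∀ lam, ∀ h ∈ HL ρ lam, ((KL ρ h).card : ℝ) = ((p : ℝ) ^ M) ^ a / ((p : ℝ) ^ a) ^ ρ := by
    intro lam h hh
    rw [hHL, Finset.mem_filter] at hh
    rw [← card_kers h hh.2.2.2]
    congr 1
    rw [← Set.ncard_coe_finset]
    congr 1
    ext Φ
    simp [hKL]
  set κ : ℝ := ((p : ℝ) ^ M) ^ a / ((p : ℝ) ^ a) ^ ρ with hκ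
  have hκ0 : 0 ≤ κ := by positivity
  have hHcard : ∀ lam ∈ AL ρ, ((HL ρ lam).card : ℝ) ≤ η * (S.card : ℝ) ^ ρ := by
    intro lam hlam
    rw [hAL, Finset.mem_filter] at hlam
    refine le_trans ?_ (hF ρ hρ.1 hρ.2 lam hlam.2)
    rw [← Set.ncard_coe_finset]
    have : ((HL ρ lam : Finset (Fin ρ → FV p M)) : Set (Fin ρ → FV p M))
        ⊆ {h : Fin ρ → FV p M | (∀ i, h i ∈ S) ∧ ∑ i, lam i • h i ∈ S} := by
      intro h hh
      rw [Finset.mem_coe, hHL, Finset.mem_filter] at hh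
      exact ⟨hh.2.1, hh.2.2.1⟩
    exact_mod_cast Set.ncard_le_ncard this (Set.toFinite _)
  have hAcard : ((AL ρ).card : ℝ) ≤ (p : ℝ) ^ ρ := by
    have h1 : (AL ρ).card ≤ Fintype.card (Fin ρ → ZMod p) := Finset.card_le_univ _
    rw [Fintype.card_fun, ZMod.card, Fintype.card_fin] at h1
    exact_mod_cast h1
  calc ∑ lam ∈ AL ρ, ∑ h ∈ HL ρ lam, ((KL ρ h).card : ℝ)
      = ∑ lam ∈ AL ρ, ((HL ρ lam).card : ℝ) * κ := by
        refine Finset.sum_congr rfl (fun lam _ => ?_)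
        rw [Finset.sum_congr rfl (fun h hh => hK lam h hh), Finset.sum_const, nsmul_eq_mul]
    _ ≤ ∑ lam ∈ AL ρ, (η * (S.card : ℝ) ^ ρ) * κ :=
        Finset.sum_le_sum (fun lam hlam => mul_le_mul_of_nonneg_right (hHcard lam hlam) hκ0)
    _ = ((AL ρ).card : ℝ) * ((η * (S.card : ℝ) ^ ρ) * κ) := by
        rw [Finset.sum_const, nsmul_eq_mul]
    _ ≤ (p : ℝ) ^ ρ * ((η * (S.card : ℝ) ^ ρ) * κ) :=
        mul_le_mul_of_nonneg_right hAcard (by positivity)
    _ = η * ((p : ℝ) * S.card / (p : ℝ) ^ a) ^ ρ * ((p : ℝ) ^ M) ^ a := by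
        rw [hκ, div_pow, mul_pow]
        ring

end Vale.Agent.P230
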