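import Vale.Agent.Lib.P230L.DefsL

/-!
# P230, lattice half: a tail bound under bounded independence

`tail_bound`: the number of points of `X` on a random hyperplane through the origin, when any
`2 q` points of `X` are linearly independent. The `2 q`-th central moment is the same as for
independent events, and is bounded there by means of the hyperbolic cosine.
-/

namespace Vale.Agent.P230

open MeasureTheory Set
open scoped ENNReal

/-- sums over the fibres of a surjective homomorphism -/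
theorem sum_comp_hom {A B : Type*} [AddCommGroup A] [AddCommGroup B] [Fintype A] [Fintype B]
    (φ : A →+ B) (hφ : Function.Surjective φ) (F : B → ℝ) :
    (Fintype.card B : ℝ) * ∑ a, F (φ a) = (Fintype.card A : ℝ) * ∑ b, F b := by
  classical
  set K : ℕ := (Finset.univ.filter (fun a => φ a = 0)).card with hK
  have hfib : ∀ b : B, (Finset.univ.filter (fun a => φ a = b)).card = K := fun b =>
    AddMonoidHom.card_fiber_eq_of_mem_range φ (hφ b) (hφ 0)
  have h1 : ∀ G : B → ℝ, ∑ a, G (φ a) = K * ∑ b, G b := by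
    intro G
    rw [← Finset.sum_fiberwise (s := Finset.univ) (g := φ) (f := fun a => G (φ a)), Finset.mul_sum]
    refine Finset.sum_congr rfl (fun b _ => ?_)
    rw [Finset.sum_congr rfl (g := fun _ => G b)
      (fun a ha => by rw [(Finset.mem_filter.mp ha).2]), Finset.sum_const, hfib b, nsmul_eq_mul]
  have h2 := h1 (fun _ => 1)
  simp only [Finset.sum_const, Finset.card_univ, nsmul_eq_mul, mul_one] at h2
  rw [h1 F, h2]
  ring

section
variable {p M : ℕ} [Fact p.Prime]

/-- the centred indicator of zero -/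
noncomputable def cind (p : ℕ) (c : ZMod p) : ℝ := (if c = 0 then 1 else 0) - 1 / (p : ℝ)

/-- evaluation of a functional at the elements of a set -/
def evF (T : Finset (FV p M)) : FV p M →+ (T → ZMod p) where
  toFun ψ := fun h => ψ ⬝ᵥ (h : FV p M)
  map_zero' := by funext h; simp
  map_add' ψ ψ' := by funext h; simp [add_dotProduct]

theorem evF_surjective {T : Finset (FV p M)}
    (hT : LinearIndependent (ZMod p) (fun h : T => (h : FV p M))) :
    Function.Surjective (evF T) := by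
  classical
  let A : Matrix T (Fin M) (ZMod p) := fun h => (h : FV p M)
  have hr : A.rank = Fintype.card T := LinearIndependent.rank_matrix (M := A) hT
  have hs : LinearMap.range A.mulVecLin = ⊤ := by
    apply Submodule.eq_top_of_finrank_eq
    rw [Module.finrank_fintype_fun_eq_card]
    exact hr
  intro τ
  obtain ⟨ψ, hψ⟩ := LinearMap.range_eq_top.mp hs τ
  refine ⟨ψ, ?_⟩
  rw [← hψ]
  funext h
  change ψ ⬝ᵥ (h : FV p M) = (h : FV p M) ⬝ᵥ ψ
  exact dotProduct_comm _ _

/-- restriction to a subset -/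
def resF {X T : Finset (FV p M)} (hTX : T ⊆ X) : (X → ZMod p) →+ (T → ZMod p) where
  toFun ω := fun h => ω ⟨h, hTX h.2⟩
  map_zero' := rfl
  map_add' _ _ := rfl

theorem resF_surjective {X T : Finset (FV p M)} (hTX : T ⊆ X) :
    Function.Surjective (resF (p := p) hTX) := by
  classical
  intro τ
  refine ⟨fun h => if hh : (h : FV p M) ∈ T then τ ⟨h, hh⟩ else 0, ?_⟩
  funext h
  change (if hh : (h : FV p M) ∈ T then τ ⟨h, hh⟩ else 0) = τ h
  rw [dif_pos h.2]

/-- the mixed moments agree with the independent model -/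
theorem moment_tuple {X : Finset (FV p M)} {n : ℕ} (hX : IndepUpTo n X) (t : Fin n → X) :
    ((p : ℝ) ^ X.card) * ∑ ψ : FV p M, ∏ i, cind p (ψ ⬝ᵥ (t i : FV p M)) =
      ((p : ℝ) ^ M) * ∑ ω : X → ZMod p, ∏ i, cind p (ω (t i)) := by
  classical
  set T : Finset (FV p M) := Finset.univ.image (fun i => (t i : FV p M)) with hT
  have htT : ∀ i, (t i : FV p M) ∈ T := fun i => Finset.mem_image_of_mem _ (Finset.mem_univ i)
  have hTX : T ⊆ X := by
    intro h hh
    obtain ⟨i, _, rfl⟩ := Finset.mem_image.mp hh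
    exact (t i).2
  have hcard : T.card ≤ n := by
    refine Finset.card_image_le.trans ?_
    simp
  have hind := hX T hTX hcard
  have e1 := sum_comp_hom (evF T) (evF_surjective hind)
    (fun τ => ∏ i, cind p (τ ⟨t i, htT i⟩))
  have e2 := sum_comp_hom (resF hTX) (resF_surjective hTX)
    (fun τ : T → ZMod p => ∏ i, cind p (τ ⟨t i, htT i⟩))
  have c1 : (Fintype.card (T → ZMod p) : ℝ) = (p : ℝ) ^ T.card := by
    simp [ZMod.card]
  have c2 : (Fintype.card (FV p M) : ℝ) = (p : ℝ) ^ M := by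
    simp [FV, ZMod.card]
  have c3 : (Fintype.card (X → ZMod p) : ℝ) = (p : ℝ) ^ X.card := by
    simp [ZMod.card]
  rw [c1, c2] at e1
  rw [c1, c3] at e2
  have hp : (0 : ℝ) < p := by exact_mod_cast (Fact.out : p.Prime).pos
  have hpT : (p : ℝ) ^ T.card ≠ 0 := by positivity
  have e1' : (p : ℝ) ^ T.card * ∑ ψ : FV p M, ∏ i, cind p (ψ ⬝ᵥ (t i : FV p M)) =
    (p : ℝ) ^ M * ∑ b : T → ZMod p, ∏ i, cind p (b ⟨t i, htT i⟩) := e1
  have e2' : (p : ℝ) ^ T.card * ∑ ω : X → ZMod p, ∏ i, cind p (ω (t i)) =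
    (p : ℝ) ^ X.card * ∑ b : T → ZMod p, ∏ i, cind p (b ⟨t i, htT i⟩) := e2
  apply mul_left_cancel₀ hpT
  linear_combination (p : ℝ) ^ X.card * e1' - (p : ℝ) ^ M * e2'

/-- the `n`-th moment of the sum agrees with the independent model -/
theorem moment_eq {X : Finset (FV p M)} {n : ℕ} (hX : IndepUpTo n X) :
    ((p : ℝ) ^ X.card) * ∑ ψ : FV p M, (∑ h : X, cind p (ψ ⬝ᵥ (h : FV p M))) ^ n =
      ((p : ℝ) ^ M) * ∑ ω : X → ZMod p, (∑ h : X, cind p (ω h)) ^ n := by
  classical
  simp only [Fintype.sum_pow]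
  rw [Finset.sum_comm, Finset.sum_comm (s := (Finset.univ : Finset (X → ZMod p))), Finset.mul_sum,
    Finset.mul_sum]
  exact Finset.sum_congr rfl (fun t _ => moment_tuple hX t)

theorem sum_exp_cind {θ : ℝ} (hθ : |θ| ≤ 1) :
    ∑ c : ZMod p, Real.exp (θ * cind p c) ≤ p * Real.exp (θ ^ 2 / p) := by
  classical
  have hp : (0 : ℝ) < p := by exact_mod_cast (Fact.out : p.Prime).pos
  have hsplit : ∑ c : ZMod p, Real.exp (θ * cind p c) =
      Real.exp (-(θ / p)) * (Real.exp θ + (p - 1)) := by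
    rw [← Finset.add_sum_erase Finset.univ _ (Finset.mem_univ (0 : ZMod p))]
    have h1 : Real.exp (θ * cind p (0 : ZMod p)) = Real.exp (-(θ / p)) * Real.exp θ := by
      rw [← Real.exp_add]; congr 1; simp only [cind, if_true]; ring
    have h2 : ∀ c ∈ (Finset.univ : Finset (ZMod p)).erase 0,
        Real.exp (θ * cind p c) = Real.exp (-(θ / p)) := by
      intro c hc
      have : c ≠ 0 := (Finset.mem_erase.mp hc).1
      congr 1; simp only [cind, if_neg this]; ring
    rw [h1, Finset.sum_congr rfl h2, Finset.sum_const, Finset.card_erase_of_mem (Finset.mem_univ _),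
      Finset.card_univ, ZMod.card, nsmul_eq_mul, Nat.cast_sub (Fact.out : p.Prime).one_le]
    push_cast
    ring
  rw [hsplit]
  have h3 : Real.exp θ + (p - 1) ≤ p * Real.exp ((Real.exp θ - 1) / p) := by
    have h4 := Real.add_one_le_exp ((Real.exp θ - 1) / p)
    have h5 : Real.exp θ + (p - 1) = p * ((Real.exp θ - 1) / p + 1) := by field_simp; ring
    rw [h5]
    exact mul_le_mul_of_nonneg_left h4 hp.le
  have h6 : Real.exp θ - 1 - θ ≤ θ ^ 2 := by
    have := Real.abs_exp_sub_one_sub_id_le hθ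
    exact (abs_le.mp this).2
  calc Real.exp (-(θ / p)) * (Real.exp θ + (p - 1))
      ≤ Real.exp (-(θ / p)) * (p * Real.exp ((Real.exp θ - 1) / p)) :=
        mul_le_mul_of_nonneg_left h3 (Real.exp_pos _).le
    _ = p * Real.exp ((Real.exp θ - 1 - θ) / p) := by
        rw [mul_left_comm, ← Real.exp_add]; congr 2; ring
    _ ≤ p * Real.exp (θ ^ 2 / p) := by gcongr

/-- the exponential moment in the independent model -/
theorem sum_exp_total (X : Finset (FV p M)) {θ : ℝ} (hθ : |θ| ≤ 1) :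
    ∑ ω : X → ZMod p, Real.exp (θ * ∑ h : X, cind p (ω h)) ≤
      (p : ℝ) ^ X.card * Real.exp (X.card / p * θ ^ 2) := by
  classical
  have h1 : ∀ ω : X → ZMod p, Real.exp (θ * ∑ h : X, cind p (ω h)) =
      ∏ h : X, Real.exp (θ * cind p (ω h)) := by
    intro ω
    rw [Finset.mul_sum, Real.exp_sum]
  rw [Finset.sum_congr rfl (fun ω _ => h1 ω)]
  rw [← Fintype.prod_sum (fun (_ : X) (c : ZMod p) => Real.exp (θ * cind p c))]
  rw [Finset.prod_const, Finset.card_univ, Fintype.card_coe]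
  refine (pow_le_pow_left₀ (Finset.sum_nonneg fun _ _ => (Real.exp_pos _).le)
    (sum_exp_cind hθ) _).trans (le_of_eq ?_)
  rw [mul_pow, ← Real.exp_nat_mul]
  congr 2
  ring

theorem pow_div_factorial_le_cosh (x : ℝ) (q : ℕ) :
    x ^ (2 * q) / (2 * q).factorial ≤ Real.cosh x := by
  have h := Real.hasSum_cosh x
  refine le_hasSum h q (fun n _ => ?_)
  rw [pow_mul]
  positivity

/-- the `2 q`-th moment in the independent model -/
theorem moment_le (X : Finset (FV p M)) (q : ℕ) (hq : 1 ≤ q) (hμ : (q : ℝ) ≤ X.card / p) :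
    ∑ ω : X → ZMod p, (∑ h : X, cind p (ω h)) ^ (2 * q) ≤
      (p : ℝ) ^ X.card * (4 * Real.exp 1 * q * (X.card / p)) ^ q := by
  have hp : (0 : ℝ) < p := by exact_mod_cast (Fact.out : p.Prime).pos
  have hq0 : (0 : ℝ) < q := by exact_mod_cast hq
  set μ : ℝ := (X.card : ℝ) / p with hμdef
  have hμ0 : 0 < μ := lt_of_lt_of_le hq0 hμ
  set θ : ℝ := √(q / μ) with hθ
  have hθ2 : θ ^ 2 = q / μ := Real.sq_sqrt (by positivity)
  have hθ0 : 0 < θ := Real.sqrt_pos.mpr (by positivity)
  have hθ1 : |θ| ≤ 1 := by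
    rw [abs_of_pos hθ0, hθ]
    exact Real.sqrt_le_one.mpr (div_le_one_of_le₀ hμ hμ0.le)
  have hE1 := sum_exp_total X hθ1
  have hE2 := sum_exp_total X (θ := -θ) (by rwa [abs_neg])
  rw [neg_sq] at hE2
  rw [← hμdef, hθ2, mul_div_cancel₀ _ hμ0.ne'] at hE1 hE2
  have hfac : (0 : ℝ) < (2 * q).factorial := by exact_mod_cast (2 * q).factorial_pos
  have hcosh : ∀ x : ℝ, x ^ (2 * q) ≤ (2 * q).factorial / θ ^ (2 * q) * Real.cosh (θ * x) := by
    intro x
    have h := pow_div_factorial_le_cosh (θ * x) q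
    rw [div_le_iff₀ hfac, mul_pow] at h
    rw [div_mul_eq_mul_div, le_div_iff₀ (by positivity)]
    linarith
  calc ∑ ω : X → ZMod p, (∑ h : X, cind p (ω h)) ^ (2 * q)
      ≤ ∑ ω : X → ZMod p, (2 * q).factorial / θ ^ (2 * q) *
          Real.cosh (θ * ∑ h : X, cind p (ω h)) := Finset.sum_le_sum fun ω _ => hcosh _
    _ = (2 * q).factorial / θ ^ (2 * q) *
          ((∑ ω : X → ZMod p, Real.exp (θ * ∑ h : X, cind p (ω h)) +
            ∑ ω : X → ZMod p, Real.exp (-θ * ∑ h : X, cind p (ω h))) / 2) := by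
        rw [← Finset.mul_sum, ← Finset.sum_add_distrib, Finset.sum_div]
        congr 1
        refine Finset.sum_congr rfl (fun ω _ => ?_)
        rw [Real.cosh_eq]; ring_nf
    _ ≤ (2 * q).factorial / θ ^ (2 * q) *
          (((p : ℝ) ^ X.card * Real.exp q + (p : ℝ) ^ X.card * Real.exp q) / 2) := by
        gcongr
    _ = (p : ℝ) ^ X.card * ((2 * q).factorial * (Real.exp 1 * μ / q) ^ q) := by
        have e1 : θ ^ (2 * q) = (q / μ) ^ q := by rw [pow_mul, hθ2]
        have e2 : Real.exp q = Real.exp 1 ^ q := by rw [← Real.exp_nat_mul, mul_one]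
        rw [e1, e2]
        simp only [div_pow, mul_pow]
        field_simp
        ring
    _ ≤ (p : ℝ) ^ X.card * ((2 * q : ℝ) ^ (2 * q) * (Real.exp 1 * μ / q) ^ q) := by
        have : ((2 * q).factorial : ℝ) ≤ (2 * q : ℝ) ^ (2 * q) := by
          exact_mod_cast Nat.factorial_le_pow (2 * q)
        gcongr
    _ = (p : ℝ) ^ X.card * (4 * Real.exp 1 * q * μ) ^ q := by
        rw [pow_mul, ← mul_pow]
        congr 2
        field_simp
        ring

/-- M2 -/
theorem tail_bound {p M : ℕ} [Fact p.Prime] (X : Finset (FV p M)) (q : ℕ) (hq : 1 ≤ q)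
    (hX : IndepUpTo (2 * q) X) (hμ : (q : ℝ) ≤ X.card / p) (δ : ℝ) (hδ : 0 < δ) :
    ({ψ : FV p M | ((X.filter (fun h => ψ ⬝ᵥ h = 0)).card : ℝ) ≤ (1 - δ) * (X.card / p)}.ncard : ℝ)
      ≤ (4 * Real.exp 1 * q * p / (δ ^ 2 * X.card)) ^ q * (p : ℝ) ^ M := by
  classical
  have hp : (0 : ℝ) < p := by exact_mod_cast (Fact.out : p.Prime).pos
  have hq0 : (0 : ℝ) < q := by exact_mod_cast hq
  have hμ0 : 0 < (X.card : ℝ) / p := lt_of_lt_of_le hq0 hμ
  have hXc : (0 : ℝ) < X.card := by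
    by_contra h
    have : (X.card : ℝ) / p ≤ 0 := div_nonpos_of_nonpos_of_nonneg (not_lt.mp h) hp.le
    linarith
  have h1 := moment_eq hX
  have h2 := moment_le X q hq hμ
  have hpX : (0 : ℝ) < (p : ℝ) ^ X.card := by positivity
  have h3 : ∑ ψ : FV p M, (∑ h : X, cind p (ψ ⬝ᵥ (h : FV p M))) ^ (2 * q) ≤
      (p : ℝ) ^ M * (4 * Real.exp 1 * q * (X.card / p)) ^ q := by
    have h4 : ((p : ℝ) ^ X.card) *
        ∑ ψ : FV p M, (∑ h : X, cind p (ψ ⬝ᵥ (h : FV p M))) ^ (2 * q) ≤
        (p : ℝ) ^ X.card * ((p : ℝ) ^ M * (4 * Real.exp 1 * q * (X.card / p)) ^ q) := by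
      rw [h1]
      calc (p : ℝ) ^ M * ∑ ω : X → ZMod p, (∑ h : X, cind p (ω h)) ^ (2 * q)
          ≤ (p : ℝ) ^ M * ((p : ℝ) ^ X.card * (4 * Real.exp 1 * q * (X.card / p)) ^ q) := by
            gcongr
        _ = _ := by ring
    exact le_of_mul_le_mul_left h4 hpX
  set Bad : Finset (FV p M) := Finset.univ.filter
    (fun ψ => ((X.filter (fun h => ψ ⬝ᵥ h = 0)).card : ℝ) ≤ (1 - δ) * (X.card / p)) with hBad
  have hset : {ψ : FV p M | ((X.filter (fun h => ψ ⬝ᵥ h = 0)).card : ℝ) ≤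
      (1 - δ) * (X.card / p)} = (Bad : Set (FV p M)) := by
    ext ψ; simp [hBad]
  have hZ : ∀ ψ : FV p M, ∑ h : X, cind p (ψ ⬝ᵥ (h : FV p M)) =
      ((X.filter (fun h => ψ ⬝ᵥ h = 0)).card : ℝ) - X.card / p := by
    intro ψ
    rw [Finset.sum_coe_sort X (fun h => cind p (ψ ⬝ᵥ h))]
    simp only [cind, Finset.sum_sub_distrib, Finset.sum_const, nsmul_eq_mul]
    rw [Finset.sum_ite, Finset.sum_const_zero, add_zero, Finset.sum_const, nsmul_eq_mul, mul_one]
    ring
  have h5 : (Bad.card : ℝ) * (δ * (X.card / p)) ^ (2 * q) ≤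
      (p : ℝ) ^ M * (4 * Real.exp 1 * q * (X.card / p)) ^ q := by
    refine le_trans ?_ h3
    rw [← nsmul_eq_mul, ← Finset.sum_const]
    refine (Finset.sum_le_sum (g := fun ψ => (∑ h : X, cind p (ψ ⬝ᵥ (h : FV p M))) ^ (2 * q))
      fun ψ hψ => ?_).trans (Finset.sum_le_sum_of_subset_of_nonneg (Finset.subset_univ _)
        fun ψ _ _ => by rw [pow_mul]; positivity)
    have hb := (Finset.mem_filter.mp hψ).2
    rw [hZ ψ]
    have hle : δ * (X.card / p) ≤
        |((X.filter (fun h => ψ ⬝ᵥ h = 0)).card : ℝ) - X.card / p| := by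
      rw [abs_sub_comm]
      refine le_trans ?_ (le_abs_self _)
      linarith
    rw [← Even.pow_abs (even_two_mul q)
      (((X.filter (fun h => ψ ⬝ᵥ h = 0)).card : ℝ) - X.card / p)]
    exact pow_le_pow_left₀ (by positivity) hle _
  rw [hset, Set.ncard_coe_finset]
  have h6 : (0 : ℝ) < (δ * (X.card / p)) ^ (2 * q) := by positivity
  rw [← le_div_iff₀ h6] at h5
  refine h5.trans (le_of_eq ?_)
  rw [pow_mul, mul_div_assoc, ← div_pow, mul_comm]
  congr 2
  field_simp

end

end Vale.Agent.P230
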