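import Vale.Agent.Lib.P230L.Cheb
import Vale.Agent.Lib.P230L.Tail
import Vale.Agent.Lib.P230L.Circ

/-!
# P230, lattice half, M4: chain of functionals
-/

namespace Vale.Agent.P230

open MeasureTheory Set

theorem alive_cons {p M n : ℕ} (S : Finset (FV p M)) (ψ : FV p M) (Φ : Fin n → FV p M) :
    alive (Fin.cons ψ Φ : Fin (n + 1) → FV p M) S =
      (alive Φ S).filter (fun h => ψ ⬝ᵥ h = 0) := by
  ext h
  simp only [alive, Finset.mem_filter, Fin.forall_fin_succ, Fin.cons_zero, Fin.cons_succ]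
  tauto

theorem card_FV {p M : ℕ} [Fact p.Prime] : Nat.card (FV p M) = p ^ M := by
  simp [FV, Nat.card_eq_fintype_card, ZMod.card]

/-- Number of pairs `(ψ, Φ)` with `Φ` in a set. -/
theorem ncard_cons_tail {p M n : ℕ} [Fact p.Prime] (A : Set (Fin n → FV p M)) :
    ({Φ' : Fin (n + 1) → FV p M | Fin.tail Φ' ∈ A}.ncard : ℝ) = (p : ℝ) ^ M * A.ncard := by
  have h1 : {Φ' : Fin (n + 1) → FV p M | Fin.tail Φ' ∈ A} =
      (fun x : FV p M × (Fin n → FV p M) => (Fin.cons x.1 x.2 : Fin (n + 1) → FV p M)) ''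
        (Set.univ ×ˢ A) := by
    ext Φ'
    constructor
    · intro h
      exact ⟨(Φ' 0, Fin.tail Φ'), ⟨Set.mem_univ _, h⟩, Fin.cons_self_tail Φ'⟩
    · rintro ⟨⟨ψ, Φ⟩, ⟨-, h⟩, rfl⟩
      simpa using h
  have hinj : Function.Injective
      (fun x : FV p M × (Fin n → FV p M) => (Fin.cons x.1 x.2 : Fin (n + 1) → FV p M)) := by
    rintro ⟨a, b⟩ ⟨c, d⟩ h
    have := Fin.cons_injective2 h
    exact Prod.ext this.1 this.2
  rw [h1, Set.ncard_image_of_injective _ hinj, Set.ncard_prod, Set.ncard_univ, card_FV]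
  push_cast
  ring

/-- Counting by fibres over the tail. -/
theorem ncard_fiber {p M n : ℕ} [Fact p.Prime] (R : (Fin n → FV p M) → Set (FV p M)) (c : ℝ)
    (hc : ∀ Φ, ((R Φ).ncard : ℝ) ≤ c) :
    ({Φ' : Fin (n + 1) → FV p M | Φ' 0 ∈ R (Fin.tail Φ')}.ncard : ℝ) ≤
      c * ((p : ℝ) ^ M) ^ n := by
  classical
  set T : Finset (Fin (n + 1) → FV p M) :=
    Finset.univ.filter (fun Φ' => Φ' 0 ∈ R (Fin.tail Φ')) with hT
  have h1 : {Φ' : Fin (n + 1) → FV p M | Φ' 0 ∈ R (Fin.tail Φ')} = (T : Set _) := by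
    ext Φ'; simp [hT]
  rw [h1, Set.ncard_coe_finset]
  have h2 := Finset.card_eq_sum_card_fiberwise (s := T)
    (t := (Finset.univ : Finset (Fin n → FV p M))) (f := Fin.tail)
    (fun x _ => by simp)
  rw [h2]
  push_cast
  have h3 : ∀ Φ ∈ (Finset.univ : Finset (Fin n → FV p M)),
      ((T.filter (fun Φ' => Fin.tail Φ' = Φ)).card : ℝ) ≤ c := by
    intro Φ _
    refine le_trans ?_ (hc Φ)
    rw [Set.ncard_eq_toFinset_card']
    norm_cast
    refine Finset.card_le_card_of_injOn (fun Φ' => Φ' 0) ?_ ?_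
    · intro Φ' h
      simp only [Finset.coe_filter, Set.mem_ofPred_eq, hT, Finset.mem_filter, Finset.mem_univ,
        true_and] at h
      obtain ⟨h4, h5⟩ := h
      rw [h5] at h4
      simpa using h4
    · intro x hx y hy hxy
      simp only [Finset.coe_filter, Set.mem_ofPred_eq] at hx hy
      rw [← Fin.cons_self_tail x, ← Fin.cons_self_tail y, hx.2, hy.2]
      simp only at hxy
      rw [hxy]
  refine (Finset.sum_le_sum h3).trans ?_
  rw [Finset.sum_const, nsmul_eq_mul]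
  have h6 : ((Finset.univ : Finset (Fin n → FV p M)).card : ℝ) = ((p : ℝ) ^ M) ^ n := by
    rw [Finset.card_univ, Fintype.card_fun, Fintype.card_fin, ← Nat.card_eq_fintype_card, card_FV]
    push_cast
    ring
  rw [h6, mul_comm]

/-- One step of the chain. -/
theorem chain_step {p M n : ℕ} [Fact p.Prime] (S : Finset (FV p M)) (hS : IndepUpTo 2 S)
    (η : ℝ) (hη : 0 ≤ η) (q : ℕ) (δ ℓ ℓ' : ℝ) (hq : 1 ≤ q) (hδ : 0 < δ)
    (hF : FewRel (2 * q) η S) (hℓpos : 0 < ℓ) (hℓ : ℓ' ≤ (1 - δ) * (ℓ / p)) (hδ1 : δ ≤ 1)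
    (hqℓ : (q : ℝ) ≤ ℓ / p) :
    ({Φ : Fin (n + 1) → FV p M | ((alive Φ S).card : ℝ) < ℓ'}.ncard : ℝ) ≤
      (p : ℝ) ^ M * ({Φ : Fin n → FV p M | ((alive Φ S).card : ℝ) < ℓ}.ncard : ℝ) +
      ((∑ ρ ∈ Finset.Ico 2 (2 * q), η * ((p : ℝ) * S.card / (p : ℝ) ^ n) ^ ρ)
        + (4 * Real.exp 1 * q * p / (δ ^ 2 * ℓ)) ^ q) * ((p : ℝ) ^ M) ^ (n + 1) := by
  classical
  have hp0 : (0 : ℝ) < p := by exact_mod_cast (Fact.out : p.Prime).pos
  set R : (Fin n → FV p M) → Set (FV p M) := fun Φ =>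
    {ψ | IndepUpTo (2 * q) (alive Φ S) ∧ ℓ ≤ (alive Φ S).card ∧
      (((alive Φ S).filter (fun h => ψ ⬝ᵥ h = 0)).card : ℝ) < ℓ'} with hR
  set err : ℝ := (4 * Real.exp 1 * q * p / (δ ^ 2 * ℓ)) ^ q with herr
  have herr0 : 0 ≤ err := by positivity
  have hRc : ∀ Φ, ((R Φ).ncard : ℝ) ≤ err * (p : ℝ) ^ M := by
    intro Φ
    by_cases hcond : IndepUpTo (2 * q) (alive Φ S) ∧ ℓ ≤ (alive Φ S).card
    · obtain ⟨hI, hL⟩ := hcond
      have hXpos : (0 : ℝ) < (alive Φ S).card := lt_of_lt_of_le hℓpos hL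
      have hμ : (q : ℝ) ≤ (alive Φ S).card / p := hqℓ.trans (by gcongr)
      have h1 := tail_bound (alive Φ S) q hq hI hμ δ hδ
      refine le_trans ?_ (h1.trans ?_)
      · norm_cast
        refine Set.ncard_le_ncard ?_ (Set.toFinite _)
        intro ψ hψ
        obtain ⟨-, -, h2⟩ := hψ
        refine h2.le.trans (hℓ.trans ?_)
        have : 0 ≤ 1 - δ := by linarith
        gcongr
      · rw [herr]
        gcongr
    · have : R Φ = ∅ := by
        ext ψ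
        simp only [hR, Set.mem_ofPred_eq, Set.mem_empty_iff_false, iff_false]
        rintro ⟨h1, h2, -⟩
        exact hcond ⟨h1, h2⟩
      rw [this]
      simp only [Set.ncard_empty, Nat.cast_zero]
      positivity
  have hC := ncard_fiber (n := n) R (err * (p : ℝ) ^ M) hRc
  have hA := ncard_cons_tail (p := p) (M := M) (n := n)
    {Φ : Fin n → FV p M | ((alive Φ S).card : ℝ) < ℓ}
  have hB := ncard_cons_tail (p := p) (M := M) (n := n)
    {Φ : Fin n → FV p M | ¬ IndepUpTo (2 * q) (alive Φ S)}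
  have hB2 := circuits_bound (a := n) S hS (2 * q) η hη hF
  have hsub : {Φ : Fin (n + 1) → FV p M | ((alive Φ S).card : ℝ) < ℓ'} ⊆
      ({Φ' : Fin (n + 1) → FV p M | Fin.tail Φ' ∈
        {Φ : Fin n → FV p M | ((alive Φ S).card : ℝ) < ℓ}} ∪
      {Φ' : Fin (n + 1) → FV p M | Fin.tail Φ' ∈
        {Φ : Fin n → FV p M | ¬ IndepUpTo (2 * q) (alive Φ S)}}) ∪
      {Φ' : Fin (n + 1) → FV p M | Φ' 0 ∈ R (Fin.tail Φ')} := by
    intro Φ' h
    by_cases h1 : ((alive (Fin.tail Φ') S).card : ℝ) < ℓ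
    · exact Or.inl (Or.inl h1)
    · by_cases h2 : IndepUpTo (2 * q) (alive (Fin.tail Φ') S)
      · refine Or.inr ⟨h2, not_lt.mp h1, ?_⟩
        have h3 := alive_cons S (Φ' 0) (Fin.tail Φ')
        rw [Fin.cons_self_tail] at h3
        rw [← h3]
        exact h
      · exact Or.inl (Or.inr h2)
  have h1 := Set.ncard_le_ncard hsub (Set.toFinite _)
  have h2 := (h1.trans (Set.ncard_union_le _ _)).trans
    (Nat.add_le_add_right (Set.ncard_union_le _ _) _)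
  have h3 : ({Φ : Fin (n + 1) → FV p M | ((alive Φ S).card : ℝ) < ℓ'}.ncard : ℝ) ≤
      (p : ℝ) ^ M * ({Φ : Fin n → FV p M | ((alive Φ S).card : ℝ) < ℓ}.ncard : ℝ) +
      (p : ℝ) ^ M * ({Φ : Fin n → FV p M | ¬ IndepUpTo (2 * q) (alive Φ S)}.ncard : ℝ) +
      err * (p : ℝ) ^ M * ((p : ℝ) ^ M) ^ n := by
    rw [← hA, ← hB]
    refine le_trans ?_ (add_le_add_right hC _)
    exact_mod_cast h2
  refine h3.trans ?_
  have h4 : (p : ℝ) ^ M * ({Φ : Fin n → FV p M | ¬ IndepUpTo (2 * q) (alive Φ S)}.ncard : ℝ) ≤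
      (p : ℝ) ^ M * ((∑ ρ ∈ Finset.Ico 2 (2 * q), η * ((p : ℝ) * S.card / (p : ℝ) ^ n) ^ ρ) *
        ((p : ℝ) ^ M) ^ n) := by gcongr
  have h5 : ((p : ℝ) ^ M) ^ (n + 1) = (p : ℝ) ^ M * ((p : ℝ) ^ M) ^ n := pow_succ' _ _
  rw [h5]
  nlinarith [h4]

/-- M4 -/
theorem chain_void {p M a : ℕ} [Fact p.Prime] (S : Finset (FV p M)) (hS : IndepUpTo 2 S)
    (hne : S.Nonempty) (η : ℝ) (hη : 0 ≤ η) (b₁ : ℕ) (hb₁ : b₁ ≤ a) (q : ℕ → ℕ) (δ ℓ : ℕ → ℝ)
    (hq : ∀ b, 1 ≤ b → b ≤ b₁ → 1 ≤ q b) (hδ : ∀ b, 1 ≤ b → b ≤ b₁ → 0 < δ b ∧ δ b ≤ 1)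
    (hF : ∀ b, 1 ≤ b → b ≤ b₁ → FewRel (2 * q b) η S)
    (hℓpos : ∀ b, b ≤ b₁ → 0 < ℓ b)
    (hℓtop : ℓ b₁ ≤ S.card / (2 * (p : ℝ) ^ (a - b₁)))
    (hℓ : ∀ b, 1 ≤ b → b ≤ b₁ → ℓ (b - 1) ≤ (1 - δ b) * (ℓ b / p))
    (hqℓ : ∀ b, 1 ≤ b → b ≤ b₁ → (q b : ℝ) ≤ ℓ b / p) :
    ({Φ : Fin a → FV p M | alive Φ S = ∅}.ncard : ℝ)
      ≤ (4 * (p : ℝ) ^ (a - b₁) / S.card
          + ∑ b ∈ Finset.Icc 1 b₁,
              ((∑ ρ ∈ Finset.Ico 2 (2 * q b), η * ((p : ℝ) * S.card / (p : ℝ) ^ (a - b)) ^ ρ)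
                + (4 * Real.exp 1 * q b * p / ((δ b) ^ 2 * ℓ b)) ^ (q b)))
        * ((p : ℝ) ^ M) ^ a := by
  classical
  set e : ℕ → ℝ := fun b =>
    (∑ ρ ∈ Finset.Ico 2 (2 * q b), η * ((p : ℝ) * S.card / (p : ℝ) ^ (a - b)) ^ ρ)
      + (4 * Real.exp 1 * q b * p / ((δ b) ^ 2 * ℓ b)) ^ (q b) with he
  have key : ∀ k, k ≤ b₁ → ∀ n, n + (b₁ - k) = a →
      ({Φ : Fin n → FV p M | ((alive Φ S).card : ℝ) < ℓ (b₁ - k)}.ncard : ℝ) ≤
        (4 * (p : ℝ) ^ (a - b₁) / S.card + ∑ b ∈ Finset.Icc (b₁ - k + 1) b₁, e b) *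
          ((p : ℝ) ^ M) ^ n := by
    intro k
    induction k with
    | zero =>
      intro _ n hn
      have hn' : n = a - b₁ := by omega
      subst hn'
      have h1 := chebyshev_alive (a := a - b₁) S hS hne
      have h2 : Finset.Icc (b₁ - 0 + 1) b₁ = ∅ := by
        rw [Finset.Icc_eq_empty]; omega
      rw [h2, Finset.sum_empty, add_zero]
      refine le_trans (Nat.cast_le.mpr (Set.ncard_le_ncard ?_ (Set.toFinite _))) h1
      intro Φ hΦ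
      exact lt_of_lt_of_le hΦ hℓtop
    | succ k ih =>
      intro hk n hn
      obtain ⟨n', rfl⟩ : ∃ n', n = n' + 1 := ⟨n - 1, by omega⟩
      set b := b₁ - k with hb
      have hb1 : 1 ≤ b := by omega
      have hb2 : b ≤ b₁ := by omega
      have hbk : b₁ - (k + 1) = b - 1 := by omega
      have ih' := ih (by omega) n' (by omega)
      rw [hbk]
      have hstep := chain_step (n := n') S hS η hη (q b) (δ b) (ℓ b) (ℓ (b - 1)) (hq b hb1 hb2)
        (hδ b hb1 hb2).1 (hF b hb1 hb2) (hℓpos b hb2) (hℓ b hb1 hb2) (hδ b hb1 hb2).2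
        (hqℓ b hb1 hb2)
      have hn'' : a - b = n' := by omega
      have h1 : Finset.Icc (b - 1 + 1) b₁ = insert b (Finset.Icc (b + 1) b₁) := by
        ext x
        simp only [Finset.mem_Icc, Finset.mem_insert]
        omega
      have h2 : b ∉ Finset.Icc (b + 1) b₁ := by simp
      rw [h1, Finset.sum_insert h2]
      refine hstep.trans ?_
      have h3 : (∑ ρ ∈ Finset.Ico 2 (2 * q b), η * ((p : ℝ) * S.card / (p : ℝ) ^ n') ^ ρ)
          + (4 * Real.exp 1 * q b * p / ((δ b) ^ 2 * ℓ b)) ^ (q b) = e b := by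
        rw [he]; simp only [hn'']
      rw [h3]
      have h5 : ((p : ℝ) ^ M) ^ (n' + 1) = (p : ℝ) ^ M * ((p : ℝ) ^ M) ^ n' := pow_succ' _ _
      have h6 : (p : ℝ) ^ M *
          ({Φ : Fin n' → FV p M | ((alive Φ S).card : ℝ) < ℓ b}.ncard : ℝ) ≤
          (p : ℝ) ^ M * ((4 * (p : ℝ) ^ (a - b₁) / S.card + ∑ b ∈ Finset.Icc (b + 1) b₁, e b) *
          ((p : ℝ) ^ M) ^ n') := by gcongr
      rw [h5]
      nlinarith [h6]
  have h1 := key b₁ le_rfl a (by omega)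
  have h2 : b₁ - b₁ = 0 := Nat.sub_self _
  rw [h2, zero_add] at h1
  refine le_trans (Nat.cast_le.mpr (Set.ncard_le_ncard ?_ (Set.toFinite _))) h1
  intro Φ hΦ
  simp only [Set.mem_ofPred_eq] at hΦ ⊢
  rw [hΦ]
  simpa using hℓpos 0 (Nat.zero_le _)

end Vale.Agent.P230
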