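import Vale.Agent.Lib.P230L.DefsL

/-!
# P230, lattice half: counting functionals, and a second moment bound
-/

namespace Vale.Agent.P230

open Finset

variable {p M : ℕ} [Fact p.Prime]

/-- Distinct members of a set whose small subsets are independent form an independent family. -/
theorem IndepUpTo.linearIndependent {R r : ℕ} {S : Finset (FV p M)} (hS : IndepUpTo R S)
    (f : Fin r → FV p M) (hf : Function.Injective f) (hmem : ∀ i, f i ∈ S) (hr : r ≤ R) :
    LinearIndependent (ZMod p) f := by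
  classical
  have h1 := hS (univ.image f) (by
    intro x hx
    obtain ⟨i, -, rfl⟩ := mem_image.1 hx
    exact hmem i) (by
    refine (card_image_le).trans ?_
    simpa using hr)
  have h2 := h1.comp (fun i : Fin r => (⟨f i, mem_image_of_mem f (mem_univ i)⟩ : univ.image f))
    (fun i j hij => hf (congrArg Subtype.val hij))
  exact h2

omit [Fact p.Prime] in
theorem IndepUpTo.mono {r R : ℕ} (h : r ≤ R) {S : Finset (FV p M)} (hS : IndepUpTo R S) :
    IndepUpTo r S :=
  fun T hT hc => hS T hT (hc.trans h)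

/-- Evaluation of functionals on an independent family is surjective. -/
theorem surj_of_linearIndependent {r : ℕ} {h : Fin r → FV p M}
    (hh : LinearIndependent (ZMod p) h) (c : Fin r → ZMod p) :
    ∃ ψ : FV p M, ∀ i, ψ ⬝ᵥ h i = c i := by
  have h1 : (Matrix.of h).rank = Fintype.card (Fin r) := LinearIndependent.rank_matrix hh
  have h2 : LinearMap.range (Matrix.of h).mulVecLin = ⊤ := by
    refine Submodule.eq_top_of_finrank_eq ?_
    rw [Module.finrank_fintype_fun_eq_card, ← h1]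
    rfl
  obtain ⟨ψ, hψ⟩ := (LinearMap.range_eq_top.1 h2) c
  refine ⟨ψ, fun i => ?_⟩
  rw [← hψ, Matrix.mulVecLin_apply, dotProduct_comm]
  rfl

/-- The key count: for linearly independent `h i` the number of functionals with prescribed values
is `p ^ (M - r)`. -/
theorem card_functionals {r : ℕ} {h : Fin r → FV p M}
    (hh : LinearIndependent (ZMod p) h) (c : Fin r → ZMod p) :
    {ψ : FV p M | ∀ i, ψ ⬝ᵥ h i = c i}.ncard * p ^ r = p ^ M := by
  classical
  -- all fibres have the same size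
  have hfib : ∀ c' : Fin r → ZMod p, {ψ : FV p M | ∀ i, ψ ⬝ᵥ h i = c' i}.ncard =
      {ψ : FV p M | ∀ i, ψ ⬝ᵥ h i = c i}.ncard := by
    intro c'
    obtain ⟨ψ₀, hψ₀⟩ := surj_of_linearIndependent hh (c' - c)
    refine (Set.ncard_congr (fun ψ _ => ψ + ψ₀) ?_ ?_ ?_).symm
    · intro ψ hψ i
      rw [add_dotProduct, hψ i, hψ₀ i]
      simp
    · intro a b _ _ hab
      exact add_right_cancel hab
    · intro ψ hψ
      refine ⟨ψ - ψ₀, fun i => ?_, sub_add_cancel _ _⟩
      rw [sub_dotProduct, hψ i, hψ₀ i]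
      simp
  have h1 : Fintype.card (FV p M) = ∑ c' : Fin r → ZMod p,
      (univ.filter fun ψ : FV p M => (fun i => ψ ⬝ᵥ h i) = c').card := by
    rw [← Finset.card_univ]
    exact Finset.card_eq_sum_card_fiberwise fun ψ _ => mem_univ _
  have h2 : ∀ c' : Fin r → ZMod p, (univ.filter fun ψ : FV p M => (fun i => ψ ⬝ᵥ h i) = c').card =
      {ψ : FV p M | ∀ i, ψ ⬝ᵥ h i = c i}.ncard := by
    intro c'
    rw [← hfib c', ← Set.ncard_coe_finset]
    congr 1
    ext ψ
    simp [funext_iff]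
  simp only [h2, Finset.sum_const, Finset.card_univ, Fintype.card_fun, ZMod.card, Fintype.card_fin,
    smul_eq_mul] at h1
  rw [h1, mul_comm]

/-- The count for lists of functionals that vanish on an independent family. -/
theorem card_lists {a r : ℕ} {h : Fin r → FV p M} (hh : LinearIndependent (ZMod p) h) :
    {Φ : Fin a → FV p M | ∀ i, ∀ j, Φ i ⬝ᵥ h j = 0}.ncard * (p ^ r) ^ a = (p ^ M) ^ a := by
  classical
  have h1 : {Φ : Fin a → FV p M | ∀ i, ∀ j, Φ i ⬝ᵥ h j = 0}.ncard =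
      ({ψ : FV p M | ∀ j, ψ ⬝ᵥ h j = 0}.ncard) ^ a := by
    have h2 : {Φ : Fin a → FV p M | ∀ i, ∀ j, Φ i ⬝ᵥ h j = 0} =
        ((Fintype.piFinset fun _ : Fin a => univ.filter fun ψ : FV p M => ∀ j, ψ ⬝ᵥ h j = 0 :
          Finset (Fin a → FV p M)) : Set (Fin a → FV p M)) := by
      ext Φ
      simp
    have h3 : {ψ : FV p M | ∀ j, ψ ⬝ᵥ h j = 0} =
        ((univ.filter fun ψ : FV p M => ∀ j, ψ ⬝ᵥ h j = 0 : Finset (FV p M)) : Set (FV p M)) := by
      ext ψ; simp
    rw [h2, h3, Set.ncard_coe_finset, Set.ncard_coe_finset, Fintype.card_piFinset]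
    simp
  rw [h1, ← mul_pow]
  congr 1
  exact card_functionals hh 0

/-- M1: second moment bound for the number of surviving vectors. -/
theorem chebyshev_alive {p M a : ℕ} [Fact p.Prime] (S : Finset (FV p M)) (hS : IndepUpTo 2 S)
    (hne : S.Nonempty) :
    ({Φ : Fin a → FV p M | ((alive Φ S).card : ℝ) < S.card / (2 * (p : ℝ) ^ a)}.ncard : ℝ)
      ≤ 4 * (p : ℝ) ^ a / S.card * ((p : ℝ) ^ M) ^ a := by
  classical
  have hp : (0 : ℝ) < p := by exact_mod_cast (Fact.out : p.Prime).pos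
  have hs : (0 : ℝ) < S.card := by exact_mod_cast hne.card_pos
  set N : ℝ := ((p : ℝ) ^ M) ^ a with hN
  have hN0 : 0 < N := by positivity
  set P : ℝ := (p : ℝ) ^ a with hP
  have hP0 : 0 < P := by positivity
  -- counts
  have hcard : ((univ : Finset (Fin a → FV p M)).card : ℝ) = N := by
    rw [Finset.card_univ, Fintype.card_fun, Fintype.card_fun, ZMod.card, Fintype.card_fin,
      Fintype.card_fin]
    push_cast
    rfl
  have hc1 : ∀ h ∈ S, ((univ.filter fun Φ : Fin a → FV p M => ∀ i, Φ i ⬝ᵥ h = 0).card : ℝ) =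
      N / P := by
    intro h hh
    have h1 : LinearIndependent (ZMod p) ![h] :=
      hS.linearIndependent ![h] (Function.injective_of_subsingleton _) (by simpa using hh)
        (by norm_num)
    have h2 := card_lists (a := a) h1
    have h3 : {Φ : Fin a → FV p M | ∀ i, ∀ j, Φ i ⬝ᵥ (![h] : Fin 1 → FV p M) j = 0} =
        ((univ.filter fun Φ : Fin a → FV p M => ∀ i, Φ i ⬝ᵥ h = 0 : Finset (Fin a → FV p M)) :
          Set (Fin a → FV p M)) := by
      ext Φ; simp
    rw [h3, Set.ncard_coe_finset] at h2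
    rw [eq_div_iff hP0.ne', hN, hP]
    have h4 : (((univ.filter fun Φ : Fin a → FV p M => ∀ i, Φ i ⬝ᵥ h = 0).card * (p ^ 1) ^ a : ℕ) :
        ℝ) = (((p ^ M) ^ a : ℕ) : ℝ) := by rw [h2]
    push_cast at h4
    rw [pow_one] at h4
    exact h4
  have hc2 : ∀ h ∈ S, ∀ h' ∈ S, h ≠ h' →
      ((univ.filter fun Φ : Fin a → FV p M => (∀ i, Φ i ⬝ᵥ h = 0) ∧ (∀ i, Φ i ⬝ᵥ h' = 0)).card : ℝ) =
      N / P ^ 2 := by
    intro h hh h' hh' hne'
    have h1 : LinearIndependent (ZMod p) ![h, h'] := by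
      refine hS.linearIndependent ![h, h'] ?_ ?_ le_rfl
      · intro i j hij
        fin_cases i <;> fin_cases j <;> simp_all [eq_comm]
      · intro i
        fin_cases i <;> simp_all
    have h2 := card_lists (a := a) h1
    have h3 : {Φ : Fin a → FV p M | ∀ i, ∀ j, Φ i ⬝ᵥ (![h, h'] : Fin 2 → FV p M) j = 0} =
        ((univ.filter fun Φ : Fin a → FV p M => (∀ i, Φ i ⬝ᵥ h = 0) ∧ (∀ i, Φ i ⬝ᵥ h' = 0) :
          Finset (Fin a → FV p M)) : Set (Fin a → FV p M)) := by
      ext Φ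
      simp [Fin.forall_fin_two, forall_and]
    rw [h3, Set.ncard_coe_finset] at h2
    rw [eq_div_iff (pow_pos hP0 2).ne', hN, hP]
    have h4 : (((univ.filter fun Φ : Fin a → FV p M => (∀ i, Φ i ⬝ᵥ h = 0) ∧
        (∀ i, Φ i ⬝ᵥ h' = 0)).card * (p ^ 2) ^ a : ℕ) : ℝ) = (((p ^ M) ^ a : ℕ) : ℝ) := by rw [h2]
    push_cast at h4
    rw [← pow_mul, mul_comm a 2, pow_mul]
    exact h4
  -- the number of surviving vectors
  let I : (Fin a → FV p M) → FV p M → ℝ := fun Φ h => if ∀ i, Φ i ⬝ᵥ h = 0 then 1 else 0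
  have hZ : ∀ Φ : Fin a → FV p M, ((alive Φ S).card : ℝ) = ∑ h ∈ S, I Φ h := by
    intro Φ
    rw [alive, Finset.card_filter]
    push_cast
    refine Finset.sum_congr rfl fun h _ => ?_
    simp [I]
  have hE1 : ∑ Φ : Fin a → FV p M, ∑ h ∈ S, I Φ h = S.card * (N / P) := by
    rw [Finset.sum_comm]
    have : ∀ h ∈ S, ∑ Φ : Fin a → FV p M, I Φ h = N / P := by
      intro h hh
      rw [← hc1 h hh, Finset.card_filter]
      push_cast
      refine Finset.sum_congr rfl fun Φ _ => ?_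
      simp [I]
    rw [Finset.sum_congr rfl this, Finset.sum_const, nsmul_eq_mul]
  have hE2 : ∑ Φ : Fin a → FV p M, (∑ h ∈ S, I Φ h) ^ 2 ≤
      S.card * (N / P) + S.card * S.card * (N / P ^ 2) := by
    have h1 : ∑ Φ : Fin a → FV p M, (∑ h ∈ S, I Φ h) ^ 2 =
        ∑ h ∈ S, ∑ h' ∈ S, ∑ Φ : Fin a → FV p M, I Φ h * I Φ h' := by
      simp only [sq, Finset.sum_mul_sum]
      rw [Finset.sum_comm]
      refine Finset.sum_congr rfl fun h _ => ?_
      rw [Finset.sum_comm]
    have h2 : ∀ h ∈ S, ∀ h' ∈ S, ∑ Φ : Fin a → FV p M, I Φ h * I Φ h' ≤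
        (if h = h' then N / P else 0) + N / P ^ 2 := by
      intro h hh h' hh'
      have hNP : 0 ≤ N / P ^ 2 := by positivity
      by_cases he : h = h'
      · subst he
        rw [if_pos rfl, ← hc1 h hh, Finset.card_filter]
        have : ∑ Φ : Fin a → FV p M, I Φ h * I Φ h =
            ((∑ Φ : Fin a → FV p M, if ∀ i, Φ i ⬝ᵥ h = 0 then 1 else 0 : ℕ) : ℝ) := by
          push_cast
          refine Finset.sum_congr rfl fun Φ _ => ?_
          by_cases hΦ : ∀ i, Φ i ⬝ᵥ h = 0 <;> simp [I, hΦ]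
        rw [this]
        linarith
      · rw [if_neg he, zero_add, ← hc2 h hh h' hh' he, Finset.card_filter]
        push_cast
        refine le_of_eq (Finset.sum_congr rfl fun Φ _ => ?_)
        by_cases h3 : ∀ i, Φ i ⬝ᵥ h = 0 <;> by_cases h4 : ∀ i, Φ i ⬝ᵥ h' = 0 <;> simp [I, h3, h4]
    rw [h1]
    calc ∑ h ∈ S, ∑ h' ∈ S, ∑ Φ : Fin a → FV p M, I Φ h * I Φ h'
        ≤ ∑ h ∈ S, ∑ h' ∈ S, ((if h = h' then N / P else 0) + N / P ^ 2) :=
          Finset.sum_le_sum fun h hh => Finset.sum_le_sum fun h' hh' => h2 h hh h' hh'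
      _ = S.card * (N / P) + S.card * S.card * (N / P ^ 2) := by
          have : ∀ h ∈ S, ∑ h' ∈ S, ((if h = h' then N / P else 0) + N / P ^ 2) =
              N / P + S.card * (N / P ^ 2) := by
            intro h hh
            rw [Finset.sum_add_distrib, Finset.sum_ite_eq S h, if_pos hh, Finset.sum_const,
              nsmul_eq_mul]
          rw [Finset.sum_congr rfl this, Finset.sum_const, nsmul_eq_mul]
          ring
  -- Chebyshev
  set μ : ℝ := S.card / P with hμ
  have hμ0 : 0 < μ := by positivity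
  have hvar : ∑ Φ : Fin a → FV p M, ((∑ h ∈ S, I Φ h) - μ) ^ 2 ≤ N * μ := by
    have h1 : ∑ Φ : Fin a → FV p M, ((∑ h ∈ S, I Φ h) - μ) ^ 2 =
        ∑ Φ : Fin a → FV p M, (∑ h ∈ S, I Φ h) ^ 2 - 2 * μ * ∑ Φ : Fin a → FV p M, ∑ h ∈ S, I Φ h +
          N * μ ^ 2 := by
      have h2 : ∀ Φ : Fin a → FV p M, ((∑ h ∈ S, I Φ h) - μ) ^ 2 =
          (∑ h ∈ S, I Φ h) ^ 2 - 2 * μ * (∑ h ∈ S, I Φ h) + μ ^ 2 := fun Φ => by ring
      simp only [h2]
      rw [Finset.sum_add_distrib, Finset.sum_sub_distrib, ← Finset.mul_sum, Finset.sum_const,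
        nsmul_eq_mul, hcard]
    rw [h1, hE1]
    have h3 : S.card * (N / P) = N * μ := by rw [hμ]; ring
    have h4 : S.card * S.card * (N / P ^ 2) = N * μ ^ 2 := by rw [hμ]; field_simp
    rw [h3, h4] at hE2
    rw [h3]
    nlinarith
  have hset : {Φ : Fin a → FV p M | ((alive Φ S).card : ℝ) < S.card / (2 * P)} =
      ((univ.filter fun Φ : Fin a → FV p M => ((alive Φ S).card : ℝ) < S.card / (2 * P) :
        Finset (Fin a → FV p M)) : Set (Fin a → FV p M)) := by
    ext Φ; simp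
  rw [hset, Set.ncard_coe_finset]
  set bad := (univ.filter fun Φ : Fin a → FV p M => ((alive Φ S).card : ℝ) < S.card / (2 * P))
  have hbad : (bad.card : ℝ) * (μ ^ 2 / 4) ≤ N * μ := by
    refine le_trans ?_ hvar
    rw [← nsmul_eq_mul, ← Finset.sum_const]
    refine (Finset.sum_le_sum fun Φ hΦ => ?_).trans
      (Finset.sum_le_sum_of_subset_of_nonneg (Finset.subset_univ bad) fun Φ _ _ => sq_nonneg _)
    have h5 : ((alive Φ S).card : ℝ) < S.card / (2 * P) := (Finset.mem_filter.1 hΦ).2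
    rw [hZ Φ] at h5
    have h6 : (S.card : ℝ) / (2 * P) = μ / 2 := by rw [hμ]; field_simp
    rw [h6] at h5
    nlinarith
  have h7 : 4 * P / S.card * N = (N * μ) / (μ ^ 2 / 4) := by
    rw [hμ]
    field_simp
  rw [h7, le_div_iff₀ (by positivity)]
  exact hbad

end Vale.Agent.P230
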