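import Vale.Agent.Lib.P230L.Pre

/-!
# P230, lattice half: from the layered code to the covering
-/

namespace Vale.Agent.P230

open MeasureTheory Set
open scoped ENNReal Pointwise

/-- Reduction modulo `p` of an integer vector. -/
def redZ (p : ℕ) {m : ℕ} (u : Fin m → ℤ) : FV p m := fun l => (u l : ZMod p)

lemma redZ_add (p : ℕ) {m : ℕ} (u v : Fin m → ℤ) : redZ p (u + v) = redZ p u + redZ p v := by
  ext l; simp [redZ]

lemma redZ_sub (p : ℕ) {m : ℕ} (u v : Fin m → ℤ) : redZ p (u - v) = redZ p u - redZ p v := by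
  ext l; simp [redZ]

lemma redZ_surjective (p : ℕ) (m : ℕ) :
    Function.Surjective (redZ p : (Fin m → ℤ) → FV p m) := by
  intro z
  choose f hf using fun l => ZMod.intCast_surjective (z l)
  exact ⟨f, funext hf⟩

/-- The homomorphism whose kernel is the layered lattice. -/
def psiHom {p m k a : ℕ} (Φ : Fin a → FV p m) (w : Fin k → FV p m) :
    (Fin m → ℤ) × (Fin k → ℤ) →+ (Fin a → ZMod p) :=
  AddMonoidHom.mk' (fun ut i => Φ i ⬝ᵥ redZ p ut.1 - Φ i ⬝ᵥ (∑ j, ut.2 j • w j)) (by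
    intro x y
    funext i
    simp only [Prod.fst_add, Prod.snd_add, Pi.add_apply, redZ_add, dotProduct_add, add_smul,
      Finset.sum_add_distrib]
    ring)

lemma psiHom_apply {p m k a : ℕ} (Φ : Fin a → FV p m) (w : Fin k → FV p m)
    (u : Fin m → ℤ) (t : Fin k → ℤ) (i : Fin a) :
    psiHom Φ w (u, t) i = Φ i ⬝ᵥ redZ p u - Φ i ⬝ᵥ (∑ j, t j • w j) := rfl

lemma psiHom_surjective {p m k a : ℕ} (Φ : Fin a → FV p m) (w : Fin k → FV p m)
    (h : Function.Surjective fun (z : FV p m) (j : Fin a) => Φ j ⬝ᵥ z) :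
    Function.Surjective (psiHom Φ w) := by
  intro c
  obtain ⟨z, hz⟩ := h c
  obtain ⟨u, rfl⟩ := redZ_surjective p m z
  refine ⟨(u, 0), ?_⟩
  funext i
  rw [psiHom_apply]
  simp only [Pi.zero_apply, zero_smul, Finset.sum_const_zero, dotProduct_zero, sub_zero]
  exact congrFun hz i

/-- Real heights of integer heights. -/
noncomputable def ht {k : ℕ} (h : Fin k → ℝ) (N : ℕ) (τ : Fin k → ℤ) : Fin k → ℝ :=
  fun j => (τ j : ℝ) * h j / N

/-- The void set at an integer height. -/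
def voidSet {p m k a : ℕ} (Φ : Fin a → FV p m) (K₁ : Set ((Fin m → ℝ) × (Fin k → ℝ))) (s : ℝ)
    (h : Fin k → ℝ) (N B : ℕ) (τ : Fin k → ℤ) : Set (FV p m) :=
  {z | ∀ g ∈ gridPts (scal s (slice K₁ (ht h N τ))) B, ∃ j, Φ j ⬝ᵥ redZ p g ≠ Φ j ⬝ᵥ z}

theorem cover_core {p m k a n N B : ℕ} (hn : 2 ≤ n) (hN : 1 ≤ N)
    (K' : Set ((Fin m → ℝ) × (Fin k → ℝ))) (hconv : Convex ℝ K')
    (hcube : ∀ x y, (∀ i, |x i| ≤ 2) → (∀ j, |y j| ≤ 2) → (x, y) ∈ K')
    (s : ℝ) (hs : 0 < s) (hs1 : (n : ℝ) ≤ 2 * s) (h : Fin k → ℝ) (hh : ∀ j, 0 < h j)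
    (hh2 : ∀ j, h j * n ≤ 2 * N) (Φ : Fin a → FV p m) (w : Fin k → FV p m)
    (hw : ∀ τ : Fin k → ℤ, ∀ z : FV p m, ∃ t : Fin k → ℤ,
      z - ∑ j, t j • w j ∉ voidSet Φ ((1 - 1 / (n : ℝ)) • K') s h N B (fun j => τ j - N * t j))
    (x : Fin m → ℝ) (y : Fin k → ℝ) :
    ∃ (u : Fin m → ℤ) (t : Fin k → ℤ), psiHom Φ w (u, t) = 0 ∧
      (s⁻¹ • (fun i => x i - u i), fun j => h j * (y j - t j)) ∈ K' := by
  classical
  have hn0 : (0 : ℝ) < n := by exact_mod_cast (by omega : 0 < n)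
  have hn2 : (2 : ℝ) ≤ n := by exact_mod_cast hn
  have hN0 : (0 : ℝ) < N := by exact_mod_cast (by omega : 0 < N)
  -- round down
  set z : Fin m → ℤ := fun i => ⌊x i⌋ with hz
  set τ : Fin k → ℤ := fun j => ⌊N * y j⌋ with hτ
  obtain ⟨t, ht⟩ := hw τ (redZ p z)
  simp only [voidSet, mem_ofPred_eq, not_forall, not_exists, not_not] at ht
  obtain ⟨g, hg, hgz⟩ := ht
  refine ⟨z - g, t, ?_, ?_⟩
  · funext i
    rw [psiHom_apply, redZ_sub, dotProduct_sub, hgz i, dotProduct_sub, Pi.zero_apply]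
    ring
  · -- the point is a sum of a point of `(1 - 1/n) K'` and a small vector
    have hg2 : (fun i => (g i : ℝ)) ∈ scal s (slice ((1 - 1 / (n : ℝ)) • K')
        (Vale.Agent.P230.ht h N (fun j => τ j - N * t j))) := by
      unfold gridPts at hg
      exact (Finset.mem_filter.mp hg).2
    have hg3 : (s⁻¹ • (fun i => (g i : ℝ)), Vale.Agent.P230.ht h N (fun j => τ j - N * t j))
        ∈ (1 - 1 / (n : ℝ)) • K' := hg2
    obtain ⟨κ, hκ, hκe⟩ := hg3
    simp only at hκe
    set e : (Fin m → ℝ) × (Fin k → ℝ) :=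
      (fun i => n * (s⁻¹ * Int.fract (x i)), fun j => n * (h j / N * Int.fract (N * y j))) with he
    have heK : e ∈ K' := by
      apply hcube
      · intro i
        have h1 := Int.fract_nonneg (x i)
        have h2 := (Int.fract_lt_one (x i)).le
        rw [abs_of_nonneg (by positivity)]
        have h3 : (n : ℝ) * (s⁻¹ * Int.fract (x i)) ≤ n * (s⁻¹ * 1) := by gcongr
        refine h3.trans ?_
        rw [mul_one, ← div_eq_mul_inv, div_le_iff₀ hs]
        exact hs1
      · intro j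
        have h1 := Int.fract_nonneg (N * y j)
        have h2 := (Int.fract_lt_one (N * y j)).le
        have h4 := hh j
        rw [abs_of_nonneg (by positivity)]
        have h3 : (n : ℝ) * (h j / N * Int.fract (N * y j)) ≤ n * (h j / N * 1) := by gcongr
        refine h3.trans ?_
        have h5 := hh2 j
        rw [mul_one, ← mul_div_assoc, div_le_iff₀ hN0]
        linarith
    have hsum : (s⁻¹ • (fun i => x i - ((z - g) i : ℤ)), fun j => h j * (y j - t j))
        = (1 - 1 / (n : ℝ)) • κ + (1 / (n : ℝ)) • e := by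
      rw [hκe, he]
      ext i
      · simp only [Prod.fst_add, Pi.add_apply, Pi.smul_apply, smul_eq_mul, Prod.smul_fst,
          Pi.sub_apply, Int.cast_sub, hz]
        have := Int.floor_add_fract (x i)
        have h6 : x i - ((⌊x i⌋ : ℝ) - g i) = g i + Int.fract (x i) := by linarith
        rw [h6]
        field_simp
      · simp only [Prod.snd_add, Pi.add_apply, Pi.smul_apply, smul_eq_mul, Prod.smul_snd,
          Vale.Agent.P230.ht, Int.cast_sub, Int.cast_mul, Int.cast_natCast, hτ]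
        have := Int.floor_add_fract (N * y i)
        have h6 : (⌊N * y i⌋ : ℝ) = N * y i - Int.fract (N * y i) := by linarith
        rw [h6]
        field_simp
        ring
    rw [hsum]
    refine hconv hκ heK ?_ (by positivity) (by ring)
    have : 1 / (n : ℝ) ≤ 1 := by
      rw [div_le_one hn0]; linarith
    linarith

end Vale.Agent.P230
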