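import Vale.Agent.Lib.P230.Defs

/-!
# P230, lattice half: definitions
-/

namespace Vale.Agent.P230

open MeasureTheory Set

/-- Vectors over the prime field. -/
abbrev FV (p M : ℕ) : Type := Fin M → ZMod p

/-- The vectors of `S` on which all the functionals `Φ i` vanish. -/
def alive {p M a : ℕ} (Φ : Fin a → FV p M) (S : Finset (FV p M)) : Finset (FV p M) :=
  S.filter (fun h => ∀ i, Φ i ⬝ᵥ h = 0)

/-- Every subset of `S` with at most `r` elements is linearly independent. -/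
def IndepUpTo {p M : ℕ} (r : ℕ) (S : Finset (FV p M)) : Prop :=
  ∀ T : Finset (FV p M), T ⊆ S → T.card ≤ r →
    LinearIndependent (ZMod p) (fun h : T => (h : FV p M))

/-- For each list of nonzero coefficients of length `ρ` (where `2 ≤ ρ < r`) at most the fraction
`η` of the `ρ`-tuples of `S` have the corresponding linear combination in `S`. -/
def FewRel {p M : ℕ} (r : ℕ) (η : ℝ) (S : Finset (FV p M)) : Prop :=
  ∀ ρ : ℕ, 2 ≤ ρ → ρ < r → ∀ lam : Fin ρ → ZMod p, (∀ i, lam i ≠ 0) →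
    ({h : Fin ρ → FV p M | (∀ i, h i ∈ S) ∧ ∑ i, lam i • h i ∈ S}.ncard : ℝ) ≤ η * (S.card : ℝ) ^ ρ

/-- The integer points of `A` in the box `[-B, B]^m`. -/
noncomputable def gridPts {m : ℕ} (A : Set (Fin m → ℝ)) (B : ℕ) : Finset (Fin m → ℤ) := by
  classical
  exact (Fintype.piFinset fun _ => Finset.Icc (-(B : ℤ)) B).filter
    (fun h => (fun i => (h i : ℝ)) ∈ A)

/-- Homogeneous coordinates modulo `p` of an integer vector. -/
def homZ (p : ℕ) {m : ℕ} (h : Fin m → ℤ) : FV p (m + 1) :=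
  Matrix.vecCons (1 : ZMod p) (fun i => (h i : ZMod p))

/-- The integer points of `A` in homogeneous coordinates modulo `p`. -/
noncomputable def gridS {m : ℕ} (p : ℕ) (A : Set (Fin m → ℝ)) (B : ℕ) : Finset (FV p (m + 1)) := by
  classical
  exact (gridPts A B).image (homZ p)

/-- A compact convex set that contains a cube of half side `r` and lies in `[-B, B]^m`. -/
structure GridBody {m : ℕ} (r : ℝ) (B : ℕ) (A : Set (Fin m → ℝ)) : Prop where
  convex : Convex ℝ A
  compact : IsCompact A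
  cube : ∃ c : Fin m → ℝ, ∀ x : Fin m → ℝ, (∀ i, |x i - c i| ≤ r) → x ∈ A
  bdd : ∀ x ∈ A, ∀ i, |x i| ≤ B

/-- The layer structure of a set of integer heights, for layers at distance `N`. -/
def TreeZ (N : ℕ) : (k : ℕ) → Set (Fin k → ℤ) → Prop
  | 0, Q => Q.Nonempty
  | k + 1, Q => TreeZ N k {y : Fin k → ℤ | ∀ s : ℤ, ∃ t : ℤ,
      (Fin.cons (s - N * t) y : Fin (k + 1) → ℤ) ∈ Q ∧
      (Fin.cons (s - N * (t + 1)) y : Fin (k + 1) → ℤ) ∈ Q}

/-- The layer structure of a set of real heights, for layers at distance `h j` in coordinate `j`. -/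
def TreeR : (k : ℕ) → (Fin k → ℝ) → Set (Fin k → ℝ) → Prop
  | 0, _, P => P.Nonempty
  | k + 1, h, P => TreeR k (Fin.tail h) {y : Fin k → ℝ | ∃ s : ℝ,
      ∀ s' ∈ Set.Icc s (s + 2 * h 0), (Fin.cons s' y : Fin (k + 1) → ℝ) ∈ P}

/-- The slice of a set at height `y`. -/
def slice {m k : ℕ} (K : Set ((Fin m → ℝ) × (Fin k → ℝ))) (y : Fin k → ℝ) : Set (Fin m → ℝ) :=
  {x | (x, y) ∈ K}

end Vale.Agent.P230
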