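import Mathlib

/-!
# P230, lattice half: four-function Young inequality from the one-function one
-/

namespace Vale.Agent.P230

open MeasureTheory Set
open scoped ENNReal

namespace YoungPi

/-- The four-function Young property with constant `c`. -/
def YG {X : Type*} [AddCommGroup X] [MeasurableSpace X] (μ : Measure X) (c : ℝ≥0∞) : Prop :=
  ∀ f₁ f₂ f₃ f₄ : X → ℝ≥0∞, Measurable f₁ → Measurable f₂ → Measurable f₃ → Measurable f₄ →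
    ∫⁻ x, ∫⁻ y, ∫⁻ z, f₁ x * f₂ y * f₃ z * f₄ (x + y - z) ∂μ ∂μ ∂μ ≤
      c * ((∫⁻ x, f₁ x ^ (4 / 3 : ℝ) ∂μ) ^ (3 / 4 : ℝ) * (∫⁻ x, f₂ x ^ (4 / 3 : ℝ) ∂μ) ^ (3 / 4 : ℝ)
        * (∫⁻ x, f₃ x ^ (4 / 3 : ℝ) ∂μ) ^ (3 / 4 : ℝ) * (∫⁻ x, f₄ x ^ (4 / 3 : ℝ) ∂μ) ^ (3 / 4 : ℝ))

/-- The four-function form. -/
noncomputable def Q (f₁ f₂ f₃ f₄ : ℝ → ℝ≥0∞) : ℝ≥0∞ :=
  ∫⁻ x, ∫⁻ y, ∫⁻ z, f₁ x * f₂ y * f₃ z * f₄ (x + y - z)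

theorem Q_swap {f₁ f₂ f₃ f₄ : ℝ → ℝ≥0∞} : Q f₁ f₂ f₃ f₄ = Q f₁ f₂ f₄ f₃ := by
  unfold Q
  refine lintegral_congr fun x => lintegral_congr fun y => ?_
  have h := lintegral_sub_left_eq_self (μ := (volume : Measure ℝ))
    (fun z => f₁ x * f₂ y * f₄ z * f₃ (x + y - z)) (x + y)
  rw [← h]
  refine lintegral_congr fun z => ?_
  simp only [sub_sub_cancel]
  ring

/-- Correlation. -/
noncomputable def R (f h : ℝ → ℝ≥0∞) (u : ℝ) : ℝ≥0∞ := ∫⁻ x, f x * h (x - u)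

theorem R_meas {f h : ℝ → ℝ≥0∞} (hf : Measurable f) (hh : Measurable h) : Measurable (R f h) := by
  unfold R
  refine Measurable.lintegral_prod_right' (f := fun p : ℝ × ℝ => f p.2 * h (p.2 - p.1)) ?_
  fun_prop

theorem R_mul {f h g k : ℝ → ℝ≥0∞} (hf : Measurable f) (hh : Measurable h) (hg : Measurable g)
    (hk : Measurable k) : ∫⁻ u, R f h u * R g k u = Q h g f k := by
  unfold R Q
  have e1 : ∫⁻ u, (∫⁻ x, f x * h (x - u)) * (∫⁻ x, g x * k (x - u))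
      = ∫⁻ u, ∫⁻ x, ∫⁻ z, f x * h (x - u) * (g z * k (z - u)) := by
    refine lintegral_congr fun u => ?_
    rw [← lintegral_mul_const _ (by fun_prop)]
    refine lintegral_congr fun x => ?_
    rw [lintegral_const_mul _ (by fun_prop)]
  rw [e1, lintegral_lintegral_swap]
  swap
  · refine Measurable.aemeasurable ?_
    refine Measurable.lintegral_prod_right'
      (f := fun p : (ℝ × ℝ) × ℝ => f p.1.2 * h (p.1.2 - p.1.1) * (g p.2 * k (p.2 - p.1.1))) ?_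
    fun_prop
  have e2 : ∀ x : ℝ, ∫⁻ u, ∫⁻ z, f x * h (x - u) * (g z * k (z - u))
      = ∫⁻ y, ∫⁻ z, h y * g z * f x * k (y + z - x) := by
    intro x
    have := lintegral_sub_left_eq_self (μ := (volume : Measure ℝ))
      (fun y => ∫⁻ z, h y * g z * f x * k (y + z - x)) x
    rw [← this]
    refine lintegral_congr fun u => lintegral_congr fun z => ?_
    rw [show x - u + z - x = z - u by ring]
    ring
  simp_rw [e2]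
  rw [lintegral_lintegral_swap]
  swap
  · refine Measurable.aemeasurable ?_
    refine Measurable.lintegral_prod_right'
      (f := fun p : (ℝ × ℝ) × ℝ => h p.1.2 * g p.2 * f p.1.1 * k (p.1.2 + p.2 - p.1.1)) ?_
    fun_prop
  refine lintegral_congr fun y => ?_
  rw [lintegral_lintegral_swap]
  refine Measurable.aemeasurable ?_
  simp only [Function.uncurry_def]
  fun_prop

theorem R_cs {F G : ℝ → ℝ≥0∞} (hF : Measurable F) (hG : Measurable G) :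
    (∫⁻ u, F u * G u) ≤ (∫⁻ u, F u * F u) ^ (1 / 2 : ℝ) * (∫⁻ u, G u * G u) ^ (1 / 2 : ℝ) := by
  have h := ENNReal.lintegral_mul_le_Lp_mul_Lq (volume : Measure ℝ) Real.HolderConjugate.two_two
    hF.aemeasurable hG.aemeasurable
  simpa [← ENNReal.rpow_natCast, pow_two] using h

theorem Q_two {f g : ℝ → ℝ≥0∞} (hf : Measurable f) (hg : Measurable g) :
    Q f g f g ≤ Q f f f f ^ (1 / 2 : ℝ) * Q g g g g ^ (1 / 2 : ℝ) := by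
  rw [← R_mul hf hf hg hg, ← R_mul hf hf hf hf, ← R_mul hg hg hg hg]
  exact R_cs (R_meas hf hf) (R_meas hg hg)

theorem Q_four {f₁ f₂ f₃ f₄ : ℝ → ℝ≥0∞} (h₁ : Measurable f₁) (h₂ : Measurable f₂)
    (h₃ : Measurable f₃) (h₄ : Measurable f₄) :
    Q f₁ f₂ f₃ f₄ ≤ Q f₁ f₁ f₁ f₁ ^ (1 / 4 : ℝ) * Q f₂ f₂ f₂ f₂ ^ (1 / 4 : ℝ)
      * Q f₃ f₃ f₃ f₃ ^ (1 / 4 : ℝ) * Q f₄ f₄ f₄ f₄ ^ (1 / 4 : ℝ) := by
  have a1 : Q f₁ f₂ f₃ f₄ ≤ Q f₁ f₃ f₃ f₁ ^ (1 / 2 : ℝ) * Q f₄ f₂ f₂ f₄ ^ (1 / 2 : ℝ) := by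
    rw [← R_mul h₃ h₁ h₂ h₄, ← R_mul h₃ h₁ h₃ h₁, ← R_mul h₂ h₄ h₂ h₄]
    exact R_cs (R_meas h₃ h₁) (R_meas h₂ h₄)
  rw [Q_swap (f₁ := f₁) (f₂ := f₃), Q_swap (f₁ := f₄) (f₂ := f₂)] at a1
  have a2 := Q_two h₁ h₃
  have a3 := Q_two h₄ h₂
  have e : ∀ x : ℝ≥0∞, (x ^ (1 / 2 : ℝ)) ^ (1 / 2 : ℝ) = x ^ (1 / 4 : ℝ) := by
    intro x
    rw [← ENNReal.rpow_mul]
    norm_num
  calc Q f₁ f₂ f₃ f₄ ≤ Q f₁ f₃ f₁ f₃ ^ (1 / 2 : ℝ) * Q f₄ f₂ f₄ f₂ ^ (1 / 2 : ℝ) := a1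
    _ ≤ (Q f₁ f₁ f₁ f₁ ^ (1 / 2 : ℝ) * Q f₃ f₃ f₃ f₃ ^ (1 / 2 : ℝ)) ^ (1 / 2 : ℝ)
        * (Q f₄ f₄ f₄ f₄ ^ (1 / 2 : ℝ) * Q f₂ f₂ f₂ f₂ ^ (1 / 2 : ℝ)) ^ (1 / 2 : ℝ) := by
        gcongr
    _ = _ := by
        rw [ENNReal.mul_rpow_of_nonneg _ _ (by norm_num), ENNReal.mul_rpow_of_nonneg _ _ (by norm_num),
          e, e, e, e]
        ring

theorem yg_real {c : ℝ≥0∞} (H : ∀ f : ℝ → ℝ≥0∞, Measurable f →
    ∫⁻ x, ∫⁻ y, ∫⁻ z, f x * f y * f z * f (x + y - z) ≤ c * (∫⁻ x, f x ^ (4 / 3 : ℝ)) ^ 3) :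
    YG (volume : Measure ℝ) c := by
  intro f₁ f₂ f₃ f₄ h₁ h₂ h₃ h₄
  have b := Q_four h₁ h₂ h₃ h₄
  have e : ∀ x : ℝ≥0∞, (c * x ^ 3) ^ (1 / 4 : ℝ) = c ^ (1 / 4 : ℝ) * x ^ (3 / 4 : ℝ) := by
    intro x
    rw [ENNReal.mul_rpow_of_nonneg _ _ (by norm_num), ← ENNReal.rpow_natCast, ← ENNReal.rpow_mul]
    norm_num
  have ec : c ^ (1 / 4 : ℝ) * c ^ (1 / 4 : ℝ) * c ^ (1 / 4 : ℝ) * c ^ (1 / 4 : ℝ) = c := by
    have : c ^ (1 / 4 : ℝ) * c ^ (1 / 4 : ℝ) * c ^ (1 / 4 : ℝ) * c ^ (1 / 4 : ℝ)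
        = (c ^ (1 / 4 : ℝ)) ^ (4 : ℕ) := by ring
    rw [this, ← ENNReal.rpow_natCast, ← ENNReal.rpow_mul]
    norm_num
  have H' : ∀ f : ℝ → ℝ≥0∞, Measurable f →
      Q f f f f ^ (1 / 4 : ℝ) ≤ c ^ (1 / 4 : ℝ) * (∫⁻ x, f x ^ (4 / 3 : ℝ)) ^ (3 / 4 : ℝ) := by
    intro f hf
    rw [← e]
    gcongr
    exact H f hf
  calc ∫⁻ x, ∫⁻ y, ∫⁻ z, f₁ x * f₂ y * f₃ z * f₄ (x + y - z)
      ≤ Q f₁ f₁ f₁ f₁ ^ (1 / 4 : ℝ) * Q f₂ f₂ f₂ f₂ ^ (1 / 4 : ℝ)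
      * Q f₃ f₃ f₃ f₃ ^ (1 / 4 : ℝ) * Q f₄ f₄ f₄ f₄ ^ (1 / 4 : ℝ) := b
    _ ≤ (c ^ (1 / 4 : ℝ) * (∫⁻ x, f₁ x ^ (4 / 3 : ℝ)) ^ (3 / 4 : ℝ))
        * (c ^ (1 / 4 : ℝ) * (∫⁻ x, f₂ x ^ (4 / 3 : ℝ)) ^ (3 / 4 : ℝ))
        * (c ^ (1 / 4 : ℝ) * (∫⁻ x, f₃ x ^ (4 / 3 : ℝ)) ^ (3 / 4 : ℝ))
        * (c ^ (1 / 4 : ℝ) * (∫⁻ x, f₄ x ^ (4 / 3 : ℝ)) ^ (3 / 4 : ℝ)) := by
        gcongr
        · exact H' f₁ h₁
        · exact H' f₂ h₂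
        · exact H' f₃ h₃
        · exact H' f₄ h₄
    _ = (c ^ (1 / 4 : ℝ) * c ^ (1 / 4 : ℝ) * c ^ (1 / 4 : ℝ) * c ^ (1 / 4 : ℝ)) *
        ((∫⁻ x, f₁ x ^ (4 / 3 : ℝ)) ^ (3 / 4 : ℝ) * (∫⁻ x, f₂ x ^ (4 / 3 : ℝ)) ^ (3 / 4 : ℝ)
        * (∫⁻ x, f₃ x ^ (4 / 3 : ℝ)) ^ (3 / 4 : ℝ) * (∫⁻ x, f₄ x ^ (4 / 3 : ℝ)) ^ (3 / 4 : ℝ)) := by
        ring
    _ = _ := by rw [ec]

theorem yg_prod {X Y : Type*} [AddCommGroup X] [MeasurableSpace X] [MeasurableAdd₂ X]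
    [MeasurableSub₂ X] [AddCommGroup Y] [MeasurableSpace Y] [MeasurableAdd₂ Y] [MeasurableSub₂ Y]
    {μ : Measure X} {ν : Measure Y} [SFinite μ] [SFinite ν] {c d : ℝ≥0∞}
    (h1 : YG μ c) (h2 : YG ν d) : YG (μ.prod ν) (c * d) := by
  intro f₁ f₂ f₃ f₄ m₁ m₂ m₃ m₄
  -- marginals
  have key : ∀ f : X × Y → ℝ≥0∞, Measurable f →
      (∫⁻ p, f p ^ (4 / 3 : ℝ) ∂(μ.prod ν)) =
        ∫⁻ x, ((∫⁻ y, f (x, y) ^ (4 / 3 : ℝ) ∂ν) ^ (3 / 4 : ℝ)) ^ (4 / 3 : ℝ) ∂μ := by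
    intro f hf
    rw [lintegral_prod _ (hf.pow_const _).aemeasurable]
    refine lintegral_congr fun x => ?_
    rw [← ENNReal.rpow_mul]
    norm_num
  have mF : ∀ f : X × Y → ℝ≥0∞, Measurable f →
      Measurable fun x => (∫⁻ y, f (x, y) ^ (4 / 3 : ℝ) ∂ν) ^ (3 / 4 : ℝ) := by
    intro f hf
    refine Measurable.pow_const ?_ _
    exact Measurable.lintegral_prod_right' (f := fun p => f p ^ (4 / 3 : ℝ)) (hf.pow_const _)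
  rw [key f₁ m₁, key f₂ m₂, key f₃ m₃, key f₄ m₄]
  -- the integrand
  set T : X → Y → X → Y → X → Y → ℝ≥0∞ := fun x x' y y' z z' =>
    f₁ (x, x') * f₂ (y, y') * f₃ (z, z') * f₄ (x + y - z, x' + y' - z') with hT
  have mT : Measurable fun p : X × Y × X × Y × X × Y =>
      T p.1 p.2.1 p.2.2.1 p.2.2.2.1 p.2.2.2.2.1 p.2.2.2.2.2 := by
    simp only [hT]
    fun_prop
  have e0 : ∫⁻ x, ∫⁻ y, ∫⁻ z, f₁ x * f₂ y * f₃ z * f₄ (x + y - z) ∂(μ.prod ν) ∂(μ.prod ν)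
      ∂(μ.prod ν) = ∫⁻ x, ∫⁻ x', ∫⁻ y, ∫⁻ y', ∫⁻ z, ∫⁻ z', T x x' y y' z z' ∂ν ∂μ ∂ν ∂μ ∂ν ∂μ := by
    rw [lintegral_prod]
    swap
    · refine Measurable.aemeasurable ?_
      refine Measurable.lintegral_prod_right'
        (f := fun p : (X × Y) × (X × Y) => ∫⁻ z, f₁ p.1 * f₂ p.2 * f₃ z
          * f₄ (p.1 + p.2 - z) ∂(μ.prod ν)) ?_
      refine Measurable.lintegral_prod_right'
        (f := fun p : ((X × Y) × (X × Y)) × (X × Y) => f₁ p.1.1 * f₂ p.1.2 * f₃ p.2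
          * f₄ (p.1.1.1 + p.1.2.1 - p.2.1, p.1.1.2 + p.1.2.2 - p.2.2)) ?_
      fun_prop
    refine lintegral_congr fun x => lintegral_congr fun x' => ?_
    rw [lintegral_prod]
    swap
    · refine Measurable.aemeasurable ?_
      refine Measurable.lintegral_prod_right'
        (f := fun p : (X × Y) × (X × Y) => f₁ (x, x') * f₂ p.1 * f₃ p.2
          * f₄ (x + p.1.1 - p.2.1, x' + p.1.2 - p.2.2)) ?_
      fun_prop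
    refine lintegral_congr fun y => lintegral_congr fun y' => ?_
    rw [lintegral_prod]
    · rfl
    · refine Measurable.aemeasurable ?_
      show Measurable fun p : X × Y => f₁ (x, x') * f₂ (y, y') * f₃ p
          * f₄ (x + y - p.1, x' + y' - p.2)
      fun_prop
  have e1 : ∫⁻ x, ∫⁻ x', ∫⁻ y, ∫⁻ y', ∫⁻ z, ∫⁻ z', T x x' y y' z z' ∂ν ∂μ ∂ν ∂μ ∂ν ∂μ
      = ∫⁻ x, ∫⁻ y, ∫⁻ z, ∫⁻ x', ∫⁻ y', ∫⁻ z', T x x' y y' z z' ∂ν ∂ν ∂ν ∂μ ∂μ ∂μ := by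
    refine lintegral_congr fun x => ?_
    rw [lintegral_lintegral_swap]
    swap
    · refine Measurable.aemeasurable ?_
      refine Measurable.lintegral_prod_right'
        (f := fun p : (Y × X) × Y => ∫⁻ z, ∫⁻ z', T x p.1.1 p.1.2 p.2 z z' ∂ν ∂μ) ?_
      refine Measurable.lintegral_prod_right'
        (f := fun p : ((Y × X) × Y) × X => ∫⁻ z', T x p.1.1.1 p.1.1.2 p.1.2 p.2 z' ∂ν) ?_
      refine Measurable.lintegral_prod_right'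
        (f := fun p : (((Y × X) × Y) × X) × Y => T x p.1.1.1.1 p.1.1.1.2 p.1.1.2 p.1.2 p.2) ?_
      simp only [hT]
      fun_prop
    refine lintegral_congr fun y => ?_
    have s1 : ∀ x', ∫⁻ y', ∫⁻ z, ∫⁻ z', T x x' y y' z z' ∂ν ∂μ ∂ν
        = ∫⁻ z, ∫⁻ y', ∫⁻ z', T x x' y y' z z' ∂ν ∂ν ∂μ := by
      intro x'
      rw [lintegral_lintegral_swap]
      refine Measurable.aemeasurable ?_
      refine Measurable.lintegral_prod_right'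
        (f := fun p : (Y × X) × Y => T x x' y p.1.1 p.1.2 p.2) ?_
      simp only [hT]
      fun_prop
    simp_rw [s1]
    rw [lintegral_lintegral_swap]
    refine Measurable.aemeasurable ?_
    refine Measurable.lintegral_prod_right'
      (f := fun p : (Y × X) × Y => ∫⁻ z', T x p.1.1 y p.2 p.1.2 z' ∂ν) ?_
    refine Measurable.lintegral_prod_right'
      (f := fun p : ((Y × X) × Y) × Y => T x p.1.1.1 y p.1.2 p.1.1.2 p.2) ?_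
    simp only [hT]
    fun_prop
  rw [e0, e1]
  calc ∫⁻ x, ∫⁻ y, ∫⁻ z, ∫⁻ x', ∫⁻ y', ∫⁻ z', T x x' y y' z z' ∂ν ∂ν ∂ν ∂μ ∂μ ∂μ
      ≤ ∫⁻ x, ∫⁻ y, ∫⁻ z, d * ((∫⁻ t, f₁ (x, t) ^ (4 / 3 : ℝ) ∂ν) ^ (3 / 4 : ℝ)
        * (∫⁻ t, f₂ (y, t) ^ (4 / 3 : ℝ) ∂ν) ^ (3 / 4 : ℝ)
        * (∫⁻ t, f₃ (z, t) ^ (4 / 3 : ℝ) ∂ν) ^ (3 / 4 : ℝ)
        * (∫⁻ t, f₄ (x + y - z, t) ^ (4 / 3 : ℝ) ∂ν) ^ (3 / 4 : ℝ)) ∂μ ∂μ ∂μ := by
        refine lintegral_mono fun x => lintegral_mono fun y => lintegral_mono fun z => ?_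
        exact h2 (fun t => f₁ (x, t)) (fun t => f₂ (y, t)) (fun t => f₃ (z, t))
          (fun t => f₄ (x + y - z, t)) (m₁.comp measurable_prodMk_left)
          (m₂.comp measurable_prodMk_left) (m₃.comp measurable_prodMk_left)
          (m₄.comp measurable_prodMk_left)
    _ = d * ∫⁻ x, ∫⁻ y, ∫⁻ z, ((∫⁻ t, f₁ (x, t) ^ (4 / 3 : ℝ) ∂ν) ^ (3 / 4 : ℝ)
        * (∫⁻ t, f₂ (y, t) ^ (4 / 3 : ℝ) ∂ν) ^ (3 / 4 : ℝ)
        * (∫⁻ t, f₃ (z, t) ^ (4 / 3 : ℝ) ∂ν) ^ (3 / 4 : ℝ)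
        * (∫⁻ t, f₄ (x + y - z, t) ^ (4 / 3 : ℝ) ∂ν) ^ (3 / 4 : ℝ)) ∂μ ∂μ ∂μ := by
        have g₁ := mF f₁ m₁
        have g₂ := mF f₂ m₂
        have g₃ := mF f₃ m₃
        have g₄ := mF f₄ m₄
        set F₁ := fun x => (∫⁻ y, f₁ (x, y) ^ (4 / 3 : ℝ) ∂ν) ^ (3 / 4 : ℝ) with hF₁
        set F₂ := fun x => (∫⁻ y, f₂ (x, y) ^ (4 / 3 : ℝ) ∂ν) ^ (3 / 4 : ℝ) with hF₂
        set F₃ := fun x => (∫⁻ y, f₃ (x, y) ^ (4 / 3 : ℝ) ∂ν) ^ (3 / 4 : ℝ) with hF₃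
        set F₄ := fun x => (∫⁻ y, f₄ (x, y) ^ (4 / 3 : ℝ) ∂ν) ^ (3 / 4 : ℝ) with hF₄
        show ∫⁻ x, ∫⁻ y, ∫⁻ z, d * (F₁ x * F₂ y * F₃ z * F₄ (x + y - z)) ∂μ ∂μ ∂μ
          = d * ∫⁻ x, ∫⁻ y, ∫⁻ z, (F₁ x * F₂ y * F₃ z * F₄ (x + y - z)) ∂μ ∂μ ∂μ
        rw [← lintegral_const_mul]
        swap
        · refine Measurable.lintegral_prod_right'
            (f := fun p : X × X => ∫⁻ z, F₁ p.1 * F₂ p.2 * F₃ z * F₄ (p.1 + p.2 - z) ∂μ) ?_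
          refine Measurable.lintegral_prod_right'
            (f := fun p : (X × X) × X => F₁ p.1.1 * F₂ p.1.2 * F₃ p.2
              * F₄ (p.1.1 + p.1.2 - p.2)) ?_
          fun_prop
        refine lintegral_congr fun x => ?_
        rw [← lintegral_const_mul]
        swap
        · refine Measurable.lintegral_prod_right'
            (f := fun p : X × X => F₁ x * F₂ p.1 * F₃ p.2 * F₄ (x + p.1 - p.2)) ?_
          fun_prop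
        refine lintegral_congr fun y => ?_
        rw [← lintegral_const_mul]
        fun_prop
    _ ≤ d * (c * _) := by
        gcongr
        exact h1 _ _ _ _ (mF f₁ m₁) (mF f₂ m₂) (mF f₃ m₃) (mF f₄ m₄)
    _ = _ := by ring

theorem yg_equiv {X Y : Type*} [AddCommGroup X] [MeasurableSpace X] [AddCommGroup Y]
    [MeasurableSpace Y] {μ : Measure X} {ν : Measure Y} (e : X ≃ᵐ Y)
    (he : MeasurePreserving e μ ν) (hlin : ∀ x y z, e (x + y - z) = e x + e y - e z)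
    {c : ℝ≥0∞} (h2 : YG ν c) : YG μ c := by
  intro f₁ f₂ f₃ f₄ m₁ m₂ m₃ m₄
  have t : ∀ k : X → ℝ≥0∞, ∫⁻ x, k x ∂μ = ∫⁻ y, k (e.symm y) ∂ν := by
    intro k
    rw [← he.lintegral_comp_emb e.measurableEmbedding]
    simp
  have hs : ∀ x y z, e.symm (x + y - z) = e.symm x + e.symm y - e.symm z := by
    intro x y z
    apply e.injective
    rw [hlin]
    simp
  have h := h2 (fun y => f₁ (e.symm y)) (fun y => f₂ (e.symm y)) (fun y => f₃ (e.symm y))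
    (fun y => f₄ (e.symm y)) (m₁.comp e.symm.measurable) (m₂.comp e.symm.measurable)
    (m₃.comp e.symm.measurable) (m₄.comp e.symm.measurable)
  simp only [t, ← hs]
  exact h

theorem yg_pi {c : ℝ≥0∞} (h : YG (volume : Measure ℝ) c) (n : ℕ) :
    YG (volume : Measure (Fin n → ℝ)) (c ^ n) := by
  induction n with
  | zero =>
    intro f₁ f₂ f₃ f₄ m₁ m₂ m₃ m₄
    rw [Measure.volume_pi_eq_dirac (default : Fin 0 → ℝ)]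
    simp only [lintegral_dirac, pow_zero, one_mul]
    have e : ∀ x : ℝ≥0∞, (x ^ (4 / 3 : ℝ)) ^ (3 / 4 : ℝ) = x := by
      intro x
      rw [← ENNReal.rpow_mul]
      norm_num
    rw [e, e, e, e, show ((default : Fin 0 → ℝ) + default - default) = default from
      Subsingleton.elim _ _]
  | succ n ih =>
    rw [pow_succ']
    refine yg_equiv (MeasurableEquiv.piFinSuccAbove (fun _ : Fin (n + 1) => ℝ) 0)
      (volume_preserving_piFinSuccAbove (fun _ : Fin (n + 1) => ℝ) 0) ?_ (yg_prod h ih)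
    intro x y z
    rfl

/-- M9 with M8 as a hypothesis. -/
theorem young_pi_of {a : ℝ} (ha : 0 ≤ a) (H : ∀ f : ℝ → ℝ≥0∞, Measurable f →
    ∫⁻ x, ∫⁻ y, ∫⁻ z, f x * f y * f z * f (x + y - z)
      ≤ ENNReal.ofReal a * (∫⁻ x, f x ^ (4 / 3 : ℝ)) ^ 3)
    (m : ℕ) (f₁ f₂ f₃ f₄ : (Fin m → ℝ) → ℝ≥0∞) (h₁ : Measurable f₁)
    (h₂ : Measurable f₂) (h₃ : Measurable f₃) (h₄ : Measurable f₄) :
    ∫⁻ x, ∫⁻ y, ∫⁻ z, f₁ x * f₂ y * f₃ z * f₄ (x + y - z)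
      ≤ ENNReal.ofReal (a ^ m) * ((∫⁻ x, f₁ x ^ (4 / 3 : ℝ)) ^ (3 / 4 : ℝ)
        * (∫⁻ x, f₂ x ^ (4 / 3 : ℝ)) ^ (3 / 4 : ℝ) * (∫⁻ x, f₃ x ^ (4 / 3 : ℝ)) ^ (3 / 4 : ℝ)
        * (∫⁻ x, f₄ x ^ (4 / 3 : ℝ)) ^ (3 / 4 : ℝ)) := by
  rw [ENNReal.ofReal_pow ha]
  exact yg_pi (yg_real H) m f₁ f₂ f₃ f₄ h₁ h₂ h₃ h₄

end YoungPi

end Vale.Agent.P230
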