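import Vale.Agent.Lib.P230L.YoungOne
import Vale.Agent.Lib.P230L.YoungPi0

/-!
# P230, lattice half: the strict Young inequality for four functions on `ℝᵐ`
-/

namespace Vale.Agent.P230

open MeasureTheory Set
open scoped ENNReal

theorem young_pi (m : ℕ) (f₁ f₂ f₃ f₄ : (Fin m → ℝ) → ℝ≥0∞) (h₁ : Measurable f₁)
    (h₂ : Measurable f₂) (h₃ : Measurable f₃) (h₄ : Measurable f₄) :
    ∫⁻ x, ∫⁻ y, ∫⁻ z, f₁ x * f₂ y * f₃ z * f₄ (x + y - z)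
      ≤ ENNReal.ofReal (0.996 ^ m) * ((∫⁻ x, f₁ x ^ (4 / 3 : ℝ)) ^ (3 / 4 : ℝ)
        * (∫⁻ x, f₂ x ^ (4 / 3 : ℝ)) ^ (3 / 4 : ℝ) * (∫⁻ x, f₃ x ^ (4 / 3 : ℝ)) ^ (3 / 4 : ℝ)
        * (∫⁻ x, f₄ x ^ (4 / 3 : ℝ)) ^ (3 / 4 : ℝ)) :=
  YoungPi.young_pi_of (by norm_num) young_one m f₁ f₂ f₃ f₄ h₁ h₂ h₃ h₄

end Vale.Agent.P230
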