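import Vale.Agent.Lib.P230L.DefsL
import Vale.Agent.Lib.P230L.YoungPi

/-!
# P230, lattice half, module M10: additive quadruples of integer points of a convex body
-/

namespace Vale.Agent.P230

open MeasureTheory Set
open scoped ENNReal

namespace EnergyAux

/-- the half-open unit cell centred at the integer point `h` -/
def ucell {m : ℕ} (h : Fin m → ℤ) : Set (Fin m → ℝ) :=
  Set.pi Set.univ fun i => Set.Ico ((h i : ℝ) - 1 / 2) ((h i : ℝ) + 1 / 2)

theorem measurableSet_ucell {m : ℕ} (h : Fin m → ℤ) : MeasurableSet (ucell h) :=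
  MeasurableSet.univ_pi fun _ => measurableSet_Ico

theorem volume_ucell {m : ℕ} (h : Fin m → ℤ) : volume (ucell h) = 1 := by
  unfold ucell
  rw [Real.volume_pi_Ico]
  refine Finset.prod_eq_one fun i _ => ?_
  rw [show (h i : ℝ) + 1 / 2 - ((h i : ℝ) - 1 / 2) = 1 by ring, ENNReal.ofReal_one]

theorem mem_ucell {m : ℕ} {h : Fin m → ℤ} {x : Fin m → ℝ} :
    x ∈ ucell h ↔ ∀ i, (h i : ℝ) - 1 / 2 ≤ x i ∧ x i < (h i : ℝ) + 1 / 2 := by
  simp [ucell, Set.mem_pi]

theorem ucell_inj {m : ℕ} {h h' : Fin m → ℤ} {x : Fin m → ℝ} (hx : x ∈ ucell h)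
    (hx' : x ∈ ucell h') : h = h' := by
  rw [mem_ucell] at hx hx'
  funext i
  have h1 := hx i
  have h2 := hx' i
  have h3 : (h i : ℝ) < h' i + 1 := by linarith
  have h4 : (h' i : ℝ) < h i + 1 := by linarith
  have h5 : h i < h' i + 1 := by exact_mod_cast h3
  have h6 : h' i < h i + 1 := by exact_mod_cast h4
  omega

/-- the dilate of a grid body contains all points at distance at most `3/2` -/
theorem mem_dilate {m : ℕ} {r : ℝ} (hr : 1 ≤ r) {A : Set (Fin m → ℝ)}
    (hconv : Convex ℝ A) {c₀ : Fin m → ℝ} (hc₀ : ∀ x : Fin m → ℝ, (∀ i, |x i - c₀ i| ≤ r) → x ∈ A)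
    {x y : Fin m → ℝ} (hx : x ∈ A) (hy : ∀ i, |y i - x i| ≤ 3 / 2) :
    y ∈ AffineMap.homothety c₀ (1 + 3 / (2 * r)) '' A := by
  have hr0 : 0 < r := by linarith
  have hl : 0 < 1 + 3 / (2 * r) := by positivity
  set l : ℝ := 1 + 3 / (2 * r) with hldef
  set z : Fin m → ℝ := fun i => c₀ i + (y i - x i) * (2 * r / 3) with hz
  have hzA : z ∈ A := by
    apply hc₀
    intro i
    rw [hz]
    have h1 : c₀ i + (y i - x i) * (2 * r / 3) - c₀ i = (y i - x i) * (2 * r / 3) := by ring
    change |c₀ i + (y i - x i) * (2 * r / 3) - c₀ i| ≤ r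
    rw [h1, abs_mul, abs_of_pos (by positivity : 0 < 2 * r / 3)]
    calc |y i - x i| * (2 * r / 3) ≤ 3 / 2 * (2 * r / 3) :=
          mul_le_mul_of_nonneg_right (hy i) (by positivity)
      _ = r := by ring
  have hcomb := hconv hx hzA (a := 1 / l) (b := 1 - 1 / l) (by positivity)
    (by
      have : 1 / l ≤ 1 := by
        rw [div_le_one hl]
        have : 0 ≤ 3 / (2 * r) := by positivity
        linarith
      linarith) (by ring)
  refine ⟨_, hcomb, ?_⟩
  funext i
  rw [AffineMap.homothety_apply]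
  simp only [vsub_eq_sub, vadd_eq_add, Pi.add_apply, Pi.smul_apply, Pi.sub_apply, smul_eq_mul, hz]
  have hl1 : l - 1 = 3 / (2 * r) := by rw [hldef]; ring
  have h2 : (l - 1) * (2 * r / 3) = 1 := by
    rw [hl1]
    field_simp
  have h3 : l * (1 / l * x i + (1 - 1 / l) * (c₀ i + (y i - x i) * (2 * r / 3)) - c₀ i) + c₀ i
      = x i + ((l - 1) * (2 * r / 3)) * (y i - x i) := by
    field_simp
    ring
  rw [h3, h2]
  ring

end EnergyAux

open EnergyAux in
theorem energy_count {m : ℕ} {r : ℝ} (hr : 1 ≤ r) {B : ℕ} {A : Set (Fin m → ℝ)}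
    (hA : GridBody r B A) (c : Fin m → ℤ) :
    (({t : (Fin m → ℤ) × (Fin m → ℤ) × (Fin m → ℤ) | t.1 ∈ gridPts A B ∧ t.2.1 ∈ gridPts A B ∧
        t.2.2 ∈ gridPts A B ∧ t.1 + t.2.1 - t.2.2 + c ∈ gridPts A B}.ncard : ℕ) : ℝ)
      ≤ 0.996 ^ m * ((1 + 2 / r) ^ m * volume.real A) ^ 3 := by
  classical
  have hr0 : 0 < r := by linarith
  obtain ⟨c₀, hc₀⟩ := hA.cube
  set l : ℝ := 1 + 3 / (2 * r) with hldef
  have hl : 0 < l := by positivity
  set A' : Set (Fin m → ℝ) := AffineMap.homothety c₀ l '' A with hA'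
  have hA'c : IsCompact A' := hA.compact.image (AffineMap.homothety_continuous c₀ l)
  have hA'm : MeasurableSet A' := hA'c.isClosed.measurableSet
  have hfin : volume A ≠ ⊤ := hA.compact.measure_lt_top.ne
  have hvol : volume A' = ENNReal.ofReal (l ^ m * volume.real A) := by
    rw [hA', Measure.addHaar_image_homothety]
    rw [Module.finrank_fintype_fun_eq_card, Fintype.card_fin, abs_of_pos (pow_pos hl m),
      ENNReal.ofReal_mul (pow_nonneg hl.le m), ofReal_measureReal hfin]
  -- membership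
  have hmem : ∀ h ∈ gridPts A B, (fun i => (h i : ℝ)) ∈ A := by
    intro h hh
    unfold gridPts at hh
    rw [Finset.mem_filter] at hh
    exact hh.2
  set T : Finset ((Fin m → ℤ) × (Fin m → ℤ) × (Fin m → ℤ)) :=
    ((gridPts A B) ×ˢ ((gridPts A B) ×ˢ (gridPts A B))).filter
      (fun t => t.1 + t.2.1 - t.2.2 + c ∈ gridPts A B) with hT
  have hTset : {t : (Fin m → ℤ) × (Fin m → ℤ) × (Fin m → ℤ) | t.1 ∈ gridPts A B ∧
      t.2.1 ∈ gridPts A B ∧ t.2.2 ∈ gridPts A B ∧ t.1 + t.2.1 - t.2.2 + c ∈ gridPts A B} =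
      (T : Set _) := by
    ext t
    simp only [hT, Set.mem_ofPred_eq, Finset.coe_filter, Finset.mem_product]
    tauto
  rw [hTset, Set.ncard_coe_finset]
  set cc : Fin m → ℝ := fun i => (c i : ℝ) with hcc
  set f : (Fin m → ℝ) → ℝ≥0∞ := A'.indicator 1 with hf
  set f₄ : (Fin m → ℝ) → ℝ≥0∞ := fun w => f (w + cc) with hf₄
  have hfm : Measurable f := measurable_one.indicator hA'm
  have hf₄m : Measurable f₄ := hfm.comp (measurable_id.add_const cc)
  have hyoung := young_pi m f f f f₄ hfm hfm hfm hf₄m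
  have hfp : ∀ x, f x ^ (4 / 3 : ℝ) = f x := by
    intro x
    rw [hf]
    by_cases hx : x ∈ A'
    · rw [Set.indicator_of_mem hx]
      simp
    · rw [Set.indicator_of_notMem hx]
      simp
  have hint : ∫⁻ x, f x ^ (4 / 3 : ℝ) = volume A' := by
    simp only [hfp]
    rw [hf, lintegral_indicator_one hA'm]
  have hint₄ : ∫⁻ x, f₄ x ^ (4 / 3 : ℝ) = volume A' := by
    rw [← hint]
    exact lintegral_add_right_eq_self (fun x => f x ^ (4 / 3 : ℝ)) cc
  rw [hint, hint₄] at hyoung
  have hpow : (volume A') ^ (3 / 4 : ℝ) * (volume A') ^ (3 / 4 : ℝ) * (volume A') ^ (3 / 4 : ℝ) *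
      (volume A') ^ (3 / 4 : ℝ) = (volume A') ^ 3 := by
    have h1 : ((volume A') ^ (3 / 4 : ℝ)) ^ (4 : ℕ) = (volume A') ^ 3 := by
      rw [← ENNReal.rpow_natCast, ← ENNReal.rpow_mul, ← ENNReal.rpow_natCast]
      congr 1
      norm_num
    rw [← h1]
    ring
  rw [hpow] at hyoung
  -- the union of the cells
  set G : (Fin m → ℝ) × (Fin m → ℝ) × (Fin m → ℝ) → ℝ≥0∞ :=
    fun t => f t.1 * f t.2.1 * f t.2.2 * f₄ (t.1 + t.2.1 - t.2.2) with hG
  have hGm : Measurable G := by
    rw [hG]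
    fun_prop
  have hcount : (T.card : ℝ≥0∞) ≤ ∫⁻ t, G t := by
    have hdisj : Set.PairwiseDisjoint (T : Set ((Fin m → ℤ) × (Fin m → ℤ) × (Fin m → ℤ)))
        (fun t => ucell t.1 ×ˢ (ucell t.2.1 ×ˢ ucell t.2.2)) := by
      intro t _ t' _ htt'
      rw [Function.onFun, Set.disjoint_left]
      intro x hx hx'
      apply htt'
      rw [Set.mem_prod, Set.mem_prod] at hx hx'
      exact Prod.ext (ucell_inj hx.1 hx'.1)
        (Prod.ext (ucell_inj hx.2.1 hx'.2.1) (ucell_inj hx.2.2 hx'.2.2))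
    have hmeas : ∀ t ∈ T, MeasurableSet (ucell t.1 ×ˢ (ucell t.2.1 ×ˢ ucell t.2.2)) :=
      fun t _ => (measurableSet_ucell _).prod ((measurableSet_ucell _).prod (measurableSet_ucell _))
    have h1 : volume (⋃ t ∈ T, ucell t.1 ×ˢ (ucell t.2.1 ×ˢ ucell t.2.2)) = (T.card : ℝ≥0∞) := by
      rw [measure_biUnion_finset hdisj hmeas]
      rw [Finset.sum_congr rfl (g := fun _ => (1 : ℝ≥0∞))]
      · simp
      · intro t _
        rw [Measure.volume_eq_prod, Measure.prod_prod, Measure.volume_eq_prod, Measure.prod_prod,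
          volume_ucell, volume_ucell, volume_ucell]
        simp
    rw [← h1, ← lintegral_indicator_one (T.measurableSet_biUnion hmeas)]
    refine lintegral_mono fun x => ?_
    by_cases hx : x ∈ ⋃ t ∈ T, ucell t.1 ×ˢ (ucell t.2.1 ×ˢ ucell t.2.2)
    · rw [Set.indicator_of_mem hx]
      rw [Set.mem_iUnion₂] at hx
      obtain ⟨t, htT, hxt⟩ := hx
      rw [Set.mem_prod, Set.mem_prod] at hxt
      obtain ⟨hx1, hx2, hx3⟩ := hxt
      rw [mem_ucell] at hx1 hx2 hx3
      rw [hT, Finset.mem_filter, Finset.mem_product, Finset.mem_product] at htT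
      obtain ⟨⟨ht1, ht2, ht3⟩, ht4⟩ := htT
      have e1 : x.1 ∈ A' := mem_dilate hr hA.convex hc₀ (hmem _ ht1) (fun i => by
        have := hx1 i
        rw [abs_le]
        constructor <;> linarith)
      have e2 : x.2.1 ∈ A' := mem_dilate hr hA.convex hc₀ (hmem _ ht2) (fun i => by
        have := hx2 i
        rw [abs_le]
        constructor <;> linarith)
      have e3 : x.2.2 ∈ A' := mem_dilate hr hA.convex hc₀ (hmem _ ht3) (fun i => by
        have := hx3 i
        rw [abs_le]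
        constructor <;> linarith)
      have e4 : x.1 + x.2.1 - x.2.2 + cc ∈ A' :=
        mem_dilate hr hA.convex hc₀ (hmem _ ht4) (fun i => by
          have h5 := hx1 i
          have h6 := hx2 i
          have h7 := hx3 i
          simp only [Pi.add_apply, Pi.sub_apply, hcc]
          push_cast
          rw [abs_le]
          constructor <;> linarith)
      have g1 : G x = 1 := by
        rw [hG]
        simp only [hf₄, hf]
        rw [Set.indicator_of_mem e1, Set.indicator_of_mem e2, Set.indicator_of_mem e3,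
          Set.indicator_of_mem e4]
        simp
      rw [g1]
      simp
    · rw [Set.indicator_of_notMem hx]
      exact zero_le
  have hfub : ∫⁻ t, G t = ∫⁻ x, ∫⁻ y, ∫⁻ z, f x * f y * f z * f₄ (x + y - z) := by
    rw [Measure.volume_eq_prod, lintegral_prod _ hGm.aemeasurable]
    refine lintegral_congr fun x => ?_
    rw [Measure.volume_eq_prod, lintegral_prod]
    exact (hGm.comp measurable_prodMk_left).aemeasurable
  rw [hfub] at hcount
  have hfinal := hcount.trans hyoung
  rw [hvol, ← ENNReal.ofReal_pow (by positivity), ← ENNReal.ofReal_mul (by positivity)] at hfinal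
  have hres : (T.card : ℝ) ≤ 0.996 ^ m * (l ^ m * volume.real A) ^ 3 := by
    have h1 : ENNReal.ofReal (T.card : ℝ) ≤
        ENNReal.ofReal (0.996 ^ m * (l ^ m * volume.real A) ^ 3) := by
      rw [ENNReal.ofReal_natCast]
      exact hfinal
    exact (ENNReal.ofReal_le_ofReal_iff (by positivity)).mp h1
  refine hres.trans ?_
  have hl2 : l ≤ 1 + 2 / r := by
    rw [hldef]
    have : 3 / (2 * r) = (3 / 2) / r := by field_simp
    rw [this]
    gcongr
    norm_num
  gcongr

end Vale.Agent.P230
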