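import Vale.Agent.Lib.P230L.DefsL

/-!
# P230, lattice half: lattice points of a convex body versus its volume (module M6)
-/

namespace Vale.Agent.P230

open MeasureTheory Set
open scoped ENNReal

namespace GridCount

theorem mem_gridPts {m : ℕ} {A : Set (Fin m → ℝ)} {B : ℕ} {h : Fin m → ℤ} :
    h ∈ gridPts A B ↔ (∀ i, -(B : ℤ) ≤ h i ∧ h i ≤ B) ∧ (fun i => (h i : ℝ)) ∈ A := by
  classical
  unfold gridPts
  rw [Finset.mem_filter, Fintype.mem_piFinset]
  simp only [Finset.mem_Icc]

/-- the homothetic image of `A` about `c` with factor `s ≥ 0` has volume `s ^ m * vol A` -/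
theorem volume_homothety {m : ℕ} (c : Fin m → ℝ) {s : ℝ} (hs : 0 ≤ s) (A : Set (Fin m → ℝ)) :
    volume (AffineMap.homothety c s '' A) = ENNReal.ofReal (s ^ m) * volume A := by
  rw [Measure.addHaar_image_homothety, Module.finrank_fin_fun, abs_of_nonneg (pow_nonneg hs m)]

/-- points near `A` are in a dilate of `A` -/
theorem mem_dilate {m : ℕ} {r : ℝ} {A : Set (Fin m → ℝ)} (hA : Convex ℝ A)
    {c : Fin m → ℝ} (hc : ∀ x : Fin m → ℝ, (∀ i, |x i - c i| ≤ r) → x ∈ A) {t : ℝ} (ht : 0 ≤ t)
    {a x : Fin m → ℝ} (ha : a ∈ A) (hx : ∀ i, |x i - a i| ≤ t * r) :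
    x ∈ AffineMap.homothety c (1 + t) '' A := by
  have h1t : 0 < 1 + t := by linarith
  rcases eq_or_lt_of_le ht with h0 | h0
  · have : x = a := by
      funext i
      have := hx i
      rw [← h0, zero_mul] at this
      have := abs_nonpos_iff.1 this
      linarith
    refine ⟨a, ha, ?_⟩
    rw [← h0, this, add_zero, AffineMap.homothety_one]
    rfl
  · have hb : (fun i => c i + (x i - a i) / t) ∈ A := by
      apply hc
      intro i
      rw [add_sub_cancel_left, abs_div, abs_of_pos h0, div_le_iff₀ h0, mul_comm]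
      exact hx i
    refine ⟨(1 / (1 + t)) • a + (t / (1 + t)) • (fun i => c i + (x i - a i) / t), ?_, ?_⟩
    · apply hA ha hb (by positivity) (by positivity)
      field_simp
    · funext i
      simp only [AffineMap.homothety_apply, vsub_eq_sub, vadd_eq_add, Pi.add_apply, Pi.smul_apply,
        Pi.sub_apply, smul_eq_mul]
      field_simp
      ring

theorem volume_cell {m : ℕ} (h : Fin m → ℝ) {s : ℝ} (hs : 0 ≤ s) :
    volume (Set.pi univ fun i => Ico (h i - s / 2) (h i + s / 2)) = ENNReal.ofReal (s ^ m) := by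
  rw [Real.volume_pi_Ico]
  have : ∀ i, h i + s / 2 - (h i - s / 2) = s := fun i => by ring
  simp only [this, Finset.prod_const, Finset.card_univ, Fintype.card_fin]
  rw [ENNReal.ofReal_pow hs]

end GridCount

open GridCount

/-- M6a -/
theorem grid_upper {m : ℕ} {r : ℝ} (hr : 0 < r) {B : ℕ} {A : Set (Fin m → ℝ)}
    (hA : GridBody r B A) (α : ℕ) (hα : 1 ≤ α) (v : Fin m → ℤ) :
    (({h : Fin m → ℤ | h ∈ gridPts A B ∧ ∀ i, (α : ℤ) ∣ h i - v i}.ncard : ℕ) : ℝ)
      ≤ (1 / (α : ℝ) + 1 / (2 * r)) ^ m * volume.real A := by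
  classical
  have hα0 : (0 : ℝ) < α := by exact_mod_cast hα
  obtain ⟨c, hc⟩ := hA.cube
  set F : Finset (Fin m → ℤ) := (gridPts A B).filter (fun h => ∀ i, (α : ℤ) ∣ h i - v i) with hF
  have hset : {h : Fin m → ℤ | h ∈ gridPts A B ∧ ∀ i, (α : ℤ) ∣ h i - v i} = (F : Set (Fin m → ℤ)) := by
    ext h
    simp [hF]
  rw [hset, Set.ncard_coe_finset]
  set cell : (Fin m → ℤ) → Set (Fin m → ℝ) := fun h =>
    Set.pi univ fun i => Ico ((h i : ℝ) - (α : ℝ) / 2) ((h i : ℝ) + (α : ℝ) / 2) with hcell
  have hvol : ∀ h, volume (cell h) = ENNReal.ofReal ((α : ℝ) ^ m) := fun h =>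
    volume_cell (fun i => (h i : ℝ)) hα0.le
  have hdisj : (F : Set (Fin m → ℤ)).PairwiseDisjoint cell := by
    intro h hh g hg hne
    rw [Function.onFun, Set.disjoint_left]
    intro x hx hx'
    apply hne
    funext i
    have h1 := hx i (mem_univ i)
    have h2 := hx' i (mem_univ i)
    simp only [mem_Ico] at h1 h2
    have hh' := (Finset.mem_filter.1 hh).2 i
    have hg' := (Finset.mem_filter.1 hg).2 i
    have hd : (α : ℤ) ∣ h i - g i := by
      have := dvd_sub hh' hg'
      have e : h i - v i - (g i - v i) = h i - g i := by ring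
      rwa [e] at this
    have hlt : |h i - g i| < (α : ℤ) := by
      have : |(h i : ℝ) - g i| < α := by
        rw [abs_lt]
        constructor <;> linarith
      exact_mod_cast this
    have := Int.eq_zero_of_abs_lt_dvd hd hlt
    linarith
  have hmeas : ∀ h ∈ F, MeasurableSet (cell h) := fun h _ =>
    MeasurableSet.univ_pi fun i => measurableSet_Ico
  have hunion := measure_biUnion_finset (μ := volume) hdisj hmeas
  have hsub : (⋃ h ∈ F, cell h) ⊆ AffineMap.homothety c (1 + (α : ℝ) / (2 * r)) '' A := by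
    intro x hx
    simp only [mem_iUnion] at hx
    obtain ⟨h, hh, hx⟩ := hx
    have hhA := (mem_gridPts.1 (Finset.mem_filter.1 hh).1).2
    refine mem_dilate hA.convex hc (by positivity) hhA ?_
    intro i
    have h1 := hx i (mem_univ i)
    simp only [mem_Ico] at h1
    have e : (α : ℝ) / (2 * r) * r = α / 2 := by field_simp
    rw [e, abs_le]
    constructor <;> linarith
  have hle := measure_mono (μ := (volume : Measure (Fin m → ℝ))) hsub
  rw [hunion, volume_homothety c (by positivity)] at hle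
  simp only [hvol, Finset.sum_const, nsmul_eq_mul] at hle
  have hAfin : volume A ≠ ∞ := hA.compact.measure_lt_top.ne
  have hle2 := ENNReal.toReal_mono (ENNReal.mul_ne_top ENNReal.ofReal_ne_top hAfin) hle
  rw [ENNReal.toReal_mul, ENNReal.toReal_mul, ENNReal.toReal_natCast,
    ENNReal.toReal_ofReal (by positivity), ENNReal.toReal_ofReal (by positivity)] at hle2
  have e2 : (1 / (α : ℝ) + 1 / (2 * r)) ^ m * volume.real A =
      ((1 + (α : ℝ) / (2 * r)) ^ m * volume.real A) / (α : ℝ) ^ m := by
    have e3 : (1 / (α : ℝ) + 1 / (2 * r)) = (1 + (α : ℝ) / (2 * r)) / α := by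
      field_simp
    rw [e3, div_pow]
    ring
  rw [e2, le_div_iff₀ (by positivity)]
  exact hle2

/-- M6b -/
theorem grid_lower {m : ℕ} {r : ℝ} (hr : 1 ≤ r) {B : ℕ} {A : Set (Fin m → ℝ)}
    (hA : GridBody r B A) :
    (1 - 1 / (2 * r)) ^ m * volume.real A ≤ ((gridPts A B).card : ℝ) := by
  classical
  obtain ⟨c, hc⟩ := hA.cube
  have hr0 : 0 < r := by linarith
  set t : ℝ := 1 / (2 * r) with ht
  have ht0 : 0 < t := by positivity
  have ht1 : t ≤ 1 / 2 := by
    rw [ht]
    apply one_div_le_one_div_of_le (by norm_num) (by linarith)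
  have h1t : 0 ≤ 1 - t := by linarith
  set cell : (Fin m → ℤ) → Set (Fin m → ℝ) := fun h =>
    Set.pi univ fun i => Ico ((h i : ℝ) - (1 : ℝ) / 2) ((h i : ℝ) + (1 : ℝ) / 2) with hcell
  have hvol : ∀ h, volume (cell h) = 1 := fun h => by
    have := volume_cell (fun i => (h i : ℝ)) (zero_le_one (α := ℝ))
    rw [one_pow, ENNReal.ofReal_one] at this
    exact this
  have hsub : AffineMap.homothety c (1 - t) '' A ⊆ ⋃ h ∈ gridPts A B, cell h := by
    rintro x ⟨a, ha, rfl⟩
    set x : Fin m → ℝ := AffineMap.homothety c (1 - t) a with hx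
    have hxi : ∀ i, x i = (1 - t) * a i + t * c i := by
      intro i
      rw [hx]
      simp only [AffineMap.homothety_apply, vsub_eq_sub, vadd_eq_add, Pi.add_apply, Pi.smul_apply,
        Pi.sub_apply, smul_eq_mul]
      ring
    set h : Fin m → ℤ := fun i => ⌊x i + 1 / 2⌋ with hh
    have hfl : ∀ i, (h i : ℝ) ≤ x i + 1 / 2 ∧ x i + 1 / 2 < h i + 1 := fun i =>
      ⟨Int.floor_le _, Int.lt_floor_add_one _⟩
    have hhA : (fun i => (h i : ℝ)) ∈ A := by
      have hb : (fun i => c i + ((h i : ℝ) - x i) / t) ∈ A := by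
        apply hc
        intro i
        have e : t * r = 1 / 2 := by rw [ht]; field_simp
        rw [add_sub_cancel_left, abs_div, abs_of_pos ht0, div_le_iff₀ ht0, mul_comm, e, abs_le]
        constructor <;> linarith [hfl i]
      have := hA.convex ha hb h1t ht0.le (by ring)
      convert this using 1
      funext i
      simp only [Pi.add_apply, Pi.smul_apply, smul_eq_mul]
      have := hxi i
      field_simp
      linarith
    have hmem : h ∈ gridPts A B := by
      rw [mem_gridPts]
      refine ⟨fun i => ?_, hhA⟩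
      have := abs_le.1 (hA.bdd _ hhA i)
      constructor
      · have := this.1
        exact_mod_cast this
      · exact_mod_cast this.2
    simp only [mem_iUnion]
    refine ⟨h, hmem, fun i _ => ?_⟩
    simp only [mem_Ico]
    constructor <;> linarith [hfl i]
  have hle := (measure_mono (μ := (volume : Measure (Fin m → ℝ))) hsub).trans
    (measure_biUnion_finset_le _ _)
  rw [volume_homothety c h1t] at hle
  simp only [hvol, Finset.sum_const, nsmul_eq_mul, mul_one] at hle
  have hle2 := ENNReal.toReal_mono (ENNReal.natCast_ne_top _) hle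
  rw [ENNReal.toReal_mul, ENNReal.toReal_natCast,
    ENNReal.toReal_ofReal (by positivity)] at hle2
  exact hle2

end Vale.Agent.P230
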