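import Vale.Agent.Lib.P230L.RelCountCore
import Vale.Agent.Lib.P230L.GridCount

/-!
# P230, lattice half: integer points of a convex body satisfy few relations with a non-unit multiplier
-/

namespace Vale.Agent.P230

open MeasureTheory Set

theorem rel_count_nonunit {m p : ℕ} [Fact p.Prime] {r : ℝ} (hr : 1 ≤ r) {B : ℕ}
    {A : Set (Fin m → ℝ)} (hA : GridBody r B A) (hB : 8 * B ^ 2 < p) (lam : ZMod p)
    (h0 : lam ≠ 0) (h1 : lam ≠ 1) (h2 : lam ≠ -1) (c : Fin m → ZMod p) :
    (({h : Fin m → ℤ | h ∈ gridPts A B ∧ ∃ g ∈ gridPts A B,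
        ∀ i, (g i : ZMod p) = lam * (h i : ZMod p) + c i}.ncard : ℕ) : ℝ)
      ≤ (1 / 2 + 1 / (2 * r)) ^ m * volume.real A := by
  have hr0 : 0 < r := lt_of_lt_of_le one_pos hr
  refine rel_count_core hB lam h0 h1 h2 c _ (by positivity) fun α hα v => ?_
  refine le_trans (grid_upper hr0 hA α (by omega) v) ?_
  have h2α : (2 : ℝ) ≤ α := by exact_mod_cast hα
  have h3 : 1 / (α : ℝ) ≤ 1 / 2 := one_div_le_one_div_of_le (by norm_num) h2α
  refine mul_le_mul_of_nonneg_right ?_ measureReal_nonneg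
  exact pow_le_pow_left₀ (by positivity) (by linarith) m

end Vale.Agent.P230
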