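import Vale.Agent.Lib.P230L.GridCount
import Vale.Agent.Lib.P230L.RelCount
import Vale.Agent.Lib.P230L.Energy

/-!
# P230, lattice half: integer points of a convex body satisfy few relations (module M11)
-/

namespace Vale.Agent.P230

open MeasureTheory Set

namespace FewRelGrid

theorem int_eq_of_cast_eq {p : ℕ} {a b : ℤ} (h : (a : ZMod p) = (b : ZMod p))
    (hab : |a - b| < p) : a = b := by
  have h1 : (p : ℤ) ∣ a - b := (ZMod.intCast_eq_intCast_iff_dvd_sub b a p).1 h.symm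
  have := Int.eq_zero_of_abs_lt_dvd h1 hab
  omega

theorem mem_gridS {m p : ℕ} {A : Set (Fin m → ℝ)} {B : ℕ} {x : FV p (m + 1)} :
    x ∈ gridS p A B ↔ ∃ h ∈ gridPts A B, homZ p h = x := by
  classical
  unfold gridS
  simp [Finset.mem_image]

theorem homZ_inj {m p : ℕ} {A : Set (Fin m → ℝ)} {B : ℕ} (hB : 2 * B < p) {h g : Fin m → ℤ}
    (hh : h ∈ gridPts A B) (hg : g ∈ gridPts A B) (e : homZ p h = homZ p g) : h = g := by
  funext i
  have e1 : (h i : ZMod p) = (g i : ZMod p) := congrFun e i.succ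
  apply int_eq_of_cast_eq e1
  rw [GridCount.mem_gridPts] at hh hg
  have h1 := hh.1 i
  have h2 := hg.1 i
  rw [abs_lt]
  constructor <;> omega

theorem card_gridS {m p : ℕ} {A : Set (Fin m → ℝ)} {B : ℕ} (hB : 2 * B < p) :
    (gridS p A B).card = (gridPts A B).card := by
  classical
  unfold gridS
  rw [Finset.card_image_of_injOn]
  exact fun h hh g hg e => homZ_inj hB hh hg e

/-- the first homogeneous coordinate is one -/
theorem apply_zero_of_mem {m p : ℕ} {A : Set (Fin m → ℝ)} {B : ℕ} {x : FV p (m + 1)}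
    (hx : x ∈ gridS p A B) : x 0 = 1 := by
  obtain ⟨h, -, rfl⟩ := mem_gridS.1 hx
  rfl

/-- at most two distinct vectors with first coordinate one are independent -/
theorem indep_two {m p : ℕ} [Fact p.Prime] {A : Set (Fin m → ℝ)} {B : ℕ} :
    IndepUpTo 2 (gridS p A B) := by
  classical
  intro T hT hc
  rw [Fintype.linearIndependent_iff]
  intro g hg i
  have h0 : ∑ j, g j = 0 := by
    have h1 := congrFun hg 0
    rw [Finset.sum_apply] at h1
    have h2 : ∀ j : T, (g j • (j : FV p (m + 1))) 0 = g j := by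
      intro j
      rw [Pi.smul_apply, apply_zero_of_mem (hT j.2), smul_eq_mul, mul_one]
    simp only [h2] at h1
    exact h1
  by_cases hone : ∀ j : T, j = i
  · have h3 : ∑ j, g j = g i := by
      rw [Finset.sum_eq_single i]
      · intro j _ hj
        exact absurd (hone j) hj
      · intro h; exact absurd (Finset.mem_univ i) h
    rw [← h3, h0]
  · push Not at hone
    obtain ⟨j, hj⟩ := hone
    have huniv : (Finset.univ : Finset T) = {i, j} := by
      symm
      apply Finset.eq_of_subset_of_card_le (Finset.subset_univ _)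
      rw [Finset.card_pair (Ne.symm hj), Finset.card_univ, Fintype.card_coe]
      exact hc
    rw [huniv, Finset.sum_pair (Ne.symm hj)] at h0 hg
    have hgj : g j = -g i := by
      rw [← add_eq_zero_iff_eq_neg, add_comm]; exact h0
    rw [hgj, neg_smul, ← sub_eq_add_neg, ← smul_sub] at hg
    rcases smul_eq_zero.1 hg with h | h
    · exact h
    · exact absurd (Subtype.ext (sub_eq_zero.1 h)) (Ne.symm hj)

/-- counting by fibres over the coordinates outside `J` -/
theorem card_fiber_bound {ρ : ℕ} {V : Type*} [DecidableEq V] (S : Finset V) (J : Finset (Fin ρ))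
    (T : Finset (Fin ρ → V)) (hT : ∀ h ∈ T, ∀ i, h i ∈ S) (N : ℕ)
    (hN : ∀ g : {i // i ∉ J} → V,
      (T.filter (fun h => (fun i : {i // i ∉ J} => h i) = g)).card ≤ N) :
    T.card ≤ N * S.card ^ (ρ - J.card) := by
  classical
  have h1 := Finset.card_le_mul_card_image (f := fun (h : Fin ρ → V) (i : {i // i ∉ J}) => h i)
    T N (fun b _ => hN b)
  refine h1.trans (Nat.mul_le_mul_left N ?_)
  have h2 : T.image (fun (h : Fin ρ → V) (i : {i // i ∉ J}) => h i) ⊆
      Fintype.piFinset (fun _ : {i // i ∉ J} => S) := by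
    intro g hg
    rw [Finset.mem_image] at hg
    obtain ⟨h, hh, rfl⟩ := hg
    rw [Fintype.mem_piFinset]
    exact fun i => hT h hh i
  refine (Finset.card_le_card h2).trans (le_of_eq ?_)
  rw [Fintype.card_piFinset, Finset.prod_const, Finset.card_univ, Fintype.card_subtype_compl,
    Fintype.card_fin, Fintype.card_coe]

/-- splitting off the coordinates in `J` -/
theorem sum_split {ρ p M : ℕ} (J : Finset (Fin ρ)) (lam : Fin ρ → ZMod p) (h : Fin ρ → FV p M)
    (g : {i // i ∉ J} → FV p M) (hg : (fun i : {i // i ∉ J} => h i) = g) :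
    ∑ i, lam i • h i = ∑ i ∈ J, lam i • h i + ∑ i : {i // i ∉ J}, lam i • g i := by
  classical
  rw [← Finset.sum_add_sum_compl J]
  congr 1
  rw [Finset.sum_subtype (p := fun i => i ∉ J) Jᶜ (fun x => by simp)]
  subst hg
  rfl

/-- relations with a coefficient different from `1` and `-1` -/
theorem count_one {m p : ℕ} [Fact p.Prime] {B : ℕ} (hm : 1 ≤ m)
    {A : Set (Fin m → ℝ)} (hA : GridBody (m : ℝ) B A) (hB : 8 * B ^ 2 < p) (lam : ZMod p)
    (h0 : lam ≠ 0) (h1 : lam ≠ 1) (h2 : lam ≠ -1) (c : FV p (m + 1)) :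
    (((gridS p A B).filter (fun x => lam • x + c ∈ gridS p A B)).card : ℝ)
      ≤ (1 / 2 + 1 / (2 * (m : ℝ))) ^ m * volume.real A := by
  classical
  refine le_trans ?_ (rel_count_nonunit (by exact_mod_cast hm) hA hB lam h0 h1 h2
    (fun i => c i.succ))
  set F : Set (Fin m → ℤ) := {h : Fin m → ℤ | h ∈ gridPts A B ∧ ∃ g ∈ gridPts A B,
        ∀ i, (g i : ZMod p) = lam * (h i : ZMod p) + c i.succ} with hF
  have hfin : F.Finite := (gridPts A B).finite_toSet.subset (fun h hh => hh.1)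
  have hsub : (((gridS p A B).filter (fun x => lam • x + c ∈ gridS p A B) : Finset _) :
      Set (FV p (m + 1))) ⊆ homZ p '' F := by
    intro x hx
    rw [Finset.mem_coe, Finset.mem_filter] at hx
    obtain ⟨hx1, hx2⟩ := hx
    obtain ⟨h, hh, rfl⟩ := mem_gridS.1 hx1
    obtain ⟨g, hg, hgx⟩ := mem_gridS.1 hx2
    refine ⟨h, ⟨hh, g, hg, fun i => ?_⟩, rfl⟩
    exact congrFun hgx i.succ
  have h3 := Set.ncard_le_ncard hsub (hfin.image _)
  rw [Set.ncard_coe_finset] at h3
  have h4 := Set.ncard_image_le (f := homZ p) hfin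
  exact_mod_cast h3.trans h4

/-- relations `x + y - z + c` -/
theorem count_three {m p : ℕ} [Fact p.Prime] {B : ℕ} (hm : 1 ≤ m)
    {A : Set (Fin m → ℝ)} (hA : GridBody (m : ℝ) B A) (hB : 8 * B < p) (c : FV p (m + 1)) :
    (((gridS p A B ×ˢ gridS p A B ×ˢ gridS p A B).filter
        (fun t => t.1 + t.2.1 - t.2.2 + c ∈ gridS p A B)).card : ℝ)
      ≤ 0.996 ^ m * ((1 + 2 / (m : ℝ)) ^ m * volume.real A) ^ 3 := by
  classical
  set U := (gridS p A B ×ˢ gridS p A B ×ˢ gridS p A B).filter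
        (fun t => t.1 + t.2.1 - t.2.2 + c ∈ gridS p A B) with hU
  rcases U.eq_empty_or_nonempty with hemp | ⟨⟨x0, y0, z0⟩, ht0⟩
  · rw [hemp, Finset.card_empty, Nat.cast_zero]
    have : 0 ≤ volume.real A := measureReal_nonneg
    positivity
  rw [hU, Finset.mem_filter, Finset.mem_product, Finset.mem_product] at ht0
  obtain ⟨⟨hx0, hy0, hz0⟩, hw0⟩ := ht0
  obtain ⟨x, hx, rfl⟩ := mem_gridS.1 hx0
  obtain ⟨y, hy, rfl⟩ := mem_gridS.1 hy0
  obtain ⟨z, hz, rfl⟩ := mem_gridS.1 hz0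
  obtain ⟨w, hw, hw1⟩ := mem_gridS.1 hw0
  -- the integer vector `c'`
  set c' : Fin m → ℤ := w - x - y + z with hc'
  refine le_trans ?_ (energy_count (by exact_mod_cast hm) hA c')
  set F : Set ((Fin m → ℤ) × (Fin m → ℤ) × (Fin m → ℤ)) := {t | t.1 ∈ gridPts A B ∧
        t.2.1 ∈ gridPts A B ∧ t.2.2 ∈ gridPts A B ∧ t.1 + t.2.1 - t.2.2 + c' ∈ gridPts A B} with hF
  have hfin : F.Finite := by
    refine ((gridPts A B ×ˢ gridPts A B ×ˢ gridPts A B : Finset _).finite_toSet).subset ?_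
    intro t ht
    rw [Finset.mem_coe, Finset.mem_product, Finset.mem_product]
    exact ⟨ht.1, ht.2.1, ht.2.2.1⟩
  let φ : (Fin m → ℤ) × (Fin m → ℤ) × (Fin m → ℤ) →
      FV p (m + 1) × FV p (m + 1) × FV p (m + 1) := fun t => (homZ p t.1, homZ p t.2.1, homZ p t.2.2)
  have hsub : (U : Set (FV p (m + 1) × FV p (m + 1) × FV p (m + 1))) ⊆ φ '' F := by
    rintro ⟨a, b, d⟩ ht
    rw [Finset.mem_coe, hU, Finset.mem_filter, Finset.mem_product, Finset.mem_product] at ht
    obtain ⟨⟨ha0, hb0, hd0⟩, he0⟩ := ht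
    obtain ⟨a, ha, rfl⟩ := mem_gridS.1 ha0
    obtain ⟨b, hb, rfl⟩ := mem_gridS.1 hb0
    obtain ⟨d, hd, rfl⟩ := mem_gridS.1 hd0
    obtain ⟨e, he, he1⟩ := mem_gridS.1 he0
    refine ⟨(a, b, d), ⟨ha, hb, hd, ?_⟩, rfl⟩
    have key : a + b - d + c' = e := by
      funext i
      have e1 : (w i : ZMod p) = (x i : ZMod p) + (y i : ZMod p) - (z i : ZMod p) + c i.succ :=
        congrFun hw1 i.succ
      have e2 : (e i : ZMod p) = (a i : ZMod p) + (b i : ZMod p) - (d i : ZMod p) + c i.succ :=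
        congrFun he1 i.succ
      apply int_eq_of_cast_eq (p := p)
      · rw [hc']
        simp only [Pi.add_apply, Pi.sub_apply]
        push_cast
        linear_combination e1 - e2
      · rw [hc']
        simp only [Pi.add_apply, Pi.sub_apply]
        rw [GridCount.mem_gridPts] at hx hy hz hw ha hb hd he
        have := hx.1 i
        have := hy.1 i
        have := hz.1 i
        have := hw.1 i
        have := ha.1 i
        have := hb.1 i
        have := hd.1 i
        have := he.1 i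
        rw [abs_lt]
        constructor <;> omega
    change a + b - d + c' ∈ gridPts A B
    rw [key]; exact he
  have h3 := Set.ncard_le_ncard hsub (hfin.image _)
  rw [Set.ncard_coe_finset] at h3
  have h4 := Set.ncard_image_le (f := φ) hfin
  exact_mod_cast h3.trans h4

/-- case of a coefficient different from `1` and `-1` -/
theorem fewrel_nonunit {m p : ℕ} [Fact p.Prime] {B : ℕ} (hm : 1 ≤ m)
    {A : Set (Fin m → ℝ)} (hA : GridBody (m : ℝ) B A) (hB : 8 * B ^ 2 < p) {ρ : ℕ}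
    (lam : Fin ρ → ZMod p) (j : Fin ρ) (h0 : lam j ≠ 0) (h1 : lam j ≠ 1) (h2 : lam j ≠ -1) :
    ({h : Fin ρ → FV p (m + 1) | (∀ i, h i ∈ gridS p A B) ∧
        ∑ i, lam i • h i ∈ gridS p A B}.ncard : ℝ)
      ≤ (1 / 2 + 1 / (2 * (m : ℝ))) ^ m * volume.real A * ((gridS p A B).card : ℝ) ^ (ρ - 1) := by
  classical
  set S := gridS p A B with hS
  set T : Finset (Fin ρ → FV p (m + 1)) :=
    (Fintype.piFinset fun _ => S).filter (fun h => ∑ i, lam i • h i ∈ S) with hT
  have hTset : {h : Fin ρ → FV p (m + 1) | (∀ i, h i ∈ S) ∧ ∑ i, lam i • h i ∈ S} = (T : Set _) := by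
    ext h
    rw [hT, Finset.mem_coe, Finset.mem_filter, Fintype.mem_piFinset]
    rfl
  rw [hTset, Set.ncard_coe_finset]
  have hv : 0 ≤ volume.real A := measureReal_nonneg
  set bd : ℝ := (1 / 2 + 1 / (2 * (m : ℝ))) ^ m * volume.real A with hbd
  have hbd0 : 0 ≤ bd := by positivity
  have key := card_fiber_bound S {j} T (fun h hh i => by
    rw [hT, Finset.mem_filter, Fintype.mem_piFinset] at hh
    exact hh.1 i) ⌊bd⌋₊ (by
    intro g
    refine Nat.le_floor ?_
    refine le_trans ?_ (count_one hm hA hB (lam j) h0 h1 h2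
      (∑ i : {i // i ∉ ({j} : Finset (Fin ρ))}, lam i • g i))
    have hinj : (T.filter (fun h => (fun i : {i // i ∉ ({j} : Finset (Fin ρ))} => h i) = g)).card ≤
        ((gridS p A B).filter (fun x => lam j • x +
          (∑ i : {i // i ∉ ({j} : Finset (Fin ρ))}, lam i • g i) ∈ gridS p A B)).card := by
      apply Finset.card_le_card_of_injOn (fun h => h j)
      · intro h hh
        rw [Finset.mem_coe, Finset.mem_filter, hT, Finset.mem_filter, Fintype.mem_piFinset] at hh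
        obtain ⟨⟨ha, hb⟩, hc⟩ := hh
        rw [sum_split {j} lam h g hc, Finset.sum_singleton] at hb
        rw [Finset.mem_coe, Finset.mem_filter]
        exact ⟨ha j, hb⟩
      · intro h hh h' hh' e
        rw [Finset.mem_coe, Finset.mem_filter] at hh hh'
        have e2 := hh.2.trans hh'.2.symm
        funext i
        by_cases hi : i = j
        · rw [hi]; exact e
        · exact congrFun e2 ⟨i, by simpa using hi⟩
    exact_mod_cast hinj)
  rw [Finset.card_singleton] at key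
  calc (T.card : ℝ) ≤ ((⌊bd⌋₊ * S.card ^ (ρ - 1) : ℕ) : ℝ) := by exact_mod_cast key
    _ = (⌊bd⌋₊ : ℝ) * (S.card : ℝ) ^ (ρ - 1) := by push_cast; ring
    _ ≤ bd * (S.card : ℝ) ^ (ρ - 1) :=
      mul_le_mul_of_nonneg_right (Nat.floor_le hbd0) (by positivity)

/-- case of three coefficients `1, 1, -1` -/
theorem fewrel_unit {m p : ℕ} [Fact p.Prime] {B : ℕ} (hm : 1 ≤ m)
    {A : Set (Fin m → ℝ)} (hA : GridBody (m : ℝ) B A) (hB : 8 * B < p) {ρ : ℕ}
    (lam : Fin ρ → ZMod p) (j1 j2 j3 : Fin ρ) (h12 : j1 ≠ j2) (h13 : j1 ≠ j3) (h23 : j2 ≠ j3)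
    (h1 : lam j1 = 1) (h2 : lam j2 = 1) (h3 : lam j3 = -1) :
    ({h : Fin ρ → FV p (m + 1) | (∀ i, h i ∈ gridS p A B) ∧
        ∑ i, lam i • h i ∈ gridS p A B}.ncard : ℝ)
      ≤ 0.996 ^ m * ((1 + 2 / (m : ℝ)) ^ m * volume.real A) ^ 3 *
        ((gridS p A B).card : ℝ) ^ (ρ - 3) := by
  classical
  set S := gridS p A B with hS
  set T : Finset (Fin ρ → FV p (m + 1)) :=
    (Fintype.piFinset fun _ => S).filter (fun h => ∑ i, lam i • h i ∈ S) with hT
  have hTset : {h : Fin ρ → FV p (m + 1) | (∀ i, h i ∈ S) ∧ ∑ i, lam i • h i ∈ S} = (T : Set _) := by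
    ext h
    rw [hT, Finset.mem_coe, Finset.mem_filter, Fintype.mem_piFinset]
    rfl
  rw [hTset, Set.ncard_coe_finset]
  have hv : 0 ≤ volume.real A := measureReal_nonneg
  set bd : ℝ := 0.996 ^ m * ((1 + 2 / (m : ℝ)) ^ m * volume.real A) ^ 3 with hbd
  have hbd0 : 0 ≤ bd := by positivity
  have hJ : ({j1, j2, j3} : Finset (Fin ρ)).card = 3 := by
    rw [Finset.card_eq_three]; exact ⟨j1, j2, j3, h12, h13, h23, rfl⟩
  have key := card_fiber_bound S {j1, j2, j3} T (fun h hh i => by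
    rw [hT, Finset.mem_filter, Fintype.mem_piFinset] at hh
    exact hh.1 i) ⌊bd⌋₊ (by
    intro g
    refine Nat.le_floor ?_
    refine le_trans ?_ (count_three hm hA hB
      (∑ i : {i // i ∉ ({j1, j2, j3} : Finset (Fin ρ))}, lam i • g i))
    have hinj : (T.filter
          (fun h => (fun i : {i // i ∉ ({j1, j2, j3} : Finset (Fin ρ))} => h i) = g)).card ≤
        ((gridS p A B ×ˢ gridS p A B ×ˢ gridS p A B).filter
        (fun t => t.1 + t.2.1 - t.2.2 +
          (∑ i : {i // i ∉ ({j1, j2, j3} : Finset (Fin ρ))}, lam i • g i) ∈ gridS p A B)).card := by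
      apply Finset.card_le_card_of_injOn (fun h => (h j1, h j2, h j3))
      · intro h hh
        rw [Finset.mem_coe, Finset.mem_filter, hT, Finset.mem_filter, Fintype.mem_piFinset] at hh
        obtain ⟨⟨ha, hb⟩, hc⟩ := hh
        have hs : ∑ i ∈ ({j1, j2, j3} : Finset (Fin ρ)), lam i • h i = h j1 + h j2 - h j3 := by
          rw [Finset.sum_insert (by simp [h12, h13]), Finset.sum_pair h23, h1, h2, h3, one_smul,
            one_smul, neg_one_smul]
          abel
        rw [sum_split {j1, j2, j3} lam h g hc, hs] at hb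
        rw [Finset.mem_coe, Finset.mem_filter, Finset.mem_product, Finset.mem_product]
        exact ⟨⟨ha j1, ha j2, ha j3⟩, hb⟩
      · intro h hh h' hh' e
        rw [Finset.mem_coe, Finset.mem_filter] at hh hh'
        have e2 := hh.2.trans hh'.2.symm
        simp only [Prod.mk.injEq] at e
        funext i
        by_cases hi : i ∈ ({j1, j2, j3} : Finset (Fin ρ))
        · simp only [Finset.mem_insert, Finset.mem_singleton] at hi
          rcases hi with rfl | rfl | rfl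
          · exact e.1
          · exact e.2.1
          · exact e.2.2
        · exact congrFun e2 ⟨i, hi⟩
    exact_mod_cast hinj)
  rw [hJ] at key
  calc (T.card : ℝ) ≤ ((⌊bd⌋₊ * S.card ^ (ρ - 3) : ℕ) : ℝ) := by exact_mod_cast key
    _ = (⌊bd⌋₊ : ℝ) * (S.card : ℝ) ^ (ρ - 3) := by push_cast; ring
    _ ≤ bd * (S.card : ℝ) ^ (ρ - 3) :=
      mul_le_mul_of_nonneg_right (Nat.floor_le hbd0) (by positivity)

/-- the structure of the coefficients if all are `1` or `-1` -/
theorem exists_three {m p : ℕ} [Fact p.Prime] {A : Set (Fin m → ℝ)} {B : ℕ} {ρ : ℕ}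
    (hρ2 : 2 ≤ ρ) (hρ : ρ + 1 < p) (lam : Fin ρ → ZMod p)
    (hl : ∀ i, lam i = 1 ∨ lam i = -1) (h : Fin ρ → FV p (m + 1)) (hh : ∀ i, h i ∈ gridS p A B)
    (hs : ∑ i, lam i • h i ∈ gridS p A B) :
    3 ≤ ρ ∧ ∃ j1 j2 j3 : Fin ρ, j1 ≠ j2 ∧ j1 ≠ j3 ∧ j2 ≠ j3 ∧ lam j1 = 1 ∧ lam j2 = 1 ∧
      lam j3 = -1 := by
  classical
  have h1 : ∑ i, lam i = 1 := by
    have := apply_zero_of_mem hs
    rw [Finset.sum_apply] at this
    have h2 : ∀ i, (lam i • h i) 0 = lam i := by
      intro i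
      rw [Pi.smul_apply, apply_zero_of_mem (hh i), smul_eq_mul, mul_one]
    simpa only [h2] using this
  have hne : (1 : ZMod p) ≠ -1 := by
    intro e
    have e1 : ((1 : ℤ) : ZMod p) = ((-1 : ℤ) : ZMod p) := by push_cast; exact e
    have := int_eq_of_cast_eq e1 (by rw [abs_lt]; constructor <;> omega)
    omega
  set P := Finset.univ.filter (fun i => lam i = 1) with hP
  set Q := Finset.univ.filter (fun i => ¬ lam i = 1) with hQ
  have hcard : P.card + Q.card = ρ := by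
    rw [hP, hQ, Finset.card_filter_add_card_filter_not, Finset.card_univ, Fintype.card_fin]
  have hsum : ∑ i, lam i = (P.card : ZMod p) - (Q.card : ZMod p) := by
    rw [← Finset.sum_filter_add_sum_filter_not Finset.univ (fun i => lam i = 1)]
    have e1 : ∑ i ∈ P, lam i = P.card := by
      rw [Finset.sum_congr rfl (fun i hi => (Finset.mem_filter.1 hi).2), Finset.sum_const,
        nsmul_eq_mul, mul_one]
    have e2 : ∑ i ∈ Q, lam i = -(Q.card : ZMod p) := by
      rw [Finset.sum_congr rfl (fun i hi => (hl i).resolve_left (Finset.mem_filter.1 hi).2),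
        Finset.sum_const, nsmul_eq_mul, mul_neg, mul_one]
    rw [← hP, ← hQ, e1, e2]; ring
  have hz : (((P.card : ℤ) - (Q.card : ℤ) : ℤ) : ZMod p) = ((1 : ℤ) : ZMod p) := by
    push_cast
    rw [← hsum, h1]
  have hz2 := int_eq_of_cast_eq hz (by rw [abs_lt]; constructor <;> omega)
  have hQ1 : 1 ≤ Q.card := by omega
  have hP2 : 1 < P.card := by omega
  refine ⟨by omega, ?_⟩
  obtain ⟨j1, hj1, j2, hj2, h12⟩ := Finset.one_lt_card.1 hP2
  obtain ⟨j3, hj3⟩ := Finset.card_pos.1 hQ1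
  have l1 : lam j1 = 1 := (Finset.mem_filter.1 hj1).2
  have l2 : lam j2 = 1 := (Finset.mem_filter.1 hj2).2
  have l3 : ¬ lam j3 = 1 := (Finset.mem_filter.1 hj3).2
  refine ⟨j1, j2, j3, h12, ?_, ?_, l1, l2, (hl j3).resolve_left l3⟩
  · rintro rfl; exact l3 l1
  · rintro rfl; exact l3 l2

/-! ### numerics -/

theorem one_add_pow_le {m : ℕ} (hm : 1 ≤ m) {x : ℝ} (hx : 0 ≤ x) :
    (1 + x / (m : ℝ)) ^ m ≤ Real.exp x := by
  have hm0 : (0 : ℝ) < m := by exact_mod_cast hm
  have h1 : 1 + x / (m : ℝ) ≤ Real.exp (x / m) := by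
    have := Real.add_one_le_exp (x / (m : ℝ)); linarith
  calc (1 + x / (m : ℝ)) ^ m ≤ (Real.exp (x / m)) ^ m := by gcongr
    _ = Real.exp x := by rw [← Real.exp_nat_mul]; congr 1; field_simp

theorem exp_half_le : Real.exp (1 / 2) ≤ 2 := by
  have h1 : Real.exp (1 / 2) ^ 2 = Real.exp 1 := by
    rw [← Real.exp_nat_mul]; norm_num
  have h2 := Real.exp_one_lt_d9
  have h3 := Real.exp_pos (1 / 2)
  nlinarith

theorem num_a {m : ℕ} (hm : 10000 ≤ m) :
    2 * (1 / 2 + 1 / (2 * (m : ℝ))) ^ m ≤ Real.exp (-(1 / 500 * (m : ℝ))) := by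
  have hm0 : (10000 : ℝ) ≤ m := by exact_mod_cast hm
  have h1 : 1 / 2 + 1 / (2 * (m : ℝ)) ≤ 0.6 := by
    have : 1 / (2 * (m : ℝ)) ≤ 1 / 20000 := by
      apply one_div_le_one_div_of_le <;> linarith
    linarith
  have h2 : (0.998 : ℝ) ≤ Real.exp (-(1 / 500)) := by
    have := Real.add_one_le_exp (-(1 / 500 : ℝ)); linarith
  have h3 : Real.exp (-(1 / 500 * (m : ℝ))) = Real.exp (-(1 / 500)) ^ m := by
    rw [← Real.exp_nat_mul]; congr 1; ring
  rw [h3]
  obtain ⟨t, rfl⟩ : ∃ t, m = t + 2 := ⟨m - 2, by omega⟩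
  calc 2 * (1 / 2 + 1 / (2 * ((t + 2 : ℕ) : ℝ))) ^ (t + 2) ≤ 2 * (0.6 : ℝ) ^ (t + 2) := by
        gcongr
    _ = 0.6 ^ t * 0.72 := by rw [pow_add]; norm_num; ring
    _ ≤ 0.998 ^ t * (0.998 ^ 2) := by
        have h4 : (0.6 : ℝ) ^ t ≤ 0.998 ^ t := pow_le_pow_left₀ (by norm_num) (by norm_num) t
        exact mul_le_mul h4 (by norm_num) (by norm_num) (pow_nonneg (by norm_num) t)
    _ = 0.998 ^ (t + 2) := by rw [pow_add]
    _ ≤ Real.exp (-(1 / 500)) ^ (t + 2) := by gcongr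

theorem num_b {m : ℕ} (hm : 10000 ≤ m) :
    8 * Real.exp 6 * 0.996 ^ m ≤ Real.exp (-(1 / 500 * (m : ℝ))) := by
  have hm0 : (10000 : ℝ) ≤ m := by exact_mod_cast hm
  have h1 : (0.996 : ℝ) ≤ Real.exp (-(1 / 250)) := by
    have := Real.add_one_le_exp (-(1 / 250 : ℝ)); linarith
  have h2 : (0.996 : ℝ) ^ m ≤ Real.exp (-(1 / 250 * (m : ℝ))) := by
    calc (0.996 : ℝ) ^ m ≤ Real.exp (-(1 / 250)) ^ m := by gcongr
      _ = _ := by rw [← Real.exp_nat_mul]; congr 1; ring
  have h3 : (8 : ℝ) ≤ Real.exp 14 := by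
    have := Real.add_one_le_exp (14 : ℝ); linarith
  calc 8 * Real.exp 6 * 0.996 ^ m
      ≤ Real.exp 14 * Real.exp 6 * Real.exp (-(1 / 250 * (m : ℝ))) := by gcongr
    _ = Real.exp (20 - 1 / 250 * m) := by rw [← Real.exp_add, ← Real.exp_add]; congr 1; ring
    _ ≤ Real.exp (-(1 / 500 * (m : ℝ))) := by
        apply Real.exp_le_exp.2; linarith

end FewRelGrid

open FewRelGrid

/-- M11 -/
theorem fewrel_grid : ∃ c₃ : ℝ, 0 < c₃ ∧ ∃ m₀ : ℕ, ∀ m : ℕ, m₀ ≤ m →
    ∀ (p : ℕ) [Fact p.Prime], m ^ 8 ≤ p → ∀ B : ℕ, B ≤ 100 * m ^ 3 →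
    ∀ A : Set (Fin m → ℝ), GridBody (m : ℝ) B A →
      IndepUpTo 2 (gridS p A B) ∧ FewRel m (Real.exp (-(c₃ * m))) (gridS p A B) ∧
      volume.real A / 2 ≤ ((gridS p A B).card : ℝ) ∧
      ((gridS p A B).card : ℝ) ≤ 2 * volume.real A := by
  refine ⟨1 / 500, by norm_num, 10000, fun m hm p _ hmp B hBm A hA => ?_⟩
  have hm1 : 1 ≤ m := by omega
  have hmR : (1 : ℝ) ≤ m := by exact_mod_cast hm1
  have hm0 : (0 : ℝ) < m := by linarith
  -- size conditions
  have hm2 : 10000 * 10000 ≤ m ^ 2 := by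
    rw [pow_two]; exact Nat.mul_le_mul hm hm
  have hB2 : 8 * B ^ 2 < p := by
    have h1 : B ^ 2 ≤ 10000 * m ^ 6 := by
      calc B ^ 2 ≤ (100 * m ^ 3) ^ 2 := Nat.pow_le_pow_left hBm 2
        _ = 10000 * m ^ 6 := by ring
    have h2 : m ^ 8 = m ^ 2 * m ^ 6 := by ring
    have h3 : 0 < m ^ 6 := by positivity
    have h4 : 10000 * 10000 * m ^ 6 ≤ m ^ 8 := by
      rw [h2]; exact Nat.mul_le_mul_right _ hm2
    omega
  have hBB : B ≤ B ^ 2 := by
    rw [pow_two]; exact Nat.le_mul_self B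
  have hB8 : 8 * B < p := by omega
  have hB22 : 2 * B < p := by omega
  have hmp2 : m + 1 < p := by
    have h1 : m ^ 2 ≤ m ^ 8 := Nat.pow_le_pow_right (by omega) (by omega)
    have h2 : m + 1 < m ^ 2 := by
      rw [pow_two]
      calc m + 1 < m * 2 := by omega
        _ ≤ m * m := Nat.mul_le_mul_left m (by omega)
    omega
  have hv : 0 ≤ volume.real A := measureReal_nonneg
  -- cardinality
  have hlow : volume.real A / 2 ≤ ((gridS p A B).card : ℝ) := by
    rw [card_gridS hB22]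
    refine le_trans ?_ (grid_lower hmR hA)
    have h1 : (1 : ℝ) / 2 ≤ (1 - 1 / (2 * (m : ℝ))) ^ m := by
      have h2 : 1 + (m : ℝ) * (-(1 / (2 * (m : ℝ)))) ≤ (1 + -(1 / (2 * (m : ℝ)))) ^ m := by
        apply one_add_mul_le_pow
        have : 1 / (2 * (m : ℝ)) ≤ 1 / 2 := by
          apply one_div_le_one_div_of_le <;> linarith
        linarith
      have h3 : 1 + (m : ℝ) * (-(1 / (2 * (m : ℝ)))) = 1 / 2 := by field_simp; norm_num
      rw [h3, ← sub_eq_add_neg] at h2
      exact h2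
    nlinarith
  have hupp : ((gridS p A B).card : ℝ) ≤ 2 * volume.real A := by
    rw [card_gridS hB22]
    have h1 := grid_upper hm0 hA 1 le_rfl 0
    have h2 : {h : Fin m → ℤ | h ∈ gridPts A B ∧ ∀ i, ((1 : ℕ) : ℤ) ∣ h i - (0 : Fin m → ℤ) i} =
        (gridPts A B : Set (Fin m → ℤ)) := by
      ext h
      simp
    rw [h2, Set.ncard_coe_finset] at h1
    refine h1.trans ?_
    have h3 : (1 / ((1 : ℕ) : ℝ) + 1 / (2 * (m : ℝ))) ^ m ≤ 2 := by
      have h4 : 1 / ((1 : ℕ) : ℝ) + 1 / (2 * (m : ℝ)) = 1 + (1 / 2) / m := by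
        push_cast; field_simp
      rw [h4]
      exact (one_add_pow_le hm1 (by norm_num)).trans exp_half_le
    exact mul_le_mul_of_nonneg_right h3 hv
  refine ⟨indep_two, ?_, hlow, hupp⟩
  -- few relations
  intro ρ hρ2 hρm lam hlam
  set S := gridS p A B with hS
  have hv2 : volume.real A ≤ 2 * (S.card : ℝ) := by linarith
  by_cases hex : ∃ j, lam j ≠ 1 ∧ lam j ≠ -1
  · obtain ⟨j, hj1, hj2⟩ := hex
    refine (fewrel_nonunit hm1 hA hB2 lam j (hlam j) hj1 hj2).trans ?_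
    rw [← hS]
    have h1 : (1 / 2 + 1 / (2 * (m : ℝ))) ^ m * volume.real A ≤
        Real.exp (-(1 / 500 * (m : ℝ))) * (S.card : ℝ) := by
      have h2 := num_a hm
      have h3 : (0 : ℝ) ≤ (1 / 2 + 1 / (2 * (m : ℝ))) ^ m := by positivity
      calc (1 / 2 + 1 / (2 * (m : ℝ))) ^ m * volume.real A
          ≤ (1 / 2 + 1 / (2 * (m : ℝ))) ^ m * (2 * (S.card : ℝ)) :=
            mul_le_mul_of_nonneg_left hv2 h3
        _ = (2 * (1 / 2 + 1 / (2 * (m : ℝ))) ^ m) * (S.card : ℝ) := by ring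
        _ ≤ _ := mul_le_mul_of_nonneg_right h2 (Nat.cast_nonneg _)
    calc (1 / 2 + 1 / (2 * (m : ℝ))) ^ m * volume.real A * (S.card : ℝ) ^ (ρ - 1)
        ≤ Real.exp (-(1 / 500 * (m : ℝ))) * (S.card : ℝ) * (S.card : ℝ) ^ (ρ - 1) :=
          mul_le_mul_of_nonneg_right h1 (by positivity)
      _ = Real.exp (-(1 / 500 * (m : ℝ))) * (S.card : ℝ) ^ ρ := by
          rw [mul_assoc, mul_pow_sub_one (by omega)]
  · push Not at hex
    have hl : ∀ i, lam i = 1 ∨ lam i = -1 := fun i => by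
      by_cases h : lam i = 1
      · exact Or.inl h
      · exact Or.inr (hex i h)
    rcases Set.eq_empty_or_nonempty {h : Fin ρ → FV p (m + 1) | (∀ i, h i ∈ S) ∧
        ∑ i, lam i • h i ∈ S} with hemp | ⟨h, hh1, hh2⟩
    · rw [hemp, Set.ncard_empty, Nat.cast_zero]
      positivity
    · obtain ⟨hρ3, j1, j2, j3, h12, h13, h23, l1, l2, l3⟩ :=
        exists_three hρ2 (by omega) lam hl h hh1 hh2
      refine (fewrel_unit hm1 hA hB8 lam j1 j2 j3 h12 h13 h23 l1 l2 l3).trans ?_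
      rw [← hS]
      have h2 := num_b hm
      have h3 : (1 + 2 / (m : ℝ)) ^ m ≤ Real.exp 2 := one_add_pow_le hm1 (by norm_num)
      have h4 : Real.exp 2 ^ 3 = Real.exp 6 := by rw [← Real.exp_nat_mul]; norm_num
      have h5 : 0.996 ^ m * ((1 + 2 / (m : ℝ)) ^ m * volume.real A) ^ 3 ≤
          Real.exp (-(1 / 500 * (m : ℝ))) * (S.card : ℝ) ^ 3 := by
        calc 0.996 ^ m * ((1 + 2 / (m : ℝ)) ^ m * volume.real A) ^ 3
            ≤ 0.996 ^ m * (Real.exp 2 * (2 * (S.card : ℝ))) ^ 3 := by gcongr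
          _ = (8 * Real.exp 6 * 0.996 ^ m) * (S.card : ℝ) ^ 3 := by rw [← h4]; ring
          _ ≤ _ := mul_le_mul_of_nonneg_right h2 (by positivity)
      calc 0.996 ^ m * ((1 + 2 / (m : ℝ)) ^ m * volume.real A) ^ 3 * (S.card : ℝ) ^ (ρ - 3)
          ≤ Real.exp (-(1 / 500 * (m : ℝ))) * (S.card : ℝ) ^ 3 * (S.card : ℝ) ^ (ρ - 3) :=
            mul_le_mul_of_nonneg_right h5 (by positivity)
        _ = Real.exp (-(1 / 500 * (m : ℝ))) * (S.card : ℝ) ^ ρ := by
            rw [mul_assoc, ← pow_add]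
            congr 2
            omega

end Vale.Agent.P230
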