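import Vale.Agent.Lib.P230L.DefsL

/-!
# P230, lattice half: a lattice given as the kernel of a homomorphism (module M18)
-/

namespace Vale.Agent.P230

open MeasureTheory Set
open scoped ENNReal Pointwise

/-- the standard basis of `ℝ^m × ℝ^k` -/
noncomputable def lhBasis (m k : ℕ) : Module.Basis (Fin m ⊕ Fin k) ℝ ((Fin m → ℝ) × (Fin k → ℝ)) :=
  (Pi.basisFun ℝ (Fin m)).prod (Pi.basisFun ℝ (Fin k))

theorem lhBasis_repr (m k : ℕ) (z : (Fin m → ℝ) × (Fin k → ℝ)) (i : Fin m ⊕ Fin k) :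
    (lhBasis m k).repr z i = Sum.elim z.1 z.2 i := by
  rcases i with i | i
  · simp [lhBasis]
  · simp [lhBasis]

theorem lh_fd (m k : ℕ) : ZSpan.fundamentalDomain (lhBasis m k) =
    (Set.pi Set.univ fun _ : Fin m => Set.Ico (0 : ℝ) 1) ×ˢ
    (Set.pi Set.univ fun _ : Fin k => Set.Ico (0 : ℝ) 1) := by
  ext z
  simp only [ZSpan.mem_fundamentalDomain, lhBasis_repr, Set.mem_prod, Set.mem_pi, Set.mem_univ,
    true_implies, Sum.forall, Sum.elim_inl, Sum.elim_inr]

theorem lh_vol_fd (m k : ℕ) :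
    volume (ZSpan.fundamentalDomain (lhBasis m k)) = 1 := by
  rw [lh_fd, Measure.volume_eq_prod, Measure.prod_prod, volume_pi, Measure.pi_pi, volume_pi,
    Measure.pi_pi]
  simp

/-- the integer vectors -/
def lhInt (m k : ℕ) : (Fin m → ℤ) × (Fin k → ℤ) →+ (Fin m → ℝ) × (Fin k → ℝ) where
  toFun z := (fun i => (z.1 i : ℝ), fun j => (z.2 j : ℝ))
  map_zero' := by
    ext <;> simp
  map_add' x y := by
    ext <;> simp

theorem lhInt_injective (m k : ℕ) : Function.Injective (lhInt m k) := by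
  intro x y h
  have h1 := congrArg Prod.fst h
  have h2 := congrArg Prod.snd h
  ext i
  · have := congrFun h1 i
    simpa [lhInt] using this
  · have := congrFun h2 i
    simpa [lhInt] using this

theorem lh_mem_span (m k : ℕ) (z : (Fin m → ℝ) × (Fin k → ℝ)) :
    z ∈ Submodule.span ℤ (Set.range (lhBasis m k)) ↔ z ∈ (lhInt m k).range := by
  rw [Module.Basis.mem_span_iff_repr_mem]
  simp only [lhBasis_repr, Set.mem_range, AddMonoidHom.mem_range]
  constructor
  · intro h
    choose f hf using h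
    refine ⟨(fun i => f (Sum.inl i), fun j => f (Sum.inr j)), ?_⟩
    ext i
    · have := hf (Sum.inl i)
      simpa [lhInt] using this
    · have := hf (Sum.inr i)
      simpa [lhInt] using this
  · rintro ⟨x, rfl⟩ i
    rcases i with i | i
    · exact ⟨x.1 i, by simp [lhInt]⟩
    · exact ⟨x.2 i, by simp [lhInt]⟩

/-- M18 -/
theorem thetaL_le_of_hom {m k : ℕ} (K : Set (E (m + k))) (hK : IsCompact K) (p a : ℕ)
    [Fact p.Prime] (A : ((Fin m → ℝ) × (Fin k → ℝ)) ≃ₗ[ℝ] E (m + k)) (b : E (m + k))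
    (Ψ : (Fin m → ℤ) × (Fin k → ℤ) →+ (Fin a → ZMod p)) (hΨ : Function.Surjective Ψ)
    (hcov : ∀ (x : Fin m → ℝ) (y : Fin k → ℝ), ∃ (u : Fin m → ℤ) (t : Fin k → ℤ), Ψ (u, t) = 0 ∧
      A (fun i => x i - u i, fun j => y j - t j) + b ∈ K) :
    thetaL K ≤ volume {z : (Fin m → ℝ) × (Fin k → ℝ) | A z + b ∈ K} / ENNReal.ofReal ((p : ℝ) ^ a) := by
  have hp : p.Prime := Fact.out
  -- the continuous version of A
  set e : ((Fin m → ℝ) × (Fin k → ℝ)) ≃L[ℝ] E (m + k) := A.toContinuousLinearEquiv with he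
  have heA : ∀ z, e z = A z := fun z => rfl
  set b₂ := (lhBasis m k).map A with hb₂
  set L₂ : Submodule ℤ (E (m + k)) := Submodule.span ℤ (Set.range b₂) with hL₂
  let φ : (Fin m → ℤ) × (Fin k → ℤ) →+ E (m + k) :=
    (A.toLinearMap.toAddMonoidHom).comp (lhInt m k)
  have hφ : ∀ z, φ z = A (lhInt m k z) := fun z => rfl
  have hφi : Function.Injective φ := by
    intro x y h
    rw [hφ, hφ] at h
    exact lhInt_injective m k (A.injective h)
  have hL₂r : L₂.toAddSubgroup = φ.range := by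
    ext z
    rw [Submodule.mem_toAddSubgroup, hL₂, hb₂, ← ZSpan.map, Submodule.mem_map, AddMonoidHom.mem_range]
    constructor
    · rintro ⟨y, hy, rfl⟩
      rw [lh_mem_span] at hy
      obtain ⟨x, rfl⟩ := hy
      exact ⟨x, rfl⟩
    · rintro ⟨x, rfl⟩
      exact ⟨lhInt m k x, (lh_mem_span m k _).2 ⟨x, rfl⟩, rfl⟩
  set L₁ : Submodule ℤ (E (m + k)) := AddSubgroup.toIntSubmodule (AddSubgroup.map φ Ψ.ker) with hL₁
  have hL₁r : L₁.toAddSubgroup = AddSubgroup.map φ Ψ.ker := by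
    rw [hL₁]
    exact AddSubgroup.toIntSubmodule_toAddSubgroup _
  have hmem₁ : ∀ z, z ∈ L₁ ↔ ∃ x, Ψ x = 0 ∧ φ x = z := by
    intro z
    rw [← Submodule.mem_toAddSubgroup, hL₁r, AddSubgroup.mem_map]
    rfl
  have hmem₂ : ∀ z, z ∈ L₂ ↔ ∃ x, φ x = z := by
    intro z
    rw [← Submodule.mem_toAddSubgroup, hL₂r, AddMonoidHom.mem_range]
  have hle : L₁ ≤ L₂ := by
    intro z hz
    obtain ⟨x, _, rfl⟩ := (hmem₁ z).1 hz
    exact (hmem₂ _).2 ⟨x, rfl⟩
  have hd₂ : DiscreteTopology L₂ := inferInstanceAs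
    (DiscreteTopology (Submodule.span ℤ (Set.range b₂)))
  have hz₂ : IsZLattice ℝ L₂ := inferInstanceAs
    (IsZLattice ℝ (Submodule.span ℤ (Set.range b₂)))
  have hd₁ : DiscreteTopology L₁ := by
    exact DiscreteTopology.of_subset (s := (L₂ : Set (E (m + k)))) hd₂ hle
  have hz₁ : IsZLattice ℝ L₁ := by
    refine ⟨?_⟩
    rw [eq_top_iff, ← hz₂.span_top, Submodule.span_le]
    intro z hz
    obtain ⟨x, rfl⟩ := (hmem₂ z).1 hz
    have h1 : φ (p • x) ∈ L₁ := by
      refine (hmem₁ _).2 ⟨p • x, ?_, rfl⟩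
      rw [map_nsmul]
      ext j
      simp
    have h2 : φ x = (p : ℝ)⁻¹ • φ (p • x) := by
      rw [map_nsmul, ← Nat.cast_smul_eq_nsmul ℝ, smul_smul, inv_mul_cancel₀, one_smul]
      exact_mod_cast hp.ne_zero
    rw [SetLike.mem_coe, h2]
    exact Submodule.smul_mem _ _ (Submodule.subset_span h1)
  -- index
  have hidx : (L₁.toAddSubgroup.relIndex L₂.toAddSubgroup : ℝ) = (p : ℝ) ^ a := by
    rw [hL₁r, hL₂r, AddMonoidHom.range_eq_map, AddSubgroup.relIndex_map_map_of_injective _ _ hφi,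
      AddSubgroup.relIndex_top_right, AddSubgroup.index_ker, AddMonoidHom.range_eq_top.2 hΨ]
    simp
  have hcovol : ZLattice.covolume L₁ = (p : ℝ) ^ a * ZLattice.covolume L₂ := by
    have h := ZLattice.covolume_div_covolume_eq_relIndex' L₁ L₂ hle
    rw [hidx, div_eq_iff (ZLattice.covolume_ne_zero L₂ volume)] at h
    exact h
  -- measures
  let ν : Measure (E (m + k)) := Measure.map e volume
  have hvV : (volume : Measure ((Fin m → ℝ) × (Fin k → ℝ))).IsAddHaarMeasure :=
    Measure.prod.instIsAddHaarMeasure _ _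
  have hνH : ν.IsAddHaarMeasure := e.isAddHaarMeasure_map volume
  have hνc := Measure.isAddLeftInvariant_eq_smul ν (volume : Measure (E (m + k)))
  set c := Measure.addHaarScalarFactor ν (volume : Measure (E (m + k))) with hc
  have hmap : ∀ S : Set (E (m + k)), MeasurableSet S → volume (e ⁻¹' S) = c * volume S := by
    intro S hS
    have h1 : ν S = volume (e ⁻¹' S) :=
      Measure.map_apply e.continuous.measurable hS
    rw [← h1, hνc]
    rfl
  have hfd : c * volume (ZSpan.fundamentalDomain b₂) = 1 := by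
    rw [← hmap _ (ZSpan.fundamentalDomain_measurableSet _), ← lh_vol_fd m k, hb₂,
      ← ZSpan.map_fundamentalDomain]
    congr 1
    ext z
    simp only [Set.mem_preimage, Set.mem_image, heA, EmbeddingLike.apply_eq_iff_eq,
      exists_eq_right]
  have hcov₂ : ENNReal.ofReal (ZLattice.covolume L₂) = volume (ZSpan.fundamentalDomain b₂) := by
    rw [ZLattice.covolume_eq_measure_fundamentalDomain L₂ volume
      (ZSpan.isAddFundamentalDomain b₂ volume), Measure.real, ENNReal.ofReal_toReal]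
    exact (Bornology.IsBounded.measure_lt_top (ZSpan.fundamentalDomain_isBounded _)).ne
  have hset : {z : (Fin m → ℝ) × (Fin k → ℝ) | A z + b ∈ K} = e ⁻¹' ((fun z => z + b) ⁻¹' K) := rfl
  have hKm : MeasurableSet K := hK.isClosed.measurableSet
  have hvol : volume {z : (Fin m → ℝ) × (Fin k → ℝ) | A z + b ∈ K} = c * volume K := by
    rw [hset, hmap _ (measurable_add_const b hKm), measure_preimage_add_right]
  have hcover : K + (L₁ : Set (E (m + k))) = univ := by
    rw [Set.eq_univ_iff_forall]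
    intro z
    obtain ⟨u, t, h0, h1⟩ := hcov (A.symm (z - b)).1 (A.symm (z - b)).2
    rw [Set.mem_add]
    refine ⟨_, h1, φ (u, t), (hmem₁ _).2 ⟨_, h0, rfl⟩, ?_⟩
    have h2 : ((fun i => (A.symm (z - b)).1 i - u i, fun j => (A.symm (z - b)).2 j - t j) :
        (Fin m → ℝ) × (Fin k → ℝ)) = A.symm (z - b) - lhInt m k (u, t) := rfl
    rw [h2, map_sub, LinearEquiv.apply_symm_apply, hφ]
    abel
  have hmain : thetaL K ≤ volume K / ENNReal.ofReal (ZLattice.covolume L₁) :=
    iInf_le_of_le L₁ (iInf_le_of_le hd₁ (iInf_le_of_le hz₁ (iInf_le_of_le hcover le_rfl)))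
  refine hmain.trans (le_of_eq ?_)
  rw [hcovol, ENNReal.ofReal_mul (by positivity), hcov₂, hvol]
  set v := volume (ZSpan.fundamentalDomain b₂)
  have hc0 : (c : ℝ≥0∞) ≠ 0 := by
    intro h
    rw [h, zero_mul] at hfd
    exact zero_ne_one hfd
  have hv : v = (c : ℝ≥0∞)⁻¹ := by
    rw [← ENNReal.eq_inv_of_mul_eq_one_left]
    rw [mul_comm]
    exact hfd
  rw [hv, ENNReal.div_eq_inv_mul, ENNReal.mul_inv, inv_inv, ENNReal.div_eq_inv_mul]
  · ring
  · right
    exact ENNReal.inv_ne_top.2 hc0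
  · left
    exact ENNReal.ofReal_ne_top

end Vale.Agent.P230
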