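import Vale.Agent.Lib.P230L.DefsL
import Vale.Agent.Lib.P074.L1

/-!
# P230, lattice half, module M16: a level set of the slice volume function
-/

namespace Vale.Agent.P230

open MeasureTheory Set Filter Topology
open scoped ENNReal Pointwise

namespace Level

/-- closed and midpoint convex sets are convex -/
theorem convex_of_midpoint {E : Type*} [AddCommGroup E] [Module ℝ E] [TopologicalSpace E]
    [ContinuousAdd E] [ContinuousSMul ℝ E] {D : Set E} (hD : IsClosed D)
    (hmid : ∀ x ∈ D, ∀ y ∈ D, (1 / 2 : ℝ) • (x + y) ∈ D) : Convex ℝ D := by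
  intro x hx y hy a b ha hb hab
  set L : ℝ → E := fun t => (1 - t) • x + t • y with hL
  have hLc : Continuous L := by
    rw [hL]
    fun_prop
  have ha' : a = 1 - b := by linarith
  rw [ha']
  change L b ∈ D
  by_contra hcon
  set T : Set ℝ := L ⁻¹' D with hT
  have hTc : IsClosed T := hD.preimage hLc
  have h0 : (0 : ℝ) ∈ T := by
    change (1 - (0 : ℝ)) • x + (0 : ℝ) • y ∈ D
    simpa using hx
  have h1 : (1 : ℝ) ∈ T := by
    change (1 - (1 : ℝ)) • x + (1 : ℝ) • y ∈ D
    simpa using hy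
  have hTm : ∀ s ∈ T, ∀ t ∈ T, (s + t) / 2 ∈ T := by
    intro s hs t ht
    have := hmid _ hs _ ht
    change L ((s + t) / 2) ∈ D
    have e : L ((s + t) / 2) = (1 / 2 : ℝ) • (L s + L t) := by
      simp only [hL]
      module
    rw [e]
    exact this
  have hA : (T ∩ Icc 0 b).Nonempty := ⟨0, h0, le_rfl, hb⟩
  have hB : (T ∩ Icc b 1).Nonempty := ⟨1, h1, by linarith, le_rfl⟩
  have cA : IsCompact (T ∩ Icc 0 b) := isCompact_Icc.inter_left hTc
  have cB : IsCompact (T ∩ Icc b 1) := isCompact_Icc.inter_left hTc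
  obtain ⟨s, ⟨hsT, hs0, hsb⟩, hs⟩ := cA.exists_isGreatest hA
  obtain ⟨t, ⟨htT, htb, ht1⟩, ht⟩ := cB.exists_isLeast hB
  have hbT : b ∉ T := hcon
  have hsb' : s < b := lt_of_le_of_ne hsb (fun h => hbT (h ▸ hsT))
  have htb' : b < t := lt_of_le_of_ne htb (fun h => hbT (h ▸ htT))
  have hm := hTm s hsT t htT
  rcases le_total ((s + t) / 2) b with h | h
  · have := hs ⟨hm, by linarith, h⟩
    linarith
  · have := ht ⟨hm, h, by linarith⟩
    linarith

theorem one_sub_pow_ge {n m : ℕ} (hn : 2 ≤ n) (hmn : m ≤ n) :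
    (1 / 4 : ℝ) ≤ (1 - 1 / (n : ℝ)) ^ m := by
  have hn' : (2 : ℝ) ≤ n := by exact_mod_cast hn
  have hn0 : (0 : ℝ) < n := by linarith
  have h1 : 1 / (n : ℝ) ≤ 1 / 2 := one_div_le_one_div_of_le (by norm_num) hn'
  have h2 : (0 : ℝ) < 1 / n := by positivity
  have hb0 : (0 : ℝ) ≤ 1 - 1 / n := by linarith
  have hb1 : 1 - 1 / (n : ℝ) ≤ 1 := by linarith
  have h3 : (1 / 2 : ℝ) ≤ (1 - 1 / (n : ℝ)) ^ ((n : ℝ) / 2) := by
    have h4 := one_add_mul_self_le_rpow_one_add (s := -(1 / (n : ℝ))) (by linarith)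
      (p := (n : ℝ) / 2) (by linarith)
    have h5 : 1 + (n : ℝ) / 2 * (-(1 / (n : ℝ))) = 1 / 2 := by
      field_simp
      norm_num
    rw [h5] at h4
    have h6 : 1 + -(1 / (n : ℝ)) = 1 - 1 / n := by ring
    rwa [h6] at h4
  have h7 : (1 / 4 : ℝ) ≤ (1 - 1 / (n : ℝ)) ^ n := by
    have h8 : (1 - 1 / (n : ℝ)) ^ n = ((1 - 1 / (n : ℝ)) ^ ((n : ℝ) / 2)) ^ 2 := by
      rw [← Real.rpow_natCast, ← Real.rpow_natCast, ← Real.rpow_mul hb0]
      congr 1
      push_cast
      ring
    rw [h8]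
    nlinarith
  exact h7.trans (pow_le_pow_of_le_one hb0 hb1 hmn)

section
variable {m k : ℕ} {K : Set ((Fin m → ℝ) × (Fin k → ℝ))}

/-- the volume of the slice -/
noncomputable def G (K : Set ((Fin m → ℝ) × (Fin k → ℝ))) (y : Fin k → ℝ) : ℝ≥0∞ :=
  volume (slice K y)

theorem isClosed_slice (hK : IsClosed K) (y : Fin k → ℝ) : IsClosed (slice K y) :=
  hK.preimage (by fun_prop : Continuous fun x : Fin m → ℝ => (x, y))

theorem volume_eq (hK : IsClosed K) : volume K = ∫⁻ y, G K y := by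
  rw [Measure.volume_eq_prod, Measure.prod_apply_symm hK.measurableSet]
  rfl

theorem measurable_G (hK : IsClosed K) : Measurable (G K) :=
  measurable_measure_prodMk_right hK.measurableSet

theorem slice_subset {B : ℝ} (hB0 : 0 ≤ B)
    (hB : ∀ x y, (x, y) ∈ K → (∀ i, |x i| ≤ B) ∧ (∀ j, |y j| ≤ B)) (y : Fin k → ℝ) :
    slice K y ⊆ Metric.closedBall 0 B := by
  intro x hx
  rw [mem_closedBall_zero_iff, pi_norm_le_iff_of_nonneg hB0]
  exact (hB x y hx).1

theorem G_ne_top {B : ℝ} (hB0 : 0 ≤ B)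
    (hB : ∀ x y, (x, y) ∈ K → (∀ i, |x i| ≤ B) ∧ (∀ j, |y j| ≤ B)) (y : Fin k → ℝ) :
    G K y ≠ ∞ :=
  ((measure_mono (slice_subset hB0 hB y)).trans_lt measure_closedBall_lt_top).ne

theorem mem_of_G_pos {B : ℝ} (hB0 : 0 ≤ B)
    (hB : ∀ x y, (x, y) ∈ K → (∀ i, |x i| ≤ B) ∧ (∀ j, |y j| ≤ B)) {y : Fin k → ℝ}
    (hy : G K y ≠ 0) : (slice K y).Nonempty ∧ y ∈ Metric.closedBall 0 B := by
  have h1 : (slice K y).Nonempty := by
    by_contra h
    rw [Set.not_nonempty_iff_eq_empty] at h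
    apply hy
    rw [G, h, measure_empty]
  refine ⟨h1, ?_⟩
  obtain ⟨x, hx⟩ := h1
  rw [mem_closedBall_zero_iff, pi_norm_le_iff_of_nonneg hB0]
  exact (hB x y hx).2

theorem usc_G (hK : IsClosed K) {B : ℝ} (hB0 : 0 ≤ B)
    (hB : ∀ x y, (x, y) ∈ K → (∀ i, |x i| ≤ B) ∧ (∀ j, |y j| ≤ B)) :
    UpperSemicontinuous (G K) := by
  rw [upperSemicontinuous_iff_isClosed_preimage]
  intro c
  apply IsSeqClosed.isClosed
  intro u y hu hy
  change c ≤ G K y
  have hu' : ∀ j, c ≤ G K (u j) := hu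
  have h1 : limsup (fun j => ∫⁻ x, (slice K (u j)).indicator 1 x) atTop ≤
      ∫⁻ x, limsup (fun j => (slice K (u j)).indicator (1 : (Fin m → ℝ) → ℝ≥0∞) x) atTop := by
    refine limsup_lintegral_le ((Metric.closedBall (0 : Fin m → ℝ) B).indicator 1) ?_ ?_ ?_
    · intro j
      exact measurable_one.indicator (isClosed_slice hK _).measurableSet
    · intro j
      refine Eventually.of_forall (fun x => ?_)
      exact indicator_le_indicator_of_subset (slice_subset hB0 hB _) (fun _ => zero_le) x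
    · rw [lintegral_indicator_one Metric.isClosed_closedBall.measurableSet]
      exact measure_closedBall_lt_top.ne
  have h2 : ∀ j, ∫⁻ x, (slice K (u j)).indicator 1 x = G K (u j) := fun j =>
    lintegral_indicator_one (isClosed_slice hK _).measurableSet
  simp only [h2] at h1
  have h3 : ∫⁻ x, limsup (fun j => (slice K (u j)).indicator (1 : (Fin m → ℝ) → ℝ≥0∞) x) atTop ≤
      G K y := by
    rw [G, ← lintegral_indicator_one (isClosed_slice hK y).measurableSet]
    refine lintegral_mono (fun x => ?_)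
    by_cases hx : x ∈ slice K y
    · rw [indicator_of_mem hx]
      refine limsup_le_of_le (by isBoundedDefault) (Eventually.of_forall (fun j => ?_))
      by_cases hj : x ∈ slice K (u j)
      · rw [indicator_of_mem hj]
      · rw [indicator_of_notMem hj]
        exact zero_le
    · rw [indicator_of_notMem hx]
      have h4 : ∀ᶠ j in atTop, (slice K (u j)).indicator (1 : (Fin m → ℝ) → ℝ≥0∞) x = 0 := by
        have h5 : Tendsto (fun j => (x, u j)) atTop (𝓝 (x, y)) :=
          tendsto_const_nhds.prodMk_nhds hy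
        have h6 : Kᶜ ∈ 𝓝 (x, y) := hK.isOpen_compl.mem_nhds hx
        filter_upwards [h5.eventually h6] with j hj
        exact indicator_of_notMem (show x ∉ slice K (u j) from hj) _
      exact limsup_le_of_le (by isBoundedDefault) (h4.mono (fun j hj => hj.le))
  refine le_trans ?_ (h1.trans h3)
  exact le_limsup_of_le (by isBoundedDefault) (fun b hb => by
    obtain ⟨j, hj⟩ := hb.exists
    exact (hu' j).trans hj)

theorem G_mid (hK : IsClosed K) (hconv : Convex ℝ K) (y y' : Fin k → ℝ) :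
    G K y * G K y' ≤ (G K ((1 / 2 : ℝ) • (y + y'))) ^ 2 := by
  have h := P074.L1.pl_pi m ((slice K y).indicator 1) ((slice K y').indicator 1)
    ((slice K ((1 / 2 : ℝ) • (y + y'))).indicator 1)
    (measurable_one.indicator (isClosed_slice hK _).measurableSet)
    (measurable_one.indicator (isClosed_slice hK _).measurableSet)
    (measurable_one.indicator (isClosed_slice hK _).measurableSet) ?_
  · rw [lintegral_indicator_one (isClosed_slice hK _).measurableSet,
      lintegral_indicator_one (isClosed_slice hK _).measurableSet,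
      lintegral_indicator_one (isClosed_slice hK _).measurableSet] at h
    exact h
  · intro x x'
    by_cases hx : x ∈ slice K y
    · by_cases hx' : x' ∈ slice K y'
      · have h1 : (1 / 2 : ℝ) • (x + x') ∈ slice K ((1 / 2 : ℝ) • (y + y')) := by
          have h2 := hconv hx hx' (by norm_num : (0 : ℝ) ≤ 1 / 2) (by norm_num : (0 : ℝ) ≤ 1 / 2)
            (by norm_num)
          change ((1 / 2 : ℝ) • (x + x'), (1 / 2 : ℝ) • (y + y')) ∈ K
          rw [smul_add, smul_add]
          exact h2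
        rw [indicator_of_mem hx, indicator_of_mem hx', indicator_of_mem h1]
        simp
      · rw [indicator_of_notMem hx', mul_zero]
        exact zero_le
    · rw [indicator_of_notMem hx, zero_mul]
      exact zero_le

theorem G_scale (hconv : Convex ℝ K)
    (hcube : ∀ x y, (∀ i, |x i| ≤ 1) → (∀ j, |y j| ≤ 1) → (x, y) ∈ K)
    {l : ℝ} (hl0 : 0 ≤ l) (hl1 : l ≤ 1) (y u : Fin k → ℝ) (hu : ∀ j, |u j| ≤ 1) :
    ENNReal.ofReal ((1 - l) ^ m) * G K y ≤ G K ((1 - l) • y + l • u) := by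
  have h1 : (1 - l) • slice K y ⊆ slice K ((1 - l) • y + l • u) := by
    rintro _ ⟨x, hx, rfl⟩
    have h2 := hconv hx (hcube 0 u (fun i => by simp) hu) (by linarith : 0 ≤ 1 - l) hl0
      (by ring)
    change ((1 - l) • x, (1 - l) • y + l • u) ∈ K
    have e : (1 - l) • (x, y) + l • ((0 : Fin m → ℝ), u) =
        ((1 - l) • x, (1 - l) • y + l • u) := by
      simp
    rw [← e]
    exact h2
  have h2 := measure_mono (μ := (volume : Measure (Fin m → ℝ))) h1
  rw [Measure.addHaar_smul] at h2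
  rw [Module.finrank_fin_fun, abs_of_nonneg (pow_nonneg (by linarith) m)] at h2
  exact h2

/-- doubling of the level sets -/
theorem level_double {c : ℝ≥0∞} (hK : IsClosed K) (hconv : Convex ℝ K) {ys : Fin k → ℝ} :
    volume {y | c ^ 2 * G K ys ≤ G K y} ≤
      ENNReal.ofReal (2 ^ k) * volume {y | c * G K ys ≤ G K y} := by
  have h1 : {y | c ^ 2 * G K ys ≤ G K y} ⊆
      AffineMap.homothety ys (2 : ℝ) '' {y | c * G K ys ≤ G K y} := by
    intro y hy
    refine ⟨(1 / 2 : ℝ) • (ys + y), ?_, ?_⟩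
    · have h2 := G_mid hK hconv ys y
      have hy' : c ^ 2 * G K ys ≤ G K y := hy
      have h3 : (c * G K ys) ^ 2 ≤ (G K ((1 / 2 : ℝ) • (ys + y))) ^ 2 := by
        refine le_trans ?_ h2
        calc (c * G K ys) ^ 2 = G K ys * (c ^ 2 * G K ys) := by ring
          _ ≤ G K ys * G K y := by gcongr
      exact (ENNReal.pow_right_strictMono two_ne_zero).le_iff_le.1 h3
    · rw [AffineMap.homothety_apply]
      simp only [vsub_eq_sub, vadd_eq_add]
      module
  refine (measure_mono h1).trans ?_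
  rw [Measure.addHaar_image_homothety, Module.finrank_fin_fun,
    abs_of_nonneg (by positivity : (0 : ℝ) ≤ 2 ^ k)]

theorem level_iter (hK : IsClosed K) (hconv : Convex ℝ K) {ys : Fin k → ℝ}
    (a : ℝ≥0∞) (j : ℕ) :
    volume {y | a ^ (2 ^ j) * G K ys ≤ G K y} ≤
      ENNReal.ofReal (2 ^ (j * k)) * volume {y | a * G K ys ≤ G K y} := by
  induction j with
  | zero => simp
  | succ j ih =>
    have h1 := level_double (c := a ^ (2 ^ j)) (ys := ys) hK hconv
    rw [← pow_mul, ← pow_succ] at h1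
    refine h1.trans ?_
    calc ENNReal.ofReal (2 ^ k) * volume {y | a ^ (2 ^ j) * G K ys ≤ G K y}
        ≤ ENNReal.ofReal (2 ^ k) * (ENNReal.ofReal (2 ^ (j * k)) *
          volume {y | a * G K ys ≤ G K y}) := by gcongr
      _ = ENNReal.ofReal (2 ^ ((j + 1) * k)) * volume {y | a * G K ys ≤ G K y} := by
        rw [← mul_assoc, ← ENNReal.ofReal_mul (by positivity), ← pow_add]
        congr 3
        ring

theorem level_pointwise {ys : Fin k → ℝ} (hmax : ∀ y, G K y ≤ G K ys)
    (hyst : G K ys ≠ ∞) {a : ℝ≥0∞} (ha : a < 1) (y : Fin k → ℝ) :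
    G K y ≤ {y | a * G K ys ≤ G K y}.indicator (fun _ => G K ys) y +
      ∑' j : ℕ, {y | a ^ (2 ^ (j + 1)) * G K ys ≤ G K y}.indicator
        (fun _ => a ^ (2 ^ j) * G K ys) y := by
  by_cases h0 : a * G K ys ≤ G K y
  · have h1 : y ∈ {y | a * G K ys ≤ G K y} := h0
    rw [indicator_of_mem h1]
    exact (hmax y).trans le_self_add
  · push Not at h0
    by_cases hy0 : G K y = 0
    · rw [hy0]
      exact zero_le
    have hex : ∃ j : ℕ, a ^ (2 ^ j) * G K ys ≤ G K y := by
      have t1 : Tendsto (fun j : ℕ => a ^ (2 ^ j) * G K ys) atTop (𝓝 (0 * G K ys)) := by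
        refine ENNReal.Tendsto.mul_const ?_ (Or.inr hyst)
        exact (ENNReal.tendsto_pow_atTop_nhds_zero_of_lt_one ha).comp
          (tendsto_pow_atTop_atTop_of_one_lt (by norm_num))
      rw [zero_mul] at t1
      obtain ⟨j, hj⟩ := (t1.eventually (gt_mem_nhds (pos_iff_ne_zero.2 hy0))).exists
      exact ⟨j, hj.le⟩
    classical
    set j := Nat.find hex with hj
    have hj1 : a ^ (2 ^ j) * G K ys ≤ G K y := Nat.find_spec hex
    have hj0 : j ≠ 0 := by
      intro h
      rw [h, pow_zero, pow_one] at hj1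
      exact absurd hj1 (not_le.2 h0)
    obtain ⟨i, hi⟩ := Nat.exists_eq_succ_of_ne_zero hj0
    have hi2 : ¬ a ^ (2 ^ i) * G K ys ≤ G K y := Nat.find_min hex (by omega)
    push Not at hi2
    refine le_trans ?_ le_add_self
    refine le_trans ?_ (ENNReal.le_tsum i)
    have h2 : y ∈ {y | a ^ (2 ^ (i + 1)) * G K ys ≤ G K y} := by
      change a ^ (2 ^ (i + 1)) * G K ys ≤ G K y
      rw [hi] at hj1
      exact hj1
    rw [indicator_of_mem h2]
    exact hi2.le

end

theorem exp_bound (j : ℕ) : (8 / 3 : ℝ) ^ (j + 1) ≤ Real.exp (2 ^ j) := by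
  have he : (8 / 3 : ℝ) ≤ Real.exp 1 := by
    have := Real.exp_one_gt_d9
    linarith
  induction j with
  | zero => simpa using he
  | succ j ih =>
    have h1 : (1 : ℝ) ≤ 2 ^ j := one_le_pow₀ (by norm_num)
    have h2 : Real.exp 1 ≤ Real.exp (2 ^ j) := Real.exp_le_exp.2 h1
    calc (8 / 3 : ℝ) ^ (j + 1 + 1) = (8 / 3) * (8 / 3) ^ (j + 1) := by ring
      _ ≤ Real.exp (2 ^ j) * Real.exp (2 ^ j) := by
        gcongr
        exact he.trans h2
      _ = Real.exp (2 ^ (j + 1)) := by
        rw [← Real.exp_add]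
        congr 1
        ring

theorem term_bound {k : ℕ} (hk : 1 ≤ k) (j : ℕ) :
    Real.exp (-(k : ℝ)) ^ (2 ^ j) * 2 ^ ((j + 1) * k) ≤ (3 / 4 : ℝ) ^ (j + 1) := by
  have h1 : Real.exp (-(k : ℝ)) ^ (2 ^ j) * 2 ^ ((j + 1) * k) =
      (Real.exp (-(2 ^ j)) * 2 ^ (j + 1)) ^ k := by
    rw [mul_pow, ← pow_mul, ← Real.exp_nat_mul, ← Real.exp_nat_mul]
    congr 2
    push_cast
    ring
  have h2 : Real.exp (-(2 ^ j)) * 2 ^ (j + 1) ≤ (3 / 4 : ℝ) ^ (j + 1) := by
    rw [Real.exp_neg, inv_mul_le_iff₀ (Real.exp_pos _)]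
    have h3 := exp_bound j
    calc (2 : ℝ) ^ (j + 1) = (8 / 3) ^ (j + 1) * (3 / 4) ^ (j + 1) := by
          rw [← mul_pow]
          norm_num
      _ ≤ Real.exp (2 ^ j) * (3 / 4) ^ (j + 1) := by gcongr
  have h3 : (3 / 4 : ℝ) ^ (j + 1) ≤ 1 := pow_le_one₀ (by norm_num) (by norm_num)
  rw [h1]
  have h4 : (0 : ℝ) ≤ Real.exp (-(2 ^ j)) * 2 ^ (j + 1) := by positivity
  refine le_trans (pow_le_of_le_one h4 (h2.trans h3) (by omega)) h2

/-- the integral of the slice volumes -/
theorem volume_le {m k : ℕ} (hk : 1 ≤ k) {K : Set ((Fin m → ℝ) × (Fin k → ℝ))} (hK : IsClosed K)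
    (hconv : Convex ℝ K) {ys : Fin k → ℝ} (hmax : ∀ y, G K y ≤ G K ys) (hyst : G K ys ≠ ∞) :
    volume K ≤ 4 * (G K ys * volume {y | ENNReal.ofReal (Real.exp (-(k : ℝ))) * G K ys ≤ G K y}) := by
  set a : ℝ≥0∞ := ENNReal.ofReal (Real.exp (-(k : ℝ))) with ha
  have hk0 : (0 : ℝ) < k := by exact_mod_cast hk
  have ha1 : a < 1 := by
    rw [ha, ← ENNReal.ofReal_one, ENNReal.ofReal_lt_ofReal_iff one_pos]
    rw [Real.exp_lt_one_iff]
    linarith
  have hm : ∀ c : ℝ≥0∞, MeasurableSet {y | c ≤ G K y} := fun c =>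
    measurableSet_le measurable_const (measurable_G hK)
  rw [volume_eq hK]
  calc ∫⁻ y, G K y ≤ ∫⁻ y, ({y | a * G K ys ≤ G K y}.indicator (fun _ => G K ys) y +
      ∑' j : ℕ, {y | a ^ (2 ^ (j + 1)) * G K ys ≤ G K y}.indicator
        (fun _ => a ^ (2 ^ j) * G K ys) y) :=
        lintegral_mono (fun y => level_pointwise hmax hyst ha1 y)
    _ = G K ys * volume {y | a * G K ys ≤ G K y} + ∑' j : ℕ, a ^ (2 ^ j) * G K ys *
        volume {y | a ^ (2 ^ (j + 1)) * G K ys ≤ G K y} := by
        rw [lintegral_add_left (measurable_const.indicator (hm _)),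
          lintegral_tsum (fun j => (measurable_const.indicator (hm _)).aemeasurable),
          lintegral_indicator_const (hm _)]
        congr 1
        refine tsum_congr (fun j => ?_)
        rw [lintegral_indicator_const (hm _)]
    _ ≤ G K ys * volume {y | a * G K ys ≤ G K y} + ∑' j : ℕ, ENNReal.ofReal ((3 / 4) ^ (j + 1)) *
        (G K ys * volume {y | a * G K ys ≤ G K y}) := by
        refine add_le_add le_rfl (ENNReal.tsum_le_tsum (fun j => ?_))
        have h1 := level_iter (ys := ys) hK hconv a (j + 1)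
        calc a ^ (2 ^ j) * G K ys * volume {y | a ^ (2 ^ (j + 1)) * G K ys ≤ G K y}
            ≤ a ^ (2 ^ j) * G K ys * (ENNReal.ofReal (2 ^ ((j + 1) * k)) *
              volume {y | a * G K ys ≤ G K y}) := by gcongr
          _ = (a ^ (2 ^ j) * ENNReal.ofReal (2 ^ ((j + 1) * k))) *
              (G K ys * volume {y | a * G K ys ≤ G K y}) := by ring
          _ ≤ ENNReal.ofReal ((3 / 4) ^ (j + 1)) *
              (G K ys * volume {y | a * G K ys ≤ G K y}) := by
            gcongr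
            rw [ha, ← ENNReal.ofReal_pow (Real.exp_pos _).le,
              ← ENNReal.ofReal_mul (by positivity)]
            exact ENNReal.ofReal_le_ofReal (term_bound hk j)
    _ = 4 * (G K ys * volume {y | a * G K ys ≤ G K y}) := by
        rw [ENNReal.tsum_mul_right]
        have h2 : ∑' j : ℕ, ENNReal.ofReal ((3 / 4 : ℝ) ^ (j + 1)) = 3 := by
          have h3 : HasSum (fun j : ℕ => (3 / 4 : ℝ) ^ (j + 1)) 3 := by
            have h4 := (hasSum_geometric_of_lt_one (by norm_num : (0 : ℝ) ≤ 3 / 4)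
              (by norm_num)).mul_left (3 / 4)
            have h5 : (3 / 4 : ℝ) * (1 - 3 / 4)⁻¹ = 3 := by norm_num
            rw [h5] at h4
            refine h4.congr_fun ?_
            intro j
            rw [pow_succ']
          rw [← ENNReal.ofReal_tsum_of_nonneg (fun j => by positivity) h3.summable, h3.tsum_eq]
          norm_num
        rw [h2]
        ring

end Level

/-- M16 -/
theorem exists_level {n m k : ℕ} (hn : 2 ≤ n) (hmn : m ≤ n) (hkn : k ≤ n) (hk : 1 ≤ k)
    (K : Set ((Fin m → ℝ) × (Fin k → ℝ)))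
    (hconv : Convex ℝ K) (hcomp : IsCompact K)
    (hcube : ∀ x y, (∀ i, |x i| ≤ 1) → (∀ j, |y j| ≤ 1) → (x, y) ∈ K)
    (B : ℝ) (hB : ∀ x y, (x, y) ∈ K → (∀ i, |x i| ≤ B) ∧ (∀ j, |y j| ≤ B)) :
    ∃ (P : Set (Fin k → ℝ)) (v : ℝ), Convex ℝ P ∧ IsCompact P ∧ 0 < v ∧
      (∀ y ∈ P, ∀ j, |y j| ≤ B) ∧
      (∀ y ∈ P, v ≤ volume.real (slice K y) ∧ volume.real (slice K y) ≤ 8 * Real.exp k * v ∧
        ∃ c : Fin m → ℝ, ∀ x : Fin m → ℝ, (∀ i, |x i - c i| ≤ 1 / n) → x ∈ slice K y) ∧
      volume.real K ≤ 64 * Real.exp k * v * volume.real P ∧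
      (2 / (n : ℝ)) ^ k / 64 ≤ volume.real P := by
  have hK : IsClosed K := hcomp.isClosed
  have hB1 : 1 ≤ B := by
    have h1 := (hB 0 (fun _ => 1) (hcube 0 (fun _ => 1) (fun i => by simp)
      (fun j => by simp))).2 ⟨0, hk⟩
    simpa using h1
  have hB0 : 0 ≤ B := by linarith
  have husc := Level.usc_G hK hB0 hB
  -- the maximum
  obtain ⟨ys, -, hys⟩ := (husc.upperSemicontinuousOn (Metric.closedBall 0 B)).exists_isMaxOn
    ⟨0, Metric.mem_closedBall_self hB0⟩ (isCompact_closedBall 0 B)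
  have hmax : ∀ y, Level.G K y ≤ Level.G K ys := by
    intro y
    by_cases h0 : Level.G K y = 0
    · rw [h0]; exact zero_le
    · exact hys (Level.mem_of_G_pos hB0 hB h0).2
  have hyst : Level.G K ys ≠ ∞ := Level.G_ne_top hB0 hB ys
  have hG0 : Level.G K 0 ≠ 0 := by
    have h1 : Metric.closedBall (0 : Fin m → ℝ) 1 ⊆ slice K 0 := by
      intro x hx
      rw [mem_closedBall_zero_iff, pi_norm_le_iff_of_nonneg zero_le_one] at hx
      exact hcube x 0 hx (fun j => by simp)
    have h2 := measure_mono (μ := (volume : Measure (Fin m → ℝ))) h1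
    have h3 : 0 < volume (Metric.closedBall (0 : Fin m → ℝ) 1) :=
      Metric.measure_closedBall_pos volume 0 one_pos
    exact (h3.trans_le h2).ne'
  have hys0 : Level.G K ys ≠ 0 := by
    intro h
    have := hmax 0
    rw [h] at this
    exact hG0 (le_antisymm this zero_le)
  have hyspos : 0 < (Level.G K ys).toReal := ENNReal.toReal_pos hys0 hyst
  have hreal : ∀ y, volume.real (slice K y) = (Level.G K y).toReal := fun y => rfl
  -- the numbers
  have hn2 : (2 : ℝ) ≤ n := by exact_mod_cast hn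
  have hn0 : (0 : ℝ) < n := by linarith
  set l : ℝ := 1 / n with hl
  have hl0 : 0 < l := by positivity
  have hl2 : l ≤ 1 / 2 := one_div_le_one_div_of_le (by norm_num) hn2
  set q : ℝ := 1 - l with hq
  have hq0 : 0 < q := by linarith
  have hq1 : q ≤ 1 := by linarith
  have hqm : (1 / 4 : ℝ) ≤ q ^ m := Level.one_sub_pow_ge hn hmn
  have hqk : (1 / 4 : ℝ) ≤ q ^ k := Level.one_sub_pow_ge hn hkn
  set a : ℝ≥0∞ := ENNReal.ofReal (Real.exp (-(k : ℝ))) with ha
  have ha0 : a ≠ 0 := (ENNReal.ofReal_pos.2 (Real.exp_pos _)).ne'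
  have hc0 : a * Level.G K ys ≠ 0 := mul_ne_zero ha0 hys0
  set P₁ : Set (Fin k → ℝ) := {y | a * Level.G K ys ≤ Level.G K y} with hP₁
  have hP₁pos : ∀ y ∈ P₁, Level.G K y ≠ 0 := by
    intro y hy h
    have hy' : a * Level.G K ys ≤ Level.G K y := hy
    rw [h] at hy'
    exact hc0 (le_antisymm hy' zero_le)
  have hP₁B : P₁ ⊆ Metric.closedBall 0 B := fun y hy =>
    (Level.mem_of_G_pos hB0 hB (hP₁pos y hy)).2
  have hP₁cl : IsClosed P₁ :=
    upperSemicontinuous_iff_isClosed_preimage.1 husc (a * Level.G K ys)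
  have hP₁c : IsCompact P₁ := (isCompact_closedBall 0 B).of_isClosed_subset hP₁cl hP₁B
  have hP₁conv : Convex ℝ P₁ := by
    refine Level.convex_of_midpoint hP₁cl ?_
    intro x hx y hy
    have h1 := Level.G_mid hK hconv x y
    have hx' : a * Level.G K ys ≤ Level.G K x := hx
    have hy' : a * Level.G K ys ≤ Level.G K y := hy
    have h2 : (a * Level.G K ys) ^ 2 ≤ (Level.G K ((1 / 2 : ℝ) • (x + y))) ^ 2 := by
      refine le_trans ?_ h1
      rw [pow_two]
      exact mul_le_mul' hx' hy'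
    exact (ENNReal.pow_right_strictMono two_ne_zero).le_iff_le.1 h2
  have hvol : volume (q • P₁) = ENNReal.ofReal (q ^ k) * volume P₁ := by
    rw [Measure.addHaar_smul, Module.finrank_fin_fun, abs_of_nonneg (pow_nonneg hq0.le k)]
  have hP₁fin : volume P₁ ≠ ∞ := hP₁c.measure_lt_top.ne
  have hvolr : volume.real (q • P₁) = q ^ k * volume.real P₁ := by
    rw [Measure.real, hvol, ENNReal.toReal_mul, ENNReal.toReal_ofReal (pow_nonneg hq0.le k)]
    rfl
  have hKreal : volume.real K ≤ 4 * ((Level.G K ys).toReal * volume.real P₁) := by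
    have h1 := Level.volume_le hk hK hconv hmax hyst
    have h2 : (4 * (Level.G K ys * volume P₁)) ≠ ∞ :=
      ENNReal.mul_ne_top (by norm_num) (ENNReal.mul_ne_top hyst hP₁fin)
    have h3 := ENNReal.toReal_mono h2 h1
    rw [ENNReal.toReal_mul, ENNReal.toReal_mul] at h3
    exact h3
  have hKlow : 1 / 4 * (Level.G K ys).toReal * (2 / (n : ℝ)) ^ k ≤ volume.real K := by
    have h1 := mul_meas_ge_le_lintegral (μ := (volume : Measure (Fin k → ℝ)))
      (Level.measurable_G hK) (ENNReal.ofReal (1 / 4) * Level.G K ys)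
    rw [← Level.volume_eq hK] at h1
    have h2 : Metric.closedBall (q • ys) l ⊆
        {y | ENNReal.ofReal (1 / 4) * Level.G K ys ≤ Level.G K y} := by
      intro y hy
      rw [Metric.mem_closedBall, dist_eq_norm, pi_norm_le_iff_of_nonneg hl0.le] at hy
      have h3 := Level.G_scale hconv hcube hl0.le (by linarith : l ≤ 1) ys (l⁻¹ • (y - q • ys)) (by
        intro j
        have h4 := hy j
        rw [Real.norm_eq_abs] at h4
        rw [Pi.smul_apply, smul_eq_mul, abs_mul, abs_of_pos (inv_pos.2 hl0),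
          inv_mul_le_iff₀ hl0, mul_one]
        exact h4)
      have h5 : (1 - l) • ys + l • l⁻¹ • (y - q • ys) = y := by
        rw [smul_smul, mul_inv_cancel₀ hl0.ne', one_smul, ← hq]
        abel
      rw [h5] at h3
      refine le_trans ?_ h3
      gcongr
    have h3 : ENNReal.ofReal (1 / 4) * Level.G K ys * ENNReal.ofReal ((2 * l) ^ k) ≤ volume K := by
      refine le_trans ?_ h1
      gcongr
      have h4 := Real.volume_pi_closedBall (q • ys) hl0.le
      rw [Fintype.card_fin] at h4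
      rw [← h4]
      exact measure_mono h2
    have h4 := ENNReal.toReal_mono hcomp.measure_lt_top.ne h3
    rw [ENNReal.toReal_mul, ENNReal.toReal_mul, ENNReal.toReal_ofReal (by norm_num),
      ENNReal.toReal_ofReal (by positivity)] at h4
    have h5 : 2 * l = 2 / n := by rw [hl]; ring
    rw [h5] at h4
    exact h4
  have hexp : Real.exp k * Real.exp (-(k : ℝ)) = 1 := by
    rw [← Real.exp_add]
    simp
  refine ⟨q • P₁, 1 / 4 * Real.exp (-(k : ℝ)) * (Level.G K ys).toReal, hP₁conv.smul q,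
    hP₁c.smul q, by positivity, ?_, ?_, ?_, ?_⟩
  · rintro _ ⟨y, hy, rfl⟩ j
    have h1 := hP₁B hy
    rw [mem_closedBall_zero_iff, pi_norm_le_iff_of_nonneg hB0] at h1
    have h2 := h1 j
    rw [Real.norm_eq_abs] at h2
    change |q * y j| ≤ B
    rw [abs_mul, abs_of_pos hq0]
    nlinarith [abs_nonneg (y j)]
  · rintro _ ⟨y, hy, rfl⟩
    refine ⟨?_, ?_, ?_⟩
    · have h3 := Level.G_scale hconv hcube hl0.le (by linarith : l ≤ 1) y 0 (by intro j; simp)
      rw [smul_zero, add_zero, ← hq] at h3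
      have h4 : ENNReal.ofReal (1 / 4) * (a * Level.G K ys) ≤ Level.G K (q • y) := by
        refine le_trans ?_ h3
        exact mul_le_mul' (ENNReal.ofReal_le_ofReal hqm) hy
      have h5 := ENNReal.toReal_mono (Level.G_ne_top hB0 hB _) h4
      rw [ENNReal.toReal_mul, ENNReal.toReal_mul, ENNReal.toReal_ofReal (by norm_num),
        ENNReal.toReal_ofReal (Real.exp_pos _).le] at h5
      change 1 / 4 * Real.exp (-(k : ℝ)) * (Level.G K ys).toReal ≤ (Level.G K (q • y)).toReal
      linarith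
    · change (Level.G K (q • y)).toReal ≤ _
      have h5 := ENNReal.toReal_mono hyst (hmax (q • y))
      have h6 : 8 * Real.exp k * (1 / 4 * Real.exp (-(k : ℝ)) * (Level.G K ys).toReal) =
          2 * (Real.exp k * Real.exp (-(k : ℝ))) * (Level.G K ys).toReal := by ring
      rw [h6, hexp]
      linarith
    · obtain ⟨x₁, hx₁⟩ := (Level.mem_of_G_pos hB0 hB (hP₁pos y hy)).1
      refine ⟨q • x₁, ?_⟩
      intro x hx
      have h1 : ((l⁻¹ • (x - q • x₁), 0) : (Fin m → ℝ) × (Fin k → ℝ)) ∈ K := by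
        apply hcube
        · intro i
          have h4 := hx i
          rw [Pi.smul_apply, smul_eq_mul, abs_mul, abs_of_pos (inv_pos.2 hl0),
            inv_mul_le_iff₀ hl0, mul_one]
          exact h4
        · intro j
          simp
      have h2 := hconv hx₁ h1 hq0.le hl0.le (by rw [hq]; ring)
      have h3 : q • (x₁, y) + l • ((l⁻¹ • (x - q • x₁), 0) : (Fin m → ℝ) × (Fin k → ℝ)) =
          (x, q • y) := by
        ext i
        · simp only [Prod.smul_mk, Prod.mk_add_mk, smul_smul, mul_inv_cancel₀ hl0.ne', one_smul]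
          simp
        · simp
      rw [h3] at h2
      exact h2
  · rw [hvolr]
    have h1 : 64 * Real.exp k * (1 / 4 * Real.exp (-(k : ℝ)) * (Level.G K ys).toReal) *
        (q ^ k * volume.real P₁) = 16 * (Real.exp k * Real.exp (-(k : ℝ))) *
        (q ^ k * ((Level.G K ys).toReal * volume.real P₁)) := by ring
    rw [h1, hexp]
    have h2 : 0 ≤ (Level.G K ys).toReal * volume.real P₁ := by positivity
    nlinarith
  · rw [hvolr]
    have h1 : 1 / 4 * (Level.G K ys).toReal * (2 / (n : ℝ)) ^ k ≤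
        4 * ((Level.G K ys).toReal * volume.real P₁) := hKlow.trans hKreal
    have h2 : (2 / (n : ℝ)) ^ k ≤ 16 * volume.real P₁ := by
      have h3 : (Level.G K ys).toReal * (2 / (n : ℝ)) ^ k ≤
          (Level.G K ys).toReal * (16 * volume.real P₁) := by linarith
      exact le_of_mul_le_mul_left h3 hyspos
    have h3 : 0 ≤ volume.real P₁ := measureReal_nonneg
    nlinarith

end Vale.Agent.P230
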