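import Vale.Agent.Lib.P230.Simplex

/-!
# P230L, M17: a good position of a convex body

Coordinates from an inscribed simplex of maximal volume.
-/

namespace Vale.Agent.P230

open MeasureTheory Set Filter Matrix
open scoped ENNReal

/-- Barycentric coordinates with respect to a maximal simplex are at most one in absolute value. -/
lemma exists_max_simplex {N : ℕ} {K : Set (E N)} (hK : IsConvexBody K) :
    ∃ v : Fin (N + 1) → E N, (∀ j, v j ∈ K) ∧ (hmat v).det ≠ 0 ∧
      ∀ x ∈ K, ∀ c : Fin (N + 1) → ℝ, hmat v *ᵥ c = hom x → ∀ j, |c j| ≤ 1 := by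
  obtain ⟨hconv, hcomp, hint⟩ := hK
  obtain ⟨v₁, hv₁K, hv₁⟩ := exists_simplex hint
  have hpc : IsCompact (Set.pi univ fun _ : Fin (N + 1) => K) := isCompact_univ_pi fun _ => hcomp
  have hmem : v₁ ∈ Set.pi univ fun _ : Fin (N + 1) => K := fun j _ => hv₁K j
  obtain ⟨v, hvK, hmax⟩ := hpc.exists_isMaxOn ⟨v₁, hmem⟩
    (continuous_det_hmat.abs).continuousOn
  have hvK' : ∀ j, v j ∈ K := fun j => hvK j (mem_univ j)
  have hdet : 0 < |(hmat v).det| := by
    have := hmax hmem
    simp only [Set.mem_ofPred_eq] at this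
    exact lt_of_lt_of_le (abs_pos.mpr hv₁) this
  have hdet0 : (hmat v).det ≠ 0 := abs_pos.mp hdet
  refine ⟨v, hvK', hdet0, fun x hx c hcx j => ?_⟩
  have hmul : hmat v *ᵥ (((hmat v).det)⁻¹ • (hmat v).cramer (hom x)) = hom x := by
    rw [Matrix.mulVec_smul, Matrix.mulVec_cramer, smul_smul, inv_mul_cancel₀ hdet0, one_smul]
  have hinj : Function.Injective ((hmat v).mulVec) :=
    Matrix.mulVec_injective_of_det_ne_zero hdet0
  have hc : c = ((hmat v).det)⁻¹ • (hmat v).cramer (hom x) := hinj (by rw [hcx, hmul])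
  have h1 : (hmat v).cramer (hom x) j = (hmat (Function.update v j x)).det := by
    rw [Matrix.cramer_apply]
    congr 1
    ext i k
    rw [Matrix.updateCol_apply]
    by_cases hk : k = j
    · subst hk; simp [hmat]
    · simp [hmat, hk]
  have h2 : Function.update v j x ∈ Set.pi univ fun _ : Fin (N + 1) => K := by
    intro k _
    by_cases hk : k = j
    · subst hk; simpa using hx
    · rw [Function.update_of_ne hk]; exact hvK' k
  have h3 := hmax h2
  simp only [Set.mem_ofPred_eq] at h3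
  rw [hc]
  simp only [Pi.smul_apply, smul_eq_mul]
  rw [h1, abs_mul, abs_inv, inv_mul_le_iff₀ hdet, mul_one]
  exact h3

/-- Affine coordinates in homogeneous form. -/
lemma hmat_mulVec_cons {N : ℕ} (v : Fin (N + 1) → E N) (l : Fin N → ℝ) :
    hmat v *ᵥ (Fin.cons (1 - ∑ i, l i) l : Fin (N + 1) → ℝ)
      = hom (v 0 + ∑ i, l i • (v i.succ - v 0)) := by
  funext i
  refine Fin.cases ?_ (fun i => ?_) i
  · simp only [Matrix.mulVec, dotProduct, hmat, Matrix.of_apply, hom, Fin.cons_zero, one_mul]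
    rw [Fin.sum_univ_succ]
    simp only [Fin.cons_zero, Fin.cons_succ]
    ring
  · simp only [Matrix.mulVec, dotProduct, hmat, Matrix.of_apply, hom, Fin.cons_succ]
    rw [Fin.sum_univ_succ]
    simp only [Fin.cons_zero, Fin.cons_succ, PiLp.add_apply, WithLp.ofLp_sum, Finset.sum_apply,
      smul_eq_mul, WithLp.ofLp_smul, WithLp.ofLp_sub,
      Pi.smul_apply, Pi.sub_apply]
    rw [mul_sub, mul_one, Finset.mul_sum]
    have : ∀ j : Fin N, l j * (v j.succ i - v 0 i) = v j.succ i * l j - v 0 i * l j := fun j => by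
      ring
    rw [Finset.sum_congr rfl fun j _ => this j, Finset.sum_sub_distrib]
    ring

/-- The coordinates of a pair. -/
noncomputable def pairEquiv (m k : ℕ) : ((Fin m → ℝ) × (Fin k → ℝ)) ≃ₗ[ℝ] (Fin (m + k) → ℝ) :=
  (LinearEquiv.sumArrowLequivProdArrow (Fin m) (Fin k) ℝ ℝ).symm ≪≫ₗ
    (LinearEquiv.funCongrLeft ℝ ℝ finSumFinEquiv.symm)

lemma pairEquiv_castAdd {m k : ℕ} (x : Fin m → ℝ) (y : Fin k → ℝ) (i : Fin m) :
    pairEquiv m k (x, y) (Fin.castAdd k i) = x i := by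
  simp [pairEquiv, LinearEquiv.funCongrLeft, LinearMap.funLeft]

lemma pairEquiv_natAdd {m k : ℕ} (x : Fin m → ℝ) (y : Fin k → ℝ) (j : Fin k) :
    pairEquiv m k (x, y) (Fin.natAdd m j) = y j := by
  simp [pairEquiv, LinearEquiv.funCongrLeft, LinearMap.funLeft]

/-- The position in terms of all the coordinates. -/
theorem exists_position_aux {N : ℕ} (hN : 1 ≤ N) (K : Set (E N)) (hK : IsConvexBody K) :
    ∃ (A : (Fin N → ℝ) ≃ₗ[ℝ] E N) (b : E N),
      (∀ c : Fin N → ℝ, (∀ i, |c i| ≤ 2) → A c + b ∈ K) ∧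
      (∀ c : Fin N → ℝ, A c + b ∈ K → ∀ i, |c i| ≤ 6 * (N : ℝ)) := by
  obtain ⟨v, hvK, hdet0, hbar⟩ := exists_max_simplex hK
  have hN1 : (1 : ℝ) ≤ N := by exact_mod_cast hN
  have hN0 : (0 : ℝ) < N := by linarith
  have hinj : Function.Injective ((hmat v).mulVec) :=
    Matrix.mulVec_injective_of_det_ne_zero hdet0
  -- the linear map
  let L : (Fin N → ℝ) →ₗ[ℝ] E N :=
    ∑ i, (LinearMap.proj i).smulRight ((1 / (4 * (N : ℝ))) • (v i.succ - v 0))
  have hL : ∀ c : Fin N → ℝ, L c = ∑ i, (c i / (4 * (N : ℝ))) • (v i.succ - v 0) := by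
    intro c
    simp only [L, LinearMap.sum_apply, LinearMap.smulRight_apply, LinearMap.proj_apply, smul_smul]
    refine Finset.sum_congr rfl fun i _ => ?_
    congr 1; ring
  have hLinj : Function.Injective L := by
    rw [← LinearMap.ker_eq_bot, LinearMap.ker_eq_bot']
    intro c hc
    rw [hL] at hc
    have h1 := hmat_mulVec_cons v (fun i => c i / (4 * (N : ℝ)))
    have h0 := hmat_mulVec_cons v (fun _ => 0)
    rw [hc] at h1
    have h2 : (fun _ : Fin N => (0 : ℝ)) = 0 := rfl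
    simp only [zero_smul, Finset.sum_const_zero] at h0
    have h3 := hinj (h1.trans h0.symm)
    funext i
    have h4 := congrFun h3 i.succ
    simp only [Fin.cons_succ] at h4
    have h5 : (4 * (N : ℝ)) ≠ 0 := by positivity
    simpa [h5] using h4
  have hrank : Module.finrank ℝ (Fin N → ℝ) = Module.finrank ℝ (E N) := by simp
  let A₀ : (Fin N → ℝ) ≃ₗ[ℝ] E N := LinearMap.linearEquivOfInjective L hLinj hrank
  have hA₀ : ∀ c, A₀ c = L c := fun c => LinearMap.linearEquivOfInjective_apply hLinj hrank c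
  let b : E N := v 0 + ∑ i : Fin N, (2 / (4 * (N : ℝ))) • (v i.succ - v 0)
  have hval : ∀ c : Fin N → ℝ, A₀ c + b = v 0 + ∑ i, ((c i + 2) / (4 * (N : ℝ))) • (v i.succ - v 0) := by
    intro c
    rw [hA₀, hL]
    simp only [b, add_div, add_smul, Finset.sum_add_distrib]
    abel
  have key1 : ∀ c : Fin N → ℝ, (∀ i, |c i| ≤ 2) → A₀ c + b ∈ K := by
    intro c hc
    have hmul := hmat_mulVec_cons v (fun i => (c i + 2) / (4 * (N : ℝ)))
    rw [← hval] at hmul
    obtain ⟨hs1, hs2⟩ := mulVec_hmat v _ _ hmul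
    rw [← hs2]
    have hnn : ∀ i, 0 ≤ (c i + 2) / (4 * (N : ℝ)) := fun i => by
      have := (abs_le.mp (hc i)).1
      have h : 0 ≤ c i + 2 := by linarith
      positivity
    have hle : ∀ i, (c i + 2) / (4 * (N : ℝ)) ≤ 1 / N := fun i => by
      have := (abs_le.mp (hc i)).2
      rw [div_le_div_iff₀ (by positivity) hN0]
      nlinarith
    have hsum : ∑ i, (c i + 2) / (4 * (N : ℝ)) ≤ 1 := by
      calc ∑ i, (c i + 2) / (4 * (N : ℝ)) ≤ ∑ _i : Fin N, 1 / (N : ℝ) :=
            Finset.sum_le_sum fun i _ => hle i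
        _ = 1 := by
            rw [Finset.sum_const, Finset.card_univ, Fintype.card_fin, nsmul_eq_mul]
            field_simp
    refine hK.1.sum_mem (fun j _ => ?_) hs1 fun j _ => hvK j
    refine Fin.cases ?_ (fun i => ?_) j
    · simp only [Fin.cons_zero]; linarith
    · simp only [Fin.cons_succ]; exact hnn i
  have key2 : ∀ c : Fin N → ℝ, A₀ c + b ∈ K → ∀ i, |c i| ≤ 6 * (N : ℝ) := by
    intro c hc i
    have hmul := hmat_mulVec_cons v (fun i => (c i + 2) / (4 * (N : ℝ)))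
    rw [← hval] at hmul
    have h1 := hbar _ hc _ hmul i.succ
    simp only [Fin.cons_succ] at h1
    rw [abs_div, abs_of_pos (by positivity : (0 : ℝ) < 4 * N), div_le_one (by positivity)] at h1
    have h2 := abs_le.mp h1
    rw [abs_le]
    constructor <;> linarith [h2.1, h2.2]
  exact ⟨A₀, b, key1, key2⟩

/-- M17 -/
theorem exists_position {m k : ℕ} (hmk : 1 ≤ m + k) (K : Set (E (m + k))) (hK : IsConvexBody K) :
    ∃ (A : ((Fin m → ℝ) × (Fin k → ℝ)) ≃ₗ[ℝ] E (m + k)) (b : E (m + k)),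
      (∀ x y, (∀ i, |x i| ≤ 2) → (∀ j, |y j| ≤ 2) → A (x, y) + b ∈ K) ∧
      (∀ x y, A (x, y) + b ∈ K →
        (∀ i, |x i| ≤ 6 * ((m : ℝ) + k)) ∧ (∀ j, |y j| ≤ 6 * ((m : ℝ) + k))) := by
  obtain ⟨A₀, b, key1, key2⟩ := exists_position_aux hmk K hK
  have hNR : ((m : ℝ) + k) = ((m + k : ℕ) : ℝ) := by push_cast; ring
  refine ⟨(pairEquiv m k).trans A₀, b, fun x y hx hy => ?_, fun x y h => ?_⟩
  · rw [LinearEquiv.trans_apply]
    refine key1 _ fun i => ?_
    refine Fin.addCases (fun i => ?_) (fun j => ?_) i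
    · rw [pairEquiv_castAdd]; exact hx i
    · rw [pairEquiv_natAdd]; exact hy j
  · rw [LinearEquiv.trans_apply] at h
    have h1 := key2 _ h
    rw [hNR]
    refine ⟨fun i => ?_, fun j => ?_⟩
    · have := h1 (Fin.castAdd k i)
      rwa [pairEquiv_castAdd] at this
    · have := h1 (Fin.natAdd m j)
      rwa [pairEquiv_natAdd] at this

end Vale.Agent.P230
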