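import Vale.Agent.Lib.P230L.DefsL
import Vale.Agent.Lib.P074.L1

/-!
# P230, lattice half, M14: the tree structure of a convex set of heights
-/

namespace Vale.Agent.P230

open MeasureTheory Set
open scoped ENNReal

namespace TreeAux

/-- Fubini in the first coordinate. -/
theorem vol_fubini {k : ℕ} {A : Set (Fin (k + 1) → ℝ)} (hA : MeasurableSet A) :
    volume A = ∫⁻ y : Fin k → ℝ, volume {s : ℝ | (Fin.cons s y : Fin (k + 1) → ℝ) ∈ A} := by
  have he := (volume_preserving_piFinSuccAbove (fun _ : Fin (k + 1) => ℝ) 0).symm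
  rw [← he.measure_preimage hA.nullMeasurableSet]
  rw [Measure.volume_eq_prod, Measure.prod_apply_symm ((MeasurableEquiv.measurable _) hA)]
  refine lintegral_congr fun y => ?_
  congr 1
  ext s
  have : (MeasurableEquiv.piFinSuccAbove (fun _ : Fin (k + 1) => ℝ) 0).symm (s, y) =
      (Fin.cons s y : Fin (k + 1) → ℝ) := by
    change (Fin.insertNth (α := fun _ : Fin (k + 1) => ℝ) 0 s y : Fin (k + 1) → ℝ) = _
    exact Fin.insertNth_zero (α := fun _ : Fin (k + 1) => ℝ) s y
  change (MeasurableEquiv.piFinSuccAbove (fun _ : Fin (k + 1) => ℝ) 0).symm (s, y) ∈ A ↔ _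
  rw [this]
  rfl

/-- the unit vector of the first coordinate -/
noncomputable def e0 (k : ℕ) : Fin (k + 1) → ℝ := Pi.single 0 1

theorem cons_add {k : ℕ} (s u : ℝ) (y : Fin k → ℝ) :
    (Fin.cons s y : Fin (k + 1) → ℝ) + u • e0 k = Fin.cons (s + u) y := by
  ext j
  refine Fin.cases ?_ (fun i => ?_) j
  · simp [e0]
  · simp [e0]

/-- The points of `P` that stay in `P` when moved by `u` in the first coordinate. -/
def sh {k : ℕ} (P : Set (Fin (k + 1) → ℝ)) (u : ℝ) : Set (Fin (k + 1) → ℝ) :=
  {x | x ∈ P ∧ x + u • e0 k ∈ P}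

/-- The projection of `sh P u`. -/
def pr {k : ℕ} (P : Set (Fin (k + 1) → ℝ)) (u : ℝ) : Set (Fin k → ℝ) :=
  {y | ∃ s : ℝ, ∀ s' ∈ Set.Icc s (s + u), (Fin.cons s' y : Fin (k + 1) → ℝ) ∈ P}

variable {k : ℕ} {P : Set (Fin (k + 1) → ℝ)}

theorem sh_compact (hcomp : IsCompact P) (u : ℝ) : IsCompact (sh P u) := by
  have : sh P u = P ∩ (fun x => x + u • e0 k) ⁻¹' P := rfl
  rw [this]
  exact hcomp.inter_right (hcomp.isClosed.preimage (by fun_prop))

theorem sh_convex (hconv : Convex ℝ P) (u : ℝ) : Convex ℝ (sh P u) := by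
  intro x hx y hy a b ha hb hab
  refine ⟨hconv hx.1 hy.1 ha hb hab, ?_⟩
  have := hconv hx.2 hy.2 ha hb hab
  have e : a • (x + u • e0 k) + b • (y + u • e0 k) = a • x + b • y + u • e0 k := by
    have : u • e0 k = (a + b) • u • e0 k := by rw [hab, one_smul]
    conv_rhs => rw [this]
    module
  rwa [e] at this

theorem seg_mem (hconv : Convex ℝ P) {u t : ℝ} {x : Fin (k + 1) → ℝ} (hx : x ∈ P)
    (hu : x + u • e0 k ∈ P) (ht0 : 0 ≤ t) (htu : t ≤ u) : x + t • e0 k ∈ P := by
  rcases eq_or_lt_of_le (ht0.trans htu) with h | h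
  · obtain rfl : t = 0 := by linarith
    simpa using hx
  have := hconv hx hu (a := 1 - t / u) (b := t / u) (by
    rw [sub_nonneg, div_le_one h]; exact htu) (by positivity) (by ring)
  have e : (1 - t / u) • x + (t / u) • (x + u • e0 k) = x + t • e0 k := by
    rw [smul_add, smul_smul, div_mul_cancel₀ _ h.ne']
    module
  rwa [e] at this

theorem sh_anti (hconv : Convex ℝ P) {u u' : ℝ} (hu : 0 ≤ u) (huu : u ≤ u') :
    sh P u' ⊆ sh P u := fun _ hx => ⟨hx.1, seg_mem hconv hx.1 hx.2 hu huu⟩

/-- forgetting the first coordinate -/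
def tl (k : ℕ) : (Fin (k + 1) → ℝ) →ₗ[ℝ] (Fin k → ℝ) := LinearMap.funLeft ℝ ℝ Fin.succ

theorem tl_cons (s : ℝ) (y : Fin k → ℝ) : tl k (Fin.cons s y) = y := by
  ext i
  simp [tl, LinearMap.funLeft_apply]

theorem cons_tl (x : Fin (k + 1) → ℝ) : (Fin.cons (x 0) (tl k x) : Fin (k + 1) → ℝ) = x := by
  ext j
  refine Fin.cases ?_ (fun i => ?_) j
  · simp
  · simp [tl, LinearMap.funLeft_apply]

theorem pr_eq (hconv : Convex ℝ P) {u : ℝ} (hu : 0 ≤ u) :
    pr P u = tl k '' sh P u := by
  ext y
  constructor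
  · rintro ⟨s, hs⟩
    refine ⟨Fin.cons s y, ⟨hs s ⟨le_rfl, by linarith⟩, ?_⟩, tl_cons s y⟩
    rw [cons_add]
    exact hs _ ⟨by linarith, le_rfl⟩
  · rintro ⟨x, hx, rfl⟩
    refine ⟨x 0, fun s' hs' => ?_⟩
    have := seg_mem hconv hx.1 hx.2 (t := s' - x 0) (by linarith [hs'.1]) (by linarith [hs'.2])
    rw [← cons_tl x, cons_add, cons_tl] at this
    have e : x 0 + (s' - x 0) = s' := by ring
    rwa [e] at this

theorem pr_compact (hconv : Convex ℝ P) (hcomp : IsCompact P) {u : ℝ} (hu : 0 ≤ u) :
    IsCompact (pr P u) := by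
  rw [pr_eq hconv hu]
  refine (sh_compact hcomp u).image ?_
  exact continuous_pi fun i => continuous_apply i.succ

theorem pr_convex (hconv : Convex ℝ P) {u : ℝ} (hu : 0 ≤ u) : Convex ℝ (pr P u) := by
  rw [pr_eq hconv hu]
  exact (sh_convex hconv u).linear_image _

/-- The key estimate. -/
theorem diff_le (hconv : Convex ℝ P) (hcomp : IsCompact P) {u u' : ℝ} (hu : 0 ≤ u) (huu : u ≤ u') :
    volume (sh P u \ sh P u') ≤ ENNReal.ofReal (u' - u) * volume (pr P u) := by
  have hm : MeasurableSet (sh P u \ sh P u') :=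
    (sh_compact hcomp u).measurableSet.diff (sh_compact hcomp u').measurableSet
  rw [vol_fubini hm]
  have hle : ∀ y : Fin k → ℝ,
      volume {s : ℝ | (Fin.cons s y : Fin (k + 1) → ℝ) ∈ sh P u \ sh P u'} ≤
        (pr P u).indicator (fun _ => ENNReal.ofReal (u' - u)) y := by
    intro y
    by_cases hne : {s : ℝ | (Fin.cons s y : Fin (k + 1) → ℝ) ∈ sh P u \ sh P u'}.Nonempty
    · obtain ⟨s₀, hs₀⟩ := hne
      have hy : y ∈ pr P u := by
        rw [pr_eq hconv hu]
        exact ⟨_, hs₀.1, tl_cons s₀ y⟩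
      rw [indicator_of_mem hy]
      -- the fibre
      have hcont : Continuous (fun s : ℝ => (Fin.cons s y : Fin (k + 1) → ℝ)) := by
        refine continuous_pi fun j => ?_
        refine Fin.cases ?_ (fun i => ?_) j
        · exact continuous_id
        · exact continuous_const
      set S : Set ℝ := {s : ℝ | (Fin.cons s y : Fin (k + 1) → ℝ) ∈ P} with hS
      have hSne : S.Nonempty := ⟨s₀, hs₀.1.1⟩
      have hSc : IsClosed S := hcomp.isClosed.preimage hcont
      have hSb : BddAbove S := by
        obtain ⟨R, hR⟩ := hcomp.isBounded.subset_closedBall 0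
        refine ⟨R, fun s hs => ?_⟩
        have h1 := hR hs
        rw [mem_closedBall_zero_iff] at h1
        have h2 := (norm_le_pi_norm (Fin.cons s y : Fin (k + 1) → ℝ) 0).trans h1
        rw [Fin.cons_zero] at h2
        exact (le_abs_self s).trans h2
      set b := sSup S with hb
      have hbS : b ∈ S := hSc.csSup_mem hSne hSb
      have hsub : {s : ℝ | (Fin.cons s y : Fin (k + 1) → ℝ) ∈ sh P u \ sh P u'} ⊆
          Ioc (b - u') (b - u) := by
        intro s hs
        have h1 : s + u ∈ S := by
          have := hs.1.2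
          rw [cons_add] at this
          exact this
        have h2 : s + u' ∉ S := by
          intro hmem
          apply hs.2
          refine ⟨hs.1.1, ?_⟩
          rw [cons_add]
          exact hmem
        have h3 : s + u ≤ b := le_csSup hSb h1
        refine ⟨?_, by linarith⟩
        by_contra hcon
        push Not at hcon
        apply h2
        have hsS : (Fin.cons s y : Fin (k + 1) → ℝ) ∈ P := hs.1.1
        have hbP : (Fin.cons s y : Fin (k + 1) → ℝ) + (b - s) • e0 k ∈ P := by
          rw [cons_add]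
          have : s + (b - s) = b := by ring
          rw [this]
          exact hbS
        have := seg_mem hconv hsS hbP (t := u') (hu.trans huu) (by linarith)
        rw [cons_add] at this
        exact this
      refine (measure_mono hsub).trans ?_
      rw [Real.volume_Ioc]
      apply ENNReal.ofReal_le_ofReal
      linarith
    · rw [not_nonempty_iff_eq_empty] at hne
      rw [hne]
      simp
  refine (lintegral_mono hle).trans ?_
  rw [lintegral_indicator (pr_compact hconv hcomp hu).measurableSet, lintegral_const]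
  simp

theorem real_diff_le (hconv : Convex ℝ P) (hcomp : IsCompact P) {u u' : ℝ} (hu : 0 ≤ u)
    (huu : u ≤ u') :
    volume.real (sh P u) - volume.real (sh P u') ≤ (u' - u) * volume.real (pr P u) := by
  have h1 : volume.real (sh P u \ sh P u') = volume.real (sh P u) - volume.real (sh P u') :=
    measureReal_sdiff (sh_anti hconv hu huu) (sh_compact hcomp u').measurableSet
      (sh_compact hcomp u).measure_lt_top.ne
  rw [← h1]
  have hfin : volume (pr P u) ≠ ∞ := (pr_compact hconv hcomp hu).measure_lt_top.ne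
  have h2 := ENNReal.toReal_mono (ENNReal.mul_ne_top ENNReal.ofReal_ne_top hfin)
    (diff_le hconv hcomp hu huu)
  rw [ENNReal.toReal_mul, ENNReal.toReal_ofReal (by linarith)] at h2
  exact h2

theorem pr_anti (hconv : Convex ℝ P) {u u' : ℝ} (hu : 0 ≤ u) (huu : u ≤ u') :
    pr P u' ⊆ pr P u := by
  rw [pr_eq hconv hu, pr_eq hconv (hu.trans huu)]
  exact image_mono (sh_anti hconv hu huu)

theorem sh_zero : sh P 0 = P := by
  ext x
  simp [sh]

theorem continuousOn_vol (hconv : Convex ℝ P) (hcomp : IsCompact P) :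
    ContinuousOn (fun u : ℝ => volume.real (sh P u)) (Ici 0) := by
  set L : ℝ := volume.real (pr P 0) with hL
  have key : ∀ u ∈ Ici (0 : ℝ), ∀ u' ∈ Ici (0 : ℝ), u ≤ u' →
      |volume.real (sh P u) - volume.real (sh P u')| ≤ L * |u - u'| := by
    intro u hu u' hu' huu
    have h1 := real_diff_le hconv hcomp hu huu
    have h2 : volume.real (pr P u) ≤ L :=
      measureReal_mono (pr_anti hconv le_rfl hu) (pr_compact hconv hcomp le_rfl).measure_lt_top.ne
    have h3 : volume.real (sh P u') ≤ volume.real (sh P u) :=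
      measureReal_mono (sh_anti hconv hu huu) (sh_compact hcomp u).measure_lt_top.ne
    rw [abs_of_nonneg (by linarith), abs_of_nonpos (by linarith)]
    have h4 : (u' - u) * volume.real (pr P u) ≤ (u' - u) * L :=
      mul_le_mul_of_nonneg_left h2 (by linarith)
    linarith
  have hlip : LipschitzOnWith (Real.toNNReal L) (fun u : ℝ => volume.real (sh P u)) (Ici 0) := by
    refine LipschitzOnWith.of_dist_le_mul fun u hu u' hu' => ?_
    rw [Real.coe_toNNReal L measureReal_nonneg, Real.dist_eq, Real.dist_eq]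
    rcases le_total u u' with h | h
    · exact key u hu u' hu' h
    · rw [abs_sub_comm, abs_sub_comm u u']
      exact key u' hu' u hu h
  exact hlip.continuousOn

theorem pl_sh (hconv : Convex ℝ P) (hcomp : IsCompact P) {u : ℝ} :
    volume.real P * volume.real (sh P (2 * u)) ≤ volume.real (sh P u) ^ 2 := by
  have m1 := hcomp.measurableSet
  have m2 := (sh_compact hcomp (2 * u)).measurableSet
  have m3 := (sh_compact hcomp u).measurableSet
  have h := Vale.Agent.P074.L1.pl_pi (k + 1) (P.indicator 1) ((sh P (2 * u)).indicator 1)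
    ((sh P u).indicator 1) (measurable_one.indicator m1) (measurable_one.indicator m2)
    (measurable_one.indicator m3) (by
      intro x y
      by_cases hx : x ∈ P
      · by_cases hy : y ∈ sh P (2 * u)
        · have hz : (1 / 2 : ℝ) • (x + y) ∈ sh P u := by
            constructor
            · have := hconv hx hy.1 (a := 1 / 2) (b := 1 / 2) (by norm_num) (by norm_num)
                (by norm_num)
              rwa [← smul_add] at this
            · have := hconv hx hy.2 (a := 1 / 2) (b := 1 / 2) (by norm_num) (by norm_num)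
                (by norm_num)
              have e : (1 / 2 : ℝ) • x + (1 / 2 : ℝ) • (y + (2 * u) • e0 k) =
                  (1 / 2 : ℝ) • (x + y) + u • e0 k := by module
              rwa [e] at this
          rw [indicator_of_mem hx, indicator_of_mem hy, indicator_of_mem hz]
          simp
        · rw [indicator_of_notMem hy]
          simp
      · rw [indicator_of_notMem hx]
        simp)
  rw [lintegral_indicator_one m1, lintegral_indicator_one m2, lintegral_indicator_one m3] at h
  have hfin : volume (sh P u) ^ 2 ≠ ∞ :=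
    ENNReal.pow_ne_top (sh_compact hcomp u).measure_lt_top.ne
  have := ENNReal.toReal_mono hfin h
  rw [ENNReal.toReal_mul, ENNReal.toReal_pow] at this
  exact this

theorem exists_u (hconv : Convex ℝ P) (hcomp : IsCompact P) (hvol : 0 < volume P) (B : ℝ)
    (hB : ∀ y ∈ P, ∀ j, |y j| ≤ B) :
    ∃ u : ℝ, 0 < u ∧ u ≤ 2 * B ∧ 0 < volume (pr P u) ∧
      3 / 16 * volume.real P ≤ u * volume.real (pr P u) := by
  have hPpos : 0 < volume.real P := ENNReal.toReal_pos hvol.ne' hcomp.measure_lt_top.ne
  have hempty : ∀ u : ℝ, 2 * B < u → sh P u = ∅ := by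
    intro u hu
    rw [eq_empty_iff_forall_notMem]
    intro x hx
    have h1 := abs_le.1 (hB x hx.1 0)
    have h2 := abs_le.1 (hB _ hx.2 0)
    simp only [Pi.add_apply, Pi.smul_apply, e0, Pi.single_eq_same, smul_eq_mul, mul_one] at h2
    linarith [h1.1, h2.2]
  have hB0 : 0 ≤ B := by
    obtain ⟨x, hx⟩ := nonempty_of_measure_ne_zero hvol.ne'
    exact (abs_nonneg _).trans (hB x hx 0)
  have hV0 : volume.real (sh P 0) = volume.real P := by rw [sh_zero]
  have hV1 : volume.real (sh P (2 * B + 1)) = 0 := by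
    rw [hempty _ (by linarith)]
    simp
  obtain ⟨u, hu, hVu⟩ : ∃ u ∈ Icc (0 : ℝ) (2 * B + 1), volume.real (sh P u) =
      3 / 4 * volume.real P := by
    have := intermediate_value_Icc' (f := fun u : ℝ => volume.real (sh P u)) (a := 0)
      (b := 2 * B + 1) (by linarith) ((continuousOn_vol hconv hcomp).mono Icc_subset_Ici_self)
    have hmem : 3 / 4 * volume.real P ∈ Icc (volume.real (sh P (2 * B + 1)))
        (volume.real (sh P 0)) := by
      rw [hV0, hV1]
      constructor <;> linarith
    obtain ⟨u, hu, h⟩ := this hmem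
    exact ⟨u, hu, h⟩
  have hu0 : 0 < u := by
    rcases eq_or_lt_of_le hu.1 with h | h
    · exfalso
      rw [← h, hV0] at hVu
      linarith
    · exact h
  have hu2 : u ≤ 2 * B := by
    by_contra hcon
    push Not at hcon
    rw [hempty u hcon] at hVu
    simp at hVu
    linarith
  have h1 := real_diff_le hconv hcomp hu0.le (u' := 2 * u) (by linarith)
  have h2 := pl_sh hconv hcomp (u := u)
  rw [hVu] at h1 h2
  have h3 : volume.real (sh P (2 * u)) ≤ 9 / 16 * volume.real P := by
    have : volume.real P * volume.real (sh P (2 * u)) ≤ volume.real P * (9 / 16 * volume.real P) := by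
      nlinarith
    exact le_of_mul_le_mul_left this hPpos
  have h4 : 3 / 16 * volume.real P ≤ u * volume.real (pr P u) := by
    have e : 2 * u - u = u := by ring
    rw [e] at h1
    linarith
  refine ⟨u, hu0, hu2, ?_, h4⟩
  have h5 : 0 < volume.real (pr P u) := by
    by_contra hcon
    push Not at hcon
    have : u * volume.real (pr P u) ≤ 0 := mul_nonpos_of_nonneg_of_nonpos hu0.le hcon
    linarith
  exact (ENNReal.toReal_pos_iff.1 h5).1

end TreeAux

theorem exists_tree (k : ℕ) (P : Set (Fin k → ℝ)) (hconv : Convex ℝ P) (hcomp : IsCompact P)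
    (hvol : 0 < volume P) (B : ℝ) (hB : ∀ y ∈ P, ∀ j, |y j| ≤ B) :
    ∃ h : Fin k → ℝ, (∀ j, 0 < h j) ∧ (∀ j, h j ≤ B) ∧
      (3 / 32 : ℝ) ^ k * volume.real P ≤ ∏ j, h j ∧ TreeR k h P := by
  induction k with
  | zero =>
    refine ⟨fun j => j.elim0, fun j => j.elim0, fun j => j.elim0, ?_,
      nonempty_of_measure_ne_zero hvol.ne'⟩
    have h1 : volume.real P ≤ 1 := by
      have h2 : volume (univ : Set (Fin 0 → ℝ)) = 1 := by
        rw [Measure.volume_pi_eq_dirac (default : Fin 0 → ℝ)]
        simp
      have h3 : volume P ≤ 1 := (measure_mono (subset_univ P)).trans h2.le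
      exact ENNReal.toReal_le_of_le_ofReal zero_le_one (by simpa using h3)
    simpa using h1
  | succ k ih =>
    obtain ⟨u, hu0, hu2, hpos, hle⟩ := TreeAux.exists_u hconv hcomp hvol B hB
    obtain ⟨h, h1, h2, h3, h4⟩ := ih (TreeAux.pr P u) (TreeAux.pr_convex hconv hu0.le)
      (TreeAux.pr_compact hconv hcomp hu0.le) hpos (by
        intro y hy j
        rw [TreeAux.pr_eq hconv hu0.le] at hy
        obtain ⟨x, hx, rfl⟩ := hy
        exact hB x hx.1 j.succ)
    refine ⟨Fin.cons (u / 2) h, ?_, ?_, ?_, ?_⟩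
    · intro j
      refine Fin.cases ?_ (fun i => ?_) j
      · simpa using hu0
      · simpa using h1 i
    · intro j
      refine Fin.cases ?_ (fun i => ?_) j
      · rw [Fin.cons_zero]
        linarith
      · rw [Fin.cons_succ]
        exact h2 i
    · rw [Fin.prod_cons]
      calc (3 / 32 : ℝ) ^ (k + 1) * volume.real P =
            (3 / 32 : ℝ) ^ k * (1 / 2 * (3 / 16 * volume.real P)) := by ring
        _ ≤ (3 / 32 : ℝ) ^ k * (1 / 2 * (u * volume.real (TreeAux.pr P u))) := by gcongr
        _ = u / 2 * ((3 / 32 : ℝ) ^ k * volume.real (TreeAux.pr P u)) := by ring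
        _ ≤ u / 2 * ∏ j, h j := by gcongr
    · change TreeR k (Fin.tail (Fin.cons (u / 2) h : Fin (k + 1) → ℝ)) _
      rw [Fin.tail_cons]
      have e : {y : Fin k → ℝ | ∃ s : ℝ,
          ∀ s' ∈ Set.Icc s (s + 2 * (Fin.cons (u / 2) h : Fin (k + 1) → ℝ) 0),
            (Fin.cons s' y : Fin (k + 1) → ℝ) ∈ P} = TreeAux.pr P u := by
        rw [Fin.cons_zero, show 2 * (u / 2) = u by ring]
        rfl
      rw [e]
      exact h4

end Vale.Agent.P230
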