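import Vale.Agent.Lib.P230L.DefsL
import Vale.Agent.Lib.P230L.Chain

/-!
P230, lattice half, module M5: the numerical choice of parameters
-/

namespace Vale.Agent.P230

open MeasureTheory Set Filter

namespace VoidNum

theorem fewRel_mono {p M r r' : ℕ} {η : ℝ} {S : Finset (FV p M)} (h : FewRel r η S)
    (hr : r' ≤ r) : FewRel r' η S :=
  fun ρ h1 h2 => h ρ h1 (h2.trans_le hr)

/-- the only largeness condition -/
theorem large {c : ℝ} (hc : 0 < c) : ∃ m₀ : ℕ, ∀ m : ℕ, m₀ ≤ m →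
    3 ≤ Real.log m ∧ 2000 * (Real.log m) ^ 2 ≤ c * m := by
  have h1 : ∀ᶠ x : ℝ in atTop, ‖Real.log x ^ 2‖ ≤ (c / 2000) * ‖(id x : ℝ)‖ :=
    (Real.isLittleO_pow_log_id_atTop (n := 2)).bound (by positivity)
  have h2 : ∀ᶠ x : ℝ in atTop, 3 ≤ Real.log x := Real.tendsto_log_atTop.eventually_ge_atTop 3
  have h3 : ∀ᶠ x : ℝ in atTop, 0 ≤ x := eventually_ge_atTop 0
  have h4 : ∀ᶠ m : ℕ in atTop, 3 ≤ Real.log (m : ℝ) ∧ 2000 * (Real.log (m : ℝ)) ^ 2 ≤ c * m := by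
    filter_upwards [tendsto_natCast_atTop_atTop.eventually h1,
      tendsto_natCast_atTop_atTop.eventually h2,
      tendsto_natCast_atTop_atTop.eventually h3] with m a1 a2 a3
    refine ⟨a2, ?_⟩
    rw [Real.norm_of_nonneg (by positivity), id, Real.norm_of_nonneg a3] at a1
    linarith
  exact eventually_atTop.1 h4

theorem half_floor {y : ℝ} (hy : 1 ≤ y) : y / 2 ≤ (⌊y⌋₊ : ℝ) := by
  have h1 : (1 : ℝ) ≤ (⌊y⌋₊ : ℝ) := by
    exact_mod_cast (Nat.one_le_floor_iff y).2 hy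
  have h2 := Nat.lt_floor_add_one y
  linarith

/-- the tail term for `b ≥ 2` -/
theorem tail_ge_two {m b b₁ q : ℕ} {P D ℓ : ℝ} (hm : 20 ≤ m) (hP : (m : ℝ) ^ 8 ≤ P)
    (hD : (m : ℝ) ≤ D) (hb : 2 ≤ b) (hbb : b ≤ b₁) (hb₁ : b₁ ≤ m) (hq : q ≤ m)
    (hℓ : D * P ^ b / 4 ≤ ℓ) :
    4 * Real.exp 1 * q * P / ((1 / ((b₁ : ℝ) + b)) ^ 2 * ℓ) ≤
      Real.exp (-(((b : ℝ) - 1) * Real.log P / 2)) := by
  have hm' : (20 : ℝ) ≤ m := by exact_mod_cast hm
  have hm0 : (0 : ℝ) < m := by linarith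
  have hP0 : 0 < P := lt_of_lt_of_le (by positivity) hP
  have hD0 : 0 < D := by linarith
  have hb0 : (2 : ℝ) ≤ b := by exact_mod_cast hb
  have hbb' : (b : ℝ) ≤ m := by exact_mod_cast hbb.trans hb₁
  have hb₁' : (b₁ : ℝ) ≤ m := by exact_mod_cast hb₁
  have hq' : (q : ℝ) ≤ m := by exact_mod_cast hq
  have hs0 : (0 : ℝ) < (b₁ : ℝ) + b := by
    have : (0 : ℝ) ≤ b₁ := Nat.cast_nonneg _
    linarith
  have hs : (b₁ : ℝ) + b ≤ 2 * m := by linarith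
  have hℓ0 : 0 < ℓ := lt_of_lt_of_le (by positivity) hℓ
  have he : Real.exp 1 ≤ 3 := by
    have := Real.exp_one_lt_d9
    linarith
  have hPb : P ^ b = P * P ^ (b - 1) := by
    rw [← pow_succ']
    congr 1
    omega
  -- step 1
  have h1 : 4 * Real.exp 1 * q * P / ((1 / ((b₁ : ℝ) + b)) ^ 2 * ℓ) ≤
      192 * (m : ℝ) ^ 2 / P ^ (b - 1) := by
    have e1 : 4 * Real.exp 1 * q * P / ((1 / ((b₁ : ℝ) + b)) ^ 2 * ℓ) =
        4 * Real.exp 1 * q * P * ((b₁ : ℝ) + b) ^ 2 / ℓ := by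
      field_simp
    rw [e1]
    have e2 : 4 * Real.exp 1 * q * P * ((b₁ : ℝ) + b) ^ 2 ≤ 48 * (m : ℝ) ^ 3 * P := by
      have a1 : Real.exp 1 * q ≤ 3 * m :=
        mul_le_mul he hq' (Nat.cast_nonneg _) (by norm_num)
      have a2 : ((b₁ : ℝ) + b) ^ 2 ≤ (2 * m) ^ 2 := pow_le_pow_left₀ hs0.le hs 2
      calc 4 * Real.exp 1 * q * P * ((b₁ : ℝ) + b) ^ 2
          = 4 * P * ((Real.exp 1 * q) * ((b₁ : ℝ) + b) ^ 2) := by ring
        _ ≤ 4 * P * ((3 * m) * (2 * m) ^ 2) := by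
            apply mul_le_mul_of_nonneg_left _ (by positivity)
            exact mul_le_mul a1 a2 (by positivity) (by positivity)
        _ = 48 * (m : ℝ) ^ 3 * P := by ring
    calc 4 * Real.exp 1 * q * P * ((b₁ : ℝ) + b) ^ 2 / ℓ
        ≤ (48 * (m : ℝ) ^ 3 * P) / (D * P ^ b / 4) :=
          div_le_div₀ (by positivity) e2 (by positivity) hℓ
      _ ≤ (48 * (m : ℝ) ^ 3 * P) / (m * P ^ b / 4) := by
          apply div_le_div_of_nonneg_left (by positivity) (by positivity)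
          apply div_le_div_of_nonneg_right _ (by norm_num)
          exact mul_le_mul_of_nonneg_right hD (by positivity)
      _ = 192 * (m : ℝ) ^ 2 / P ^ (b - 1) := by
          rw [hPb]
          field_simp
          norm_num
  -- step 2
  have h2 : P ^ (b - 1) = Real.exp (((b : ℝ) - 1) * Real.log P) := by
    have : ((b - 1 : ℕ) : ℝ) = (b : ℝ) - 1 := by
      rw [Nat.cast_sub (by omega)]
      simp
    rw [← this, ← Real.log_pow, Real.exp_log (by positivity)]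
  have h3 : 192 * (m : ℝ) ^ 2 ≤ Real.exp (Real.log P / 2) := by
    have a1 : 192 * (m : ℝ) ^ 2 ≤ (m : ℝ) ^ 4 := by
      have a0 : 192 ≤ (m : ℝ) ^ 2 := by nlinarith
      calc 192 * (m : ℝ) ^ 2 ≤ (m : ℝ) ^ 2 * (m : ℝ) ^ 2 :=
            mul_le_mul_of_nonneg_right a0 (by positivity)
        _ = (m : ℝ) ^ 4 := by ring
    have a2 : (m : ℝ) ^ 4 = Real.exp (4 * Real.log m) := by
      rw [show (4 : ℝ) * Real.log m = Real.log ((m : ℝ) ^ 4) by rw [Real.log_pow]; norm_num,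
        Real.exp_log (by positivity)]
    have a3 : 8 * Real.log m ≤ Real.log P := by
      rw [show (8 : ℝ) * Real.log m = Real.log ((m : ℝ) ^ 8) by rw [Real.log_pow]; norm_num]
      exact Real.log_le_log (by positivity) hP
    rw [a2] at a1
    refine a1.trans (Real.exp_le_exp.2 ?_)
    linarith
  have hlogP : 0 ≤ Real.log P := by
    apply Real.log_nonneg
    refine le_trans ?_ hP
    exact one_le_pow₀ (by linarith)
  refine h1.trans ?_
  rw [h2, div_eq_mul_inv, ← Real.exp_neg]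
  calc 192 * (m : ℝ) ^ 2 * Real.exp (-(((b : ℝ) - 1) * Real.log P)) ≤
        Real.exp (Real.log P / 2) * Real.exp (-(((b : ℝ) - 1) * Real.log P)) :=
        mul_le_mul_of_nonneg_right h3 (Real.exp_pos _).le
    _ = Real.exp (Real.log P / 2 + -(((b : ℝ) - 1) * Real.log P)) := by rw [Real.exp_add]
    _ ≤ _ := by
        apply Real.exp_le_exp.2
        nlinarith

/-- the tail term for `b = 1` -/
theorem tail_one {q : ℕ} {P D ℓ : ℝ} (hP : 0 < P) (hD : 0 < D)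
    (hq : 1000 * (q : ℝ) ≤ D) (hℓ : D * P / 4 ≤ ℓ) :
    4 * Real.exp 1 * q * P / ((1 / 2 : ℝ) ^ 2 * ℓ) ≤ Real.exp (-1) := by
  have hℓ0 : 0 < ℓ := lt_of_lt_of_le (by positivity) hℓ
  have he : Real.exp 1 ≤ 3 := by
    have := Real.exp_one_lt_d9
    linarith
  have he0 := Real.exp_pos 1
  rw [Real.exp_neg, div_le_iff₀ (by positivity), inv_mul_eq_div, le_div_iff₀ he0]
  have h1 : 1000 * (q : ℝ) * P / 4 ≤ ℓ := by
    refine le_trans ?_ hℓ
    apply div_le_div_of_nonneg_right _ (by norm_num)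
    exact mul_le_mul_of_nonneg_right hq hP.le
  have h2 : 0 ≤ (q : ℝ) * P := by positivity
  have h3 : Real.exp 1 * Real.exp 1 ≤ 9 := by nlinarith
  nlinarith

/-- the circuit terms -/
theorem circuits {m b q : ℕ} {P Y c₂ c₃ : ℝ} (hP : 1 < P)
    (hY1 : 1 ≤ Y) (hY : Y ≤ P ^ (b + 4)) (hqm : 2 * q ≤ m)
    (hq : ((b : ℝ) + 4) * Real.log P * q ≤ c₂ * m) (hc : 3 * c₂ ≤ c₃) :
    ∑ ρ ∈ Finset.Ico 2 (2 * q), Real.exp (-(c₃ * m)) * Y ^ ρ ≤ m * Real.exp (-(c₂ * m)) := by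
  have h0 : (0 : ℝ) ≤ m := Nat.cast_nonneg _
  have h1 : ∀ ρ ∈ Finset.Ico 2 (2 * q), Real.exp (-(c₃ * m)) * Y ^ ρ ≤ Real.exp (-(c₂ * m)) := by
    intro ρ hρ
    rw [Finset.mem_Ico] at hρ
    have h2 : Y ^ ρ ≤ Real.exp (2 * (c₂ * m)) := by
      calc Y ^ ρ ≤ Y ^ (2 * q) := pow_le_pow_right₀ hY1 hρ.2.le
        _ ≤ (P ^ (b + 4)) ^ (2 * q) := pow_le_pow_left₀ (by linarith) hY _
        _ = Real.exp (Real.log ((P ^ (b + 4)) ^ (2 * q))) := by
            rw [Real.exp_log (by positivity)]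
        _ ≤ Real.exp (2 * (c₂ * m)) := by
            apply Real.exp_le_exp.2
            rw [Real.log_pow, Real.log_pow]
            push_cast
            linarith
    calc Real.exp (-(c₃ * m)) * Y ^ ρ ≤ Real.exp (-(c₃ * m)) * Real.exp (2 * (c₂ * m)) :=
          mul_le_mul_of_nonneg_left h2 (Real.exp_pos _).le
      _ = Real.exp (-(c₃ * m) + 2 * (c₂ * m)) := by rw [Real.exp_add]
      _ ≤ _ := by
          apply Real.exp_le_exp.2
          nlinarith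
  calc ∑ ρ ∈ Finset.Ico 2 (2 * q), Real.exp (-(c₃ * m)) * Y ^ ρ ≤
        ∑ ρ ∈ Finset.Ico 2 (2 * q), Real.exp (-(c₂ * m)) := Finset.sum_le_sum h1
    _ = ((2 * q - 2 : ℕ) : ℝ) * Real.exp (-(c₂ * m)) := by
        rw [Finset.sum_const, Nat.card_Ico, nsmul_eq_mul]
    _ ≤ m * Real.exp (-(c₂ * m)) := by
        apply mul_le_mul_of_nonneg_right _ (Real.exp_pos _).le
        exact_mod_cast (by omega : 2 * q - 2 ≤ m)

/-- the choice of `b₁` and `q` -/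
theorem params {c₂ : ℝ} (hc₂ : 0 < c₂) (hc₂b : c₂ ≤ 1 / 1000) {m : ℕ} (hm : 20 ≤ m)
    {lm lp : ℝ} (hl3 : 3 ≤ lm) (hl : 2000 * lm ^ 2 ≤ c₂ * m) (hlp8 : 8 * lm ≤ lp)
    (hlp10 : lp ≤ 10 * lm) :
    ∃ (b₁ : ℕ) (q : ℕ → ℕ), 1 ≤ b₁ ∧ (b₁ : ℝ) ≤ m / 1000 ∧ c₂ * m ≤ ((b₁ : ℝ) + 5) * lp ∧
      (∀ b : ℕ, ((b : ℝ) + 4) * lp * (q b : ℝ) ≤ c₂ * m) ∧ (∀ b ≤ b₁, 1 ≤ q b) ∧
      (∀ b ≤ b₁, c₂ * m ≤ 2 * (((b : ℝ) + 4) * lp) * (q b : ℝ)) ∧
      (∀ b : ℕ, 1000 * (q b : ℝ) ≤ m) := by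
  have hmR : (20 : ℝ) ≤ m := by exact_mod_cast hm
  have hm0 : (0 : ℝ) < m := by linarith
  have hlp0 : 0 < lp := by linarith
  have hlm2 : lm * 3 ≤ lm ^ 2 := by nlinarith
  obtain ⟨x, hx⟩ : ∃ x : ℝ, x = c₂ * m / lp := ⟨_, rfl⟩
  have hxlp : x * lp = c₂ * m := by rw [hx]; field_simp
  have hx10 : 10 ≤ x := by
    rw [hx, le_div_iff₀ hlp0]
    nlinarith
  have hfx : 10 ≤ ⌊x⌋₊ := Nat.le_floor (by exact_mod_cast hx10)
  have hb₁c : ((⌊x⌋₊ - 4 : ℕ) : ℝ) = (⌊x⌋₊ : ℝ) - 4 := by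
    rw [Nat.cast_sub (by omega)]
    norm_num
  have hb₁u : ((⌊x⌋₊ - 4 : ℕ) : ℝ) + 4 ≤ x := by
    have := Nat.floor_le (show 0 ≤ x by linarith)
    linarith
  have hb₁l : x ≤ ((⌊x⌋₊ - 4 : ℕ) : ℝ) + 5 := by
    have := Nat.lt_floor_add_one x
    linarith
  have hcm : c₂ * m ≤ (1 / 1000) * m := mul_le_mul_of_nonneg_right hc₂b hm0.le
  have hxm : x ≤ m / 1000 := by
    rw [hx, div_le_iff₀ hlp0]
    nlinarith
  have hqu : ∀ b : ℕ, ((b : ℝ) + 4) * lp * (⌊c₂ * m / (((b : ℝ) + 4) * lp)⌋₊ : ℝ) ≤ c₂ * m := by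
    intro b
    have hb0 : (0 : ℝ) ≤ b := Nat.cast_nonneg b
    have h1 := Nat.floor_le (show 0 ≤ c₂ * m / (((b : ℝ) + 4) * lp) by positivity)
    rw [le_div_iff₀ (by positivity)] at h1
    linarith
  have hy1 : ∀ b : ℕ, b ≤ ⌊x⌋₊ - 4 → 1 ≤ c₂ * m / (((b : ℝ) + 4) * lp) := by
    intro b hb
    have hb0 : (0 : ℝ) ≤ b := Nat.cast_nonneg b
    have hb' : (b : ℝ) ≤ ((⌊x⌋₊ - 4 : ℕ) : ℝ) := by exact_mod_cast hb
    rw [one_le_div (by positivity), ← hxlp]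
    apply mul_le_mul_of_nonneg_right _ hlp0.le
    linarith
  refine ⟨⌊x⌋₊ - 4, fun b => ⌊c₂ * m / (((b : ℝ) + 4) * lp)⌋₊, by omega, by linarith, ?_, hqu,
    ?_, ?_, ?_⟩
  · rw [← hxlp]
    exact mul_le_mul_of_nonneg_right hb₁l hlp0.le
  · intro b hb
    exact (Nat.one_le_floor_iff _).2 (hy1 b hb)
  · intro b hb
    have hb0 : (0 : ℝ) ≤ b := Nat.cast_nonneg b
    have h1 := half_floor (hy1 b hb)
    rw [div_div, div_le_iff₀ (by positivity)] at h1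
    linarith
  · intro b
    have hb0 : (0 : ℝ) ≤ b := Nat.cast_nonneg b
    have h1 := hqu b
    have h2 : (⌊c₂ * m / (((b : ℝ) + 4) * lp)⌋₊ : ℝ) ≤
        ((b : ℝ) + 4) * lp * (⌊c₂ * m / (((b : ℝ) + 4) * lp)⌋₊ : ℝ) := by
      apply le_mul_of_one_le_left (Nat.cast_nonneg _)
      nlinarith
    linarith

/-- the choice of `δ` and `ℓ` -/
theorem levels {D P : ℝ} (hD : 0 < D) (hP : 0 < P) {b₁ : ℕ} (hb₁ : 1 ≤ b₁) :
    ∃ δ ℓ : ℕ → ℝ, (∀ b, 1 ≤ b → 0 < δ b ∧ δ b ≤ 1) ∧ (∀ b, 0 < ℓ b) ∧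
      (∀ b, 1 ≤ b → D * P ^ b / 4 ≤ ℓ b) ∧ ℓ b₁ = D * P ^ b₁ / 2 ∧
      (∀ b, 1 ≤ b → ℓ (b - 1) ≤ (1 - δ b) * (ℓ b / P)) ∧ δ 1 = 1 / 2 ∧
      (∀ b, 2 ≤ b → δ b = 1 / ((b₁ : ℝ) + b)) := by
  have hb₁0 : (0 : ℝ) < b₁ := by exact_mod_cast hb₁
  refine ⟨fun b => if b = 1 then 1 / 2 else 1 / ((b₁ : ℝ) + b),
    fun b => if b = 0 then D * ((b₁ : ℝ) + 1) / (8 * b₁) else
      D * P ^ b * ((b₁ : ℝ) + b) / (4 * b₁), ?_, ?_, ?_, ?_, ?_, ?_, ?_⟩
  · intro b h1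
    have hbr : (1 : ℝ) ≤ b := by exact_mod_cast h1
    dsimp only
    split_ifs
    · norm_num
    · refine ⟨by positivity, ?_⟩
      rw [div_le_one (by positivity)]
      linarith
  · intro b
    dsimp only
    split_ifs
    · positivity
    · positivity
  · intro b hb
    have hb0 : b ≠ 0 := by omega
    have hbr : (0 : ℝ) ≤ b := Nat.cast_nonneg b
    simp only [if_neg hb0]
    rw [div_le_div_iff₀ (by norm_num) (by positivity)]
    have h1 : 0 ≤ D * P ^ b := by positivity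
    nlinarith [mul_nonneg h1 hbr]
  · have hb0 : b₁ ≠ 0 := by omega
    simp only [if_neg hb0]
    field_simp
    ring
  · intro b h1
    rcases Nat.lt_or_ge 1 b with h3 | h3
    · have e1 : b - 1 ≠ 0 := by omega
      have e2 : b ≠ 0 := by omega
      have e3 : b ≠ 1 := by omega
      have e4 : ((b - 1 : ℕ) : ℝ) = (b : ℝ) - 1 := by
        rw [Nat.cast_sub h1]
        norm_num
      have e5 : P ^ b = P * P ^ (b - 1) := by
        rw [← pow_succ']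
        congr 1
        omega
      have hbr : (1 : ℝ) ≤ b := by exact_mod_cast h1
      simp only [if_neg e1, if_neg e2, if_neg e3]
      rw [e4, e5]
      apply le_of_eq
      field_simp
      ring
    · have e1 : b = 1 := by omega
      subst e1
      simp only [Nat.sub_self, if_true, if_neg one_ne_zero, pow_one, Nat.cast_one]
      apply le_of_eq
      field_simp
      norm_num
  · simp
  · intro b hb
    have e3 : b ≠ 1 := by omega
    simp only [if_neg e3]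

/-- the final estimate of one level -/
theorem level_bound {m b b₁ q : ℕ} {P Y D δ ℓ c₂ c₃ lm : ℝ} (hm : 20 ≤ m)
    (hP8 : (m : ℝ) ^ 8 ≤ P) (hDm : (m : ℝ) ≤ D) (hDu : D ≤ m * P ^ 2) (hY : Y = D * P ^ (b + 1))
    (hb1 : 1 ≤ b) (hbb : b ≤ b₁) (hb₁ : b₁ ≤ m) (hc₂ : 0 < c₂) (hc : 3 * c₂ ≤ c₃)
    (hqu : ((b : ℝ) + 4) * Real.log P * (q : ℝ) ≤ c₂ * m)
    (hql : c₂ * m ≤ 2 * (((b : ℝ) + 4) * Real.log P) * (q : ℝ))
    (hqm : 1000 * (q : ℝ) ≤ m) (hlm : 3 ≤ lm) (hlp : Real.log P ≤ 10 * lm)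
    (hℓ : D * P ^ b / 4 ≤ ℓ) (hδ1 : b = 1 → δ = 1 / 2)
    (hδ2 : 2 ≤ b → δ = 1 / ((b₁ : ℝ) + b)) :
    (∑ ρ ∈ Finset.Ico 2 (2 * q), Real.exp (-(c₃ * m)) * Y ^ ρ)
        + (4 * Real.exp 1 * q * P / (δ ^ 2 * ℓ)) ^ q ≤
      (m + 1) * Real.exp (-(c₂ * m / (100 * lm))) := by
  have hmR : (20 : ℝ) ≤ m := by exact_mod_cast hm
  have hm0 : (0 : ℝ) < m := by linarith
  have hbr : (1 : ℝ) ≤ b := by exact_mod_cast hb1
  have hmP : (m : ℝ) ≤ P := by
    refine le_trans ?_ hP8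
    calc (m : ℝ) = (m : ℝ) ^ 1 := (pow_one _).symm
      _ ≤ (m : ℝ) ^ 8 := pow_le_pow_right₀ (by linarith) (by norm_num)
  have hP0 : 0 < P := by linarith
  have hP1 : 1 < P := by linarith
  have hD0 : 0 < D := by linarith
  have hcm0 : 0 < c₂ * m := by positivity
  have hqm2 : 2 * q ≤ m := by
    have : (2 : ℝ) * (q : ℝ) ≤ m := by
      have h2 : (0 : ℝ) ≤ q := Nat.cast_nonneg _
      linarith
    exact_mod_cast this
  have hℓ0 : 0 < ℓ := lt_of_lt_of_le (by positivity) hℓ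
  have hlp0 : 0 < Real.log P := Real.log_pos hP1
  have hTge : ∀ y : ℝ, c₂ * m / (100 * lm) ≤ y →
      Real.exp (-y) ≤ Real.exp (-(c₂ * m / (100 * lm))) := by
    intro y hy
    exact Real.exp_le_exp.2 (by linarith)
  have h2 : ∑ ρ ∈ Finset.Ico 2 (2 * q), Real.exp (-(c₃ * m)) * Y ^ ρ ≤
      m * Real.exp (-(c₂ * m / (100 * lm))) := by
    have h3 := circuits (m := m) (b := b) (q := q) (P := P) (Y := Y)
      (c₂ := c₂) (c₃ := c₃) hP1 ?_ ?_ hqm2 hqu hc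
    · refine h3.trans (mul_le_mul_of_nonneg_left (hTge _ ?_) hm0.le)
      apply div_le_self hcm0.le
      linarith
    · rw [hY]
      have : 1 ≤ P ^ (b + 1) := one_le_pow₀ hP1.le
      nlinarith
    · rw [hY]
      calc D * P ^ (b + 1) ≤ (m * P ^ 2) * P ^ (b + 1) :=
            mul_le_mul_of_nonneg_right hDu (by positivity)
        _ ≤ (P * P ^ 2) * P ^ (b + 1) := by
            apply mul_le_mul_of_nonneg_right _ (by positivity)
            exact mul_le_mul_of_nonneg_right hmP (by positivity)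
        _ = P ^ (b + 4) := by ring
  have h4 : (4 * Real.exp 1 * q * P / (δ ^ 2 * ℓ)) ^ q ≤
      Real.exp (-(c₂ * m / (100 * lm))) := by
    have hbase : 0 ≤ 4 * Real.exp 1 * q * P / (δ ^ 2 * ℓ) := by positivity
    rcases Nat.lt_or_ge 1 b with h3 | h3
    · have hqmn : q ≤ m := by omega
      have h5 := tail_ge_two (m := m) (b := b) (b₁ := b₁) (q := q) hm hP8 hDm h3 hbb hb₁
        hqmn hℓ
      rw [← hδ2 h3] at h5
      refine (pow_le_pow_left₀ hbase h5 _).trans ?_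
      rw [← Real.exp_nat_mul, mul_neg]
      apply hTge
      have hb2 : (2 : ℝ) ≤ b := by exact_mod_cast h3
      have h7 : c₂ * m / 24 ≤ (q : ℝ) * (((b : ℝ) - 1) * Real.log P / 2) := by
        have h8 : (b : ℝ) + 4 ≤ 6 * ((b : ℝ) - 1) := by linarith
        have h9 : 0 ≤ Real.log P * (q : ℝ) := by positivity
        have h10 := mul_le_mul_of_nonneg_right h8 h9
        linarith
      refine le_trans ?_ h7
      apply div_le_div_of_nonneg_left hcm0.le (by norm_num)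
      linarith
    · have e1 : b = 1 := by omega
      subst e1
      have h5 := tail_one (q := q) (P := P) (D := D) (ℓ := ℓ) hP0 hD0
        (hqm.trans hDm) (by simpa using hℓ)
      have e4 : δ = 1 / 2 := hδ1 rfl
      rw [← e4] at h5
      refine (pow_le_pow_left₀ hbase h5 _).trans ?_
      rw [← Real.exp_nat_mul, mul_neg, mul_one]
      apply hTge
      rw [div_le_iff₀ (by positivity)]
      push_cast at hql
      have h9 : (0 : ℝ) ≤ q := Nat.cast_nonneg _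
      have h10 := mul_le_mul_of_nonneg_right hlp h9
      linarith
  calc _ ≤ m * Real.exp (-(c₂ * m / (100 * lm))) + Real.exp (-(c₂ * m / (100 * lm))) :=
        add_le_add h2 h4
    _ = _ := by ring

/-- Chebyshev term -/
theorem cheb_bound {b₁ : ℕ} {m P D c₂ lm : ℝ} (hm : 20 ≤ m)
    (hP : 1 < P) (hDm : m ≤ D) (hc₂ : 0 < c₂)
    (hb : c₂ * m ≤ ((b₁ : ℝ) + 5) * Real.log P) (hlm : 3 ≤ lm) (hlp : Real.log P ≤ 10 * lm)
    (hl : 2000 * lm ^ 2 ≤ c₂ * m) :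
    4 / (D * P ^ b₁) ≤ Real.exp (-(c₂ * m / (100 * lm))) := by
  have hm0 : (0 : ℝ) < m := by linarith
  have hD0 : 0 < D := by linarith
  have hP0 : 0 < P := by linarith
  have hlm2 : lm * 3 ≤ lm ^ 2 := by nlinarith
  have hcm0 : 0 < c₂ * m := by positivity
  have h3 : 4 / (D * P ^ b₁) ≤ 1 / P ^ b₁ := by
    rw [div_le_div_iff₀ (by positivity) (by positivity)]
    have : 0 < P ^ b₁ := by positivity
    nlinarith
  refine h3.trans ?_
  have h4 : P ^ b₁ = Real.exp (b₁ * Real.log P) := by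
    rw [← Real.log_pow, Real.exp_log (by positivity)]
  rw [h4, one_div, ← Real.exp_neg]
  apply Real.exp_le_exp.2
  have h6 : c₂ * m / (100 * lm) ≤ c₂ * m / 2 := by
    apply div_le_div_of_nonneg_left hcm0.le (by norm_num)
    linarith
  nlinarith

/-- the last step -/
theorem final_bound {m c₂ : ℝ} (hm : 20 ≤ m) (hc₂ : 0 < c₂) (hlm : 3 ≤ Real.log m)
    (hl : 2000 * (Real.log m) ^ 2 ≤ c₂ * m) :
    Real.exp (-(c₂ * m / (100 * Real.log m))) +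
      m * ((m + 1) * Real.exp (-(c₂ * m / (100 * Real.log m)))) ≤
      Real.exp (-(c₂ / 200 * m / Real.log m)) := by
  obtain ⟨T, hT⟩ : ∃ T, T = Real.exp (-(c₂ * m / (100 * Real.log m))) := ⟨_, rfl⟩
  have hT0 : 0 < T := hT ▸ Real.exp_pos _
  rw [← hT]
  have h1 : T + m * ((m + 1) * T) ≤ m ^ 3 * T := by
    have h0 : 1 + m * (m + 1) ≤ m ^ 3 := by nlinarith [sq_nonneg m]
    have := mul_le_mul_of_nonneg_right h0 hT0.le
    linarith
  refine h1.trans ?_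
  have hm0 : 0 < m := by linarith
  have h2 : m ^ 3 = Real.exp (3 * Real.log m) := by
    rw [show (3 : ℝ) * Real.log m = Real.log (m ^ 3) by rw [Real.log_pow]; norm_num,
      Real.exp_log (by positivity)]
  rw [h2, hT, ← Real.exp_add]
  apply Real.exp_le_exp.2
  have hlm0 : 0 < Real.log m := by linarith
  have h3 : 3 * Real.log m ≤ c₂ * m / (200 * Real.log m) := by
    rw [le_div_iff₀ (by positivity)]
    nlinarith
  have h4 : c₂ / 200 * m / Real.log m = c₂ * m / (200 * Real.log m) := by field_simp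
  have h5 : c₂ * m / (100 * Real.log m) = 2 * (c₂ * m / (200 * Real.log m)) := by
    field_simp; norm_num
  rw [h4, h5]
  linarith

end VoidNum

open VoidNum in
/-- M5 -/
theorem void_abstract (c₃ : ℝ) (hc₃ : 0 < c₃) : ∃ c₀ : ℝ, 0 < c₀ ∧ ∃ m₀ : ℕ, ∀ m : ℕ, m₀ ≤ m →
    ∀ (p : ℕ) [Fact p.Prime], m ^ 8 ≤ p → p ≤ m ^ 10 → ∀ (M a : ℕ), (m : ℝ) / 20 ≤ a →
    ∀ S : Finset (FV p M), IndepUpTo 2 S → FewRel m (Real.exp (-(c₃ * m))) S →
    (m : ℝ) * (p : ℝ) ^ a ≤ S.card → (S.card : ℝ) ≤ m * (p : ℝ) ^ (a + 2) →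
    ({Φ : Fin a → FV p M | alive Φ S = ∅}.ncard : ℝ)
      ≤ Real.exp (-(c₀ * m / Real.log m)) * ((p : ℝ) ^ M) ^ a := by
  obtain ⟨c₂, hc₂, hc₂a, hc₂b⟩ : ∃ c₂ : ℝ, 0 < c₂ ∧ 3 * c₂ ≤ c₃ ∧ c₂ ≤ 1 / 1000 := by
    refine ⟨min (c₃ / 3) (1 / 1000), by positivity, ?_, min_le_right _ _⟩
    have := min_le_left (c₃ / 3) (1 / 1000)
    linarith
  obtain ⟨m₀, hm₀⟩ := large hc₂
  refine ⟨c₂ / 200, by positivity, max m₀ 20, fun m hm p hp hp8 hp10 M a ha S hS hF hS1 hS2 => ?_⟩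
  obtain ⟨hl3, hl⟩ := hm₀ m ((le_max_left _ _).trans hm)
  have hm20 : 20 ≤ m := (le_max_right _ _).trans hm
  have hmR : (20 : ℝ) ≤ m := by exact_mod_cast hm20
  have hm0 : (0 : ℝ) < m := by linarith
  have hP8 : (m : ℝ) ^ 8 ≤ p := by exact_mod_cast hp8
  have hP10 : (p : ℝ) ≤ (m : ℝ) ^ 10 := by exact_mod_cast hp10
  have hmP : (m : ℝ) ≤ p := by
    refine le_trans ?_ hP8
    calc (m : ℝ) = (m : ℝ) ^ 1 := (pow_one _).symm
      _ ≤ (m : ℝ) ^ 8 := pow_le_pow_right₀ (by linarith) (by norm_num)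
  have hP0 : (0 : ℝ) < p := by linarith
  have hP1 : (1 : ℝ) < p := by linarith
  have hlp8 : 8 * Real.log m ≤ Real.log p := by
    have : (8 : ℝ) * Real.log m = Real.log ((m : ℝ) ^ 8) := by rw [Real.log_pow]; norm_num
    rw [this]
    exact Real.log_le_log (by positivity) hP8
  have hlp10 : Real.log p ≤ 10 * Real.log m := by
    have : (10 : ℝ) * Real.log m = Real.log ((m : ℝ) ^ 10) := by rw [Real.log_pow]; norm_num
    rw [this]
    exact Real.log_le_log hP0 hP10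
  obtain ⟨b₁, q, hb₁1, hb₁m, hb₁l, hqu, hq1, hql, hqm⟩ := params hc₂ hc₂b hm20 hl3 hl hlp8 hlp10
  have hb₁m' : b₁ ≤ m := by
    have : (b₁ : ℝ) ≤ m := by linarith
    exact_mod_cast this
  have hb₁a : b₁ ≤ a := by
    have : (b₁ : ℝ) ≤ a := by linarith
    exact_mod_cast this
  have hqm2 : ∀ b : ℕ, 2 * q b ≤ m := by
    intro b
    have h1 := hqm b
    have : (2 : ℝ) * (q b : ℝ) ≤ m := by
      have h2 : (0 : ℝ) ≤ q b := Nat.cast_nonneg _
      linarith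
    exact_mod_cast this
  -- the density
  have hScard : 0 < (S.card : ℝ) := lt_of_lt_of_le (by positivity) hS1
  have hne : S.Nonempty := by
    rw [← Finset.card_pos]
    exact_mod_cast hScard
  obtain ⟨D, hD⟩ : ∃ D : ℝ, D = S.card / (p : ℝ) ^ a := ⟨_, rfl⟩
  have hDm : (m : ℝ) ≤ D := by
    rw [hD, le_div_iff₀ (by positivity)]
    exact hS1
  have hD0 : 0 < D := by linarith
  have hDu : D ≤ m * (p : ℝ) ^ 2 := by
    rw [hD, div_le_iff₀ (by positivity)]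
    refine hS2.trans (le_of_eq ?_)
    ring
  have hSD : ∀ b : ℕ, b ≤ a → (S.card : ℝ) / (p : ℝ) ^ (a - b) = D * (p : ℝ) ^ b := by
    intro b hb
    rw [hD, show (p : ℝ) ^ a = (p : ℝ) ^ (a - b) * (p : ℝ) ^ b by
      rw [← pow_add]; congr 1; omega]
    field_simp
  obtain ⟨δ, ℓ, hδ, hℓpos, hℓlow, hℓtop, hℓ, hδ1, hδ2⟩ := levels hD0 hP0 hb₁1
  have hmain := chain_void S hS hne (Real.exp (-(c₃ * m))) (Real.exp_pos _).le b₁ hb₁a q δ ℓ
    (fun b _ hb => hq1 b hb) (fun b hb _ => hδ b hb) (fun b _ _ => fewRel_mono hF (hqm2 b))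
    (fun b _ => hℓpos b) (by
      rw [hℓtop, mul_comm (2 : ℝ), ← div_div, hSD b₁ hb₁a]) (fun b hb _ => hℓ b hb) (by
      intro b h1 h2
      have h3 := hℓlow b h1
      rw [le_div_iff₀ hP0]
      refine le_trans ?_ h3
      have h4 := hqm b
      have h5 : (p : ℝ) ≤ (p : ℝ) ^ b := le_self_pow₀ hP1.le (by omega)
      have h6 : (q b : ℝ) ≤ D / 4 := by
        have h7 : (0 : ℝ) ≤ q b := Nat.cast_nonneg _
        linarith
      calc (q b : ℝ) * p ≤ D / 4 * (p : ℝ) ^ b :=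
            mul_le_mul h6 h5 hP0.le (by positivity)
        _ = D * (p : ℝ) ^ b / 4 := by ring)
  refine hmain.trans ?_
  apply mul_le_mul_of_nonneg_right _ (by positivity)
  refine le_trans (add_le_add ?_ ?_) (final_bound hmR hc₂ hl3 hl)
  · have h2 : 4 * (p : ℝ) ^ (a - b₁) / S.card = 4 / (D * (p : ℝ) ^ b₁) := by
      rw [← hSD b₁ hb₁a]
      field_simp
    rw [h2]
    exact cheb_bound hmR hP1 hDm hc₂ hb₁l hl3 hlp10 hl
  · have hB : ∀ b ∈ Finset.Icc 1 b₁,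
        ((∑ ρ ∈ Finset.Ico 2 (2 * q b), Real.exp (-(c₃ * m)) *
            ((p : ℝ) * S.card / (p : ℝ) ^ (a - b)) ^ ρ)
          + (4 * Real.exp 1 * q b * p / ((δ b) ^ 2 * ℓ b)) ^ (q b)) ≤
        (m + 1) * Real.exp (-(c₂ * m / (100 * Real.log m))) := by
      intro b hb
      rw [Finset.mem_Icc] at hb
      have h1 : (p : ℝ) * S.card / (p : ℝ) ^ (a - b) = D * (p : ℝ) ^ (b + 1) := by
        rw [mul_div_assoc, hSD b (hb.2.trans hb₁a), pow_succ]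
        ring
      exact level_bound hm20 hP8 hDm hDu h1 hb.1 hb.2 hb₁m' hc₂ hc₂a (hqu b) (hql b hb.2)
        (hqm b) hl3 hlp10 (hℓlow b hb.1) (fun h => h ▸ hδ1) (fun h => hδ2 b h)
    refine (Finset.sum_le_sum hB).trans ?_
    rw [Finset.sum_const, Nat.card_Icc, nsmul_eq_mul]
    apply mul_le_mul_of_nonneg_right _ (by positivity)
    rw [Nat.add_sub_cancel]
    exact_mod_cast hb₁m'

end Vale.Agent.P230
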