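import Vale.Agent.Lib.P230L.Pre
import Vale.Agent.Lib.P230L.VoidNum
import Vale.Agent.Lib.P230L.FewRelGrid

/-!
# P230, lattice half: integer points of convex bodies are hit with overwhelming probability
-/

namespace Vale.Agent.P230

open MeasureTheory Set
open scoped ENNReal

theorem void_grid : ∃ c₀ : ℝ, 0 < c₀ ∧ ∃ m₀ : ℕ, ∀ m : ℕ, m₀ ≤ m →
    ∀ (p : ℕ) [Fact p.Prime], m ^ 8 ≤ p → p ≤ m ^ 10 → ∀ B : ℕ, B ≤ 100 * m ^ 3 →
    ∀ A : Set (Fin m → ℝ), GridBody (m : ℝ) B A → ∀ a : ℕ,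
    2 * (m : ℝ) * (p : ℝ) ^ a ≤ volume.real A → volume.real A ≤ 2 * m * (p : ℝ) ^ (a + 1) →
    ({Φ : Fin a → FV p (m + 1) | alive Φ (gridS p A B) = ∅}.ncard : ℝ)
      ≤ Real.exp (-(c₀ * m / Real.log m)) * ((p : ℝ) ^ (m + 1)) ^ a := by
  obtain ⟨c₃, hc₃, m₁, h₁⟩ := fewrel_grid
  obtain ⟨c₀, hc₀, m₂, h₂⟩ := void_abstract c₃ hc₃
  refine ⟨c₀, hc₀, max (max m₁ m₂) 100, fun m hm p hp hp8 hp10 B hB A hA a ha1 ha2 => ?_⟩
  have hm1 : m₁ ≤ m := le_trans (le_trans (le_max_left _ _) (le_max_left _ _)) hm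
  have hm2 : m₂ ≤ m := le_trans (le_trans (le_max_right _ _) (le_max_left _ _)) hm
  have hm3 : 100 ≤ m := le_trans (le_max_right _ _) hm
  have hm3' : (100 : ℝ) ≤ m := by exact_mod_cast hm3
  obtain ⟨hI, hF, hc1, hc2⟩ := h₁ m hm1 p hp8 B hB A hA
  have hp0 : (0 : ℝ) < p := by exact_mod_cast hp.out.pos
  have hp4 : (4 : ℝ) ≤ p := by
    have : 4 ≤ m ^ 8 := le_trans (by norm_num) (Nat.pow_le_pow_left hm3 8)
    exact_mod_cast this.trans hp8
  refine h₂ m hm2 p hp8 hp10 (m + 1) a ?_ (gridS p A B) hI hF ?_ ?_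
  · -- a is large
    have hv := volume_gridBody_ge (r := (m : ℝ)) (by positivity) hA
    have h3 : (2 * (m : ℝ)) ^ m ≤ 2 * m * (p : ℝ) ^ (a + 1) := hv.trans ha2
    have h4 : (p : ℝ) ≤ (m : ℝ) ^ 10 := by exact_mod_cast hp10
    have h5 : (2 * (m : ℝ)) ^ m ≤ 2 * m * ((m : ℝ) ^ 10) ^ (a + 1) :=
      h3.trans (mul_le_mul_of_nonneg_left (pow_le_pow_left₀ hp0.le h4 _) (by positivity))
    by_contra hcon
    push Not at hcon
    have h6 : 20 * a < m := by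
      have : (20 * a : ℝ) < m := by linarith
      exact_mod_cast this
    have h7 : (2 * (m : ℝ)) ^ m ≤ (2 * (m : ℝ)) ^ (10 * (a + 1) + 1) := by
      calc (2 * (m : ℝ)) ^ m ≤ 2 * m * ((m : ℝ) ^ 10) ^ (a + 1) := h5
        _ = 2 * m * (m : ℝ) ^ (10 * (a + 1)) := by rw [← pow_mul]
        _ ≤ 2 * m * (2 * (m : ℝ)) ^ (10 * (a + 1)) := by
            apply mul_le_mul_of_nonneg_left _ (by positivity)
            exact pow_le_pow_left₀ (by positivity) (by linarith) _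
        _ = (2 * (m : ℝ)) ^ (10 * (a + 1) + 1) := by rw [pow_succ]; ring
    have h8 : m ≤ 10 * (a + 1) + 1 := by
      by_contra hcon2
      push Not at hcon2
      exact absurd h7 (not_le.mpr (pow_lt_pow_right₀ (by linarith) hcon2))
    omega
  · calc (m : ℝ) * (p : ℝ) ^ a = (2 * (m : ℝ) * (p : ℝ) ^ a) / 2 := by ring
      _ ≤ volume.real A / 2 := by linarith
      _ ≤ _ := hc1
  · calc ((gridS p A B).card : ℝ) ≤ 2 * volume.real A := hc2
      _ ≤ 2 * (2 * m * (p : ℝ) ^ (a + 1)) := by linarith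
      _ = 4 * (m * (p : ℝ) ^ (a + 1)) := by ring
      _ ≤ p * (m * (p : ℝ) ^ (a + 1)) := by
          apply mul_le_mul_of_nonneg_right hp4 (by positivity)
      _ = m * (p : ℝ) ^ (a + 2) := by ring

end Vale.Agent.P230
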