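import Vale.Agent.Lib.P230L.Layered
import Vale.Agent.Lib.P230L.LatHom
import Vale.Agent.Lib.P230L.Position
import Vale.Agent.Lib.P230L.Tree
import Vale.Agent.Lib.P230L.Level
import Vale.Agent.Lib.P230L.VoidGrid

/-!
# P230, lattice half: the upper bound for the lattice covering density
-/

namespace Vale.Agent.P230

open MeasureTheory Set
open scoped ENNReal Pointwise

/-- `(1 - 1/n)^n ≥ 1/4`. -/
lemma quarter_le {n : ℕ} (hn : 100 ≤ n) : (1 : ℝ) / 4 ≤ (1 - 1 / (n : ℝ)) ^ n := by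
  have hn100 : (100 : ℝ) ≤ n := by exact_mod_cast hn
  have hnR : (0 : ℝ) < n := by linarith
  have hnm1 : (0 : ℝ) < n - 1 := by linarith
  have hlpos : (0 : ℝ) < 1 - 1 / (n : ℝ) := by
    have : 1 / (n : ℝ) ≤ 1 / 100 := one_div_le_one_div_of_le (by norm_num) hn100
    linarith
  have h3 : Real.exp (-(1 / ((n : ℝ) - 1))) ≤ 1 - 1 / (n : ℝ) := by
    have h4 := Real.add_one_le_exp (1 / ((n : ℝ) - 1))
    have h5 : 1 / ((n : ℝ) - 1) + 1 = (1 - 1 / (n : ℝ))⁻¹ := by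
      field_simp; ring
    rw [h5] at h4
    rw [Real.exp_neg]
    exact inv_le_of_inv_le₀ hlpos h4
  have h6 : Real.exp (-(n / ((n : ℝ) - 1))) ≤ (1 - 1 / (n : ℝ)) ^ n := by
    calc Real.exp (-(n / ((n : ℝ) - 1))) = (Real.exp (-(1 / ((n : ℝ) - 1)))) ^ n := by
          rw [← Real.exp_nat_mul]; congr 1; ring
      _ ≤ (1 - 1 / (n : ℝ)) ^ n := pow_le_pow_left₀ (Real.exp_pos _).le h3 n
  refine le_trans ?_ h6
  have h7 : (n : ℝ) / (n - 1) ≤ 2 * Real.log 2 := by
    have := Real.log_two_gt_d9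
    rw [div_le_iff₀ hnm1]
    nlinarith
  have h8 : (1 : ℝ) / 4 = Real.exp (-(2 * Real.log 2)) := by
    rw [Real.exp_neg, mul_comm, Real.exp_mul, Real.exp_log (by norm_num)]
    norm_num
  rw [h8]
  exact Real.exp_le_exp.mpr (by linarith)

/-- The numerical end of the proof. -/
lemma final_num {m k p a : ℕ} {s v VP VK H : ℝ} (hv : 0 < v) (hp : 0 < (p : ℝ)) (hs : 0 < s)
    (hH : 0 < H) (hsv : v * s ^ m = 2 * m * (p : ℝ) ^ a)
    (hV : VK ≤ 256 * Real.exp k * v * VP) (hVP : (3 / 32 : ℝ) ^ k * VP ≤ H) :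
    s ^ m / H * VK / (p : ℝ) ^ a ≤ 512 * m * 32 ^ k := by
  have hpa : (0 : ℝ) < (p : ℝ) ^ a := by positivity
  have hs_eq : s ^ m = 2 * m * (p : ℝ) ^ a / v := by
    rw [eq_div_iff hv.ne', mul_comm]; exact hsv
  have h32 : Real.exp k * (32 / 3) ^ k ≤ 32 ^ k := by
    have h1 : Real.exp k = (Real.exp 1) ^ k := by rw [← Real.exp_nat_mul, mul_one]
    rw [h1, ← mul_pow]
    apply pow_le_pow_left₀ (by positivity)
    have := Real.exp_one_lt_d9
    nlinarith
  have hVP' : VP ≤ (32 / 3) ^ k * H := by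
    have h1 : (32 / 3 : ℝ) ^ k * ((3 / 32 : ℝ) ^ k * VP) ≤ (32 / 3) ^ k * H :=
      mul_le_mul_of_nonneg_left hVP (by positivity)
    have h2 : (32 / 3 : ℝ) ^ k * ((3 / 32 : ℝ) ^ k * VP) = VP := by
      rw [← mul_assoc, ← mul_pow]; norm_num
    rwa [h2] at h1
  rw [div_le_iff₀ hpa, div_mul_eq_mul_div, div_le_iff₀ hH]
  calc s ^ m * VK ≤ s ^ m * (256 * Real.exp k * v * ((32 / 3) ^ k * H)) := by
        apply mul_le_mul_of_nonneg_left _ (by positivity)
        exact hV.trans (mul_le_mul_of_nonneg_left hVP' (by positivity))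
    _ = 512 * m * (Real.exp k * (32 / 3) ^ k) * ((p : ℝ) ^ a * H) := by
        rw [hs_eq]; field_simp; ring
    _ ≤ 512 * m * 32 ^ k * ((p : ℝ) ^ a * H) := by
        apply mul_le_mul_of_nonneg_right _ (by positivity)
        exact mul_le_mul_of_nonneg_left h32 (by positivity)
    _ = _ := by ring

/-- The geometric data extracted from a convex body. -/
structure Setup (n m k : ℕ) (K : Set (E (m + k))) where
  A : ((Fin m → ℝ) × (Fin k → ℝ)) ≃ₗ[ℝ] E (m + k)
  b : E (m + k)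
  P : Set (Fin k → ℝ)
  v : ℝ
  h : Fin k → ℝ
  conv : Convex ℝ {z | A z + b ∈ K}
  comp : IsCompact {z | A z + b ∈ K}
  cube : ∀ x y, (∀ i, |x i| ≤ 2) → (∀ j, |y j| ≤ 2) → (x, y) ∈ {z | A z + b ∈ K}
  sconv : ∀ y ∈ P, Convex ℝ (slice ((1 - 1 / (n : ℝ)) • {z | A z + b ∈ K}) y)
  scomp : ∀ y ∈ P, IsCompact (slice ((1 - 1 / (n : ℝ)) • {z | A z + b ∈ K}) y)
  sbdd : ∀ y ∈ P, ∀ x ∈ slice ((1 - 1 / (n : ℝ)) • {z | A z + b ∈ K}) y, ∀ i, |x i| ≤ 6 * n
  slow : ∀ y ∈ P, v ≤ volume.real (slice ((1 - 1 / (n : ℝ)) • {z | A z + b ∈ K}) y)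
  supp : ∀ y ∈ P, volume.real (slice ((1 - 1 / (n : ℝ)) • {z | A z + b ∈ K}) y)
    ≤ 8 * Real.exp k * v
  scube : ∀ y ∈ P, ∃ c : Fin m → ℝ, ∀ x : Fin m → ℝ, (∀ i, |x i - c i| ≤ 1 / n) →
    x ∈ slice ((1 - 1 / (n : ℝ)) • {z | A z + b ∈ K}) y
  ne : P.Nonempty
  vpos : 0 < v
  hPB : ∀ y ∈ P, ∀ j, |y j| ≤ 6 * n
  hh : ∀ j, 0 < h j
  hh6 : ∀ j, h j ≤ 6 * n
  tree : TreeR k h P
  hprod : (3 / 32 : ℝ) ^ k * volume.real P ≤ ∏ j, h j
  hprod' : (3 / 32 : ℝ) ^ k * ((2 / (n : ℝ)) ^ k / 64) ≤ ∏ j, h j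
  vol : volume.real {z | A z + b ∈ K} ≤ 256 * Real.exp k * v * volume.real P

theorem exists_setup {n m k : ℕ} (hndef : n = m + k) (hk : 1 ≤ k) (hm : 100 ≤ m)
    (K : Set (E (m + k))) (hK : IsConvexBody K) : Nonempty (Setup n m k K) := by
  have hn1 : 1 ≤ n := by omega
  have hn2' : 2 ≤ n := by omega
  have hnR : (0 : ℝ) < n := by exact_mod_cast (by omega : 0 < n)
  have hnR2 : (2 : ℝ) ≤ n := by exact_mod_cast hn2'
  have hmR : (0 : ℝ) < m := by exact_mod_cast (by omega : 0 < m)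
  have hnR1 : (1 : ℝ) ≤ n := by linarith
  have hmR1 : (1 : ℝ) ≤ m := by exact_mod_cast (by omega : 1 ≤ m)
  -- position
  obtain ⟨A, b, hAcube, hAbdd⟩ := exists_position (by omega) K hK
  set K' : Set ((Fin m → ℝ) × (Fin k → ℝ)) := {z | A z + b ∈ K} with hK'
  have hcastn : (m : ℝ) + k = n := by rw [hndef]; push_cast; ring
  have hconv' : Convex ℝ K' := by
    have h1 : Convex ℝ ((fun z => z + b) ⁻¹' K) := hK.1.translate_preimage_left b
    exact h1.linear_preimage A.toLinearMap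
  have hcomp' : IsCompact K' := by
    have h0 : IsCompact ((fun x => x + -b) '' K) :=
      hK.2.1.image (continuous_id.add continuous_const)
    have h1 : K' = A.symm.toContinuousLinearEquiv '' ((fun x => x + -b) '' K) := by
      ext z
      constructor
      · intro hz
        refine ⟨A z, ⟨A z + b, hz, by simp⟩, ?_⟩
        change A.symm (A z) = z
        simp
      · rintro ⟨y, ⟨x, hx, rfl⟩, rfl⟩
        change A (A.symm (x + -b)) + b ∈ K
        simpa using hx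
    rw [h1]
    exact h0.image A.symm.toContinuousLinearEquiv.continuous
  have hcube' : ∀ x y, (∀ i, |x i| ≤ 2) → (∀ j, |y j| ≤ 2) → (x, y) ∈ K' := hAcube
  -- the shrunk body
  set lam : ℝ := 1 - 1 / (n : ℝ) with hl
  have hinv : 1 / (n : ℝ) ≤ 1 / 2 := by
    apply one_div_le_one_div_of_le <;> linarith
  have hlhalf : 1 / 2 ≤ lam := by rw [hl]; linarith
  have hlpos : 0 < lam := by linarith
  have hl1 : lam ≤ 1 := by
    rw [hl]; have : 0 < 1 / (n : ℝ) := by positivity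
    linarith
  set K₁ : Set ((Fin m → ℝ) × (Fin k → ℝ)) := lam • K' with hK₁
  have hconv₁ : Convex ℝ K₁ := hconv'.smul lam
  have hcomp₁ : IsCompact K₁ := hcomp'.smul lam
  have hcube₁ : ∀ x y, (∀ i, |x i| ≤ 1) → (∀ j, |y j| ≤ 1) → (x, y) ∈ K₁ := by
    intro x y hx hy
    refine ⟨(lam⁻¹ • x, lam⁻¹ • y), hcube' _ _ ?_ ?_, ?_⟩
    · intro i
      rw [Pi.smul_apply, smul_eq_mul, abs_mul, abs_of_pos (inv_pos.mpr hlpos),
        inv_mul_le_iff₀ hlpos]
      have := hx i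
      linarith
    · intro i
      rw [Pi.smul_apply, smul_eq_mul, abs_mul, abs_of_pos (inv_pos.mpr hlpos),
        inv_mul_le_iff₀ hlpos]
      have := hy i
      linarith
    · simp only [Prod.smul_mk, smul_smul, mul_inv_cancel₀ hlpos.ne', one_smul]
  have hbdd₁ : ∀ x y, (x, y) ∈ K₁ → (∀ i, |x i| ≤ 6 * n) ∧ (∀ j, |y j| ≤ 6 * n) := by
    rintro x y ⟨⟨x', y'⟩, hz, hze⟩
    simp only [Prod.smul_mk, Prod.mk.injEq] at hze
    obtain ⟨rfl, rfl⟩ := hze
    have h1 := hAbdd x' y' hz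
    rw [hcastn] at h1
    constructor
    · intro i
      rw [Pi.smul_apply, smul_eq_mul, abs_mul, abs_of_pos hlpos]
      have h2 := h1.1 i
      have h3 := abs_nonneg (x' i)
      nlinarith
    · intro i
      rw [Pi.smul_apply, smul_eq_mul, abs_mul, abs_of_pos hlpos]
      have h2 := h1.2 i
      have h3 := abs_nonneg (y' i)
      nlinarith
  -- level set of the slices
  obtain ⟨P, v, hPconv, hPcomp, hv, hPB, hPsl, hvolK₁, hvolP⟩ :=
    exists_level hn2' (by omega) (by omega) hk K₁ hconv₁ hcomp₁ hcube₁ (6 * n) hbdd₁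
  have hvolPpos : 0 < volume.real P := lt_of_lt_of_le (by positivity) hvolP
  have hvolP0 : 0 < volume P := by
    by_contra hcon
    push Not at hcon
    have : volume P = 0 := nonpos_iff_eq_zero.mp hcon
    rw [Measure.real, this] at hvolPpos
    simp at hvolPpos
  obtain ⟨h, hh, hh6, hprod, hT⟩ := exists_tree k P hPconv hPcomp hvolP0 (6 * n) hPB
  have hprod' : (3 / 32 : ℝ) ^ k * ((2 / (n : ℝ)) ^ k / 64) ≤ ∏ j, h j :=
    (mul_le_mul_of_nonneg_left hvolP (by positivity)).trans hprod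
  have hprodpos : 0 < ∏ j, h j := Finset.prod_pos fun j _ => hh j
  have hslice_comp : ∀ y ∈ P, IsCompact (slice K₁ y) := by
    intro y _
    have h1 : slice K₁ y = (fun x : Fin m → ℝ => (x, y)) ⁻¹' K₁ := rfl
    have hcl : IsClosed (slice K₁ y) := by
      rw [h1]; exact hcomp₁.isClosed.preimage (by fun_prop)
    have h2 : slice K₁ y ⊆ Prod.fst '' K₁ := by
      intro x hx
      exact ⟨(x, y), hx, rfl⟩
    exact (hcomp₁.image continuous_fst).of_isClosed_subset hcl h2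
  have hslice_conv : ∀ y ∈ P, Convex ℝ (slice K₁ y) := by
    intro y _ x₁ hx₁ x₂ hx₂ α β hα hβ hαβ
    have h1 := hconv₁ hx₁ hx₂ hα hβ hαβ
    have h2 : α • (x₁, y) + β • (x₂, y) = (α • x₁ + β • x₂, y) := by
      rw [Prod.smul_mk, Prod.smul_mk, Prod.mk_add_mk, ← add_smul, hαβ, one_smul]
    rw [h2] at h1
    exact h1
  have hPne : P.Nonempty := nonempty_of_measure_ne_zero hvolP0.ne'
  have hvol1 : volume.real K' ≤ 4 * volume.real K₁ := by
    have h1 : volume.real K₁ = lam ^ n * volume.real K' := by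
      rw [hK₁, Measure.real, Measure.addHaar_smul, ENNReal.toReal_mul,
        ENNReal.toReal_ofReal (abs_nonneg _), abs_of_pos (by positivity)]
      have hfr : Module.finrank ℝ ((Fin m → ℝ) × (Fin k → ℝ)) = n := by
        rw [Module.finrank_prod, Module.finrank_fin_fun, Module.finrank_fin_fun, hndef]
      rw [hfr]; rfl
    have h2 : (1 : ℝ) / 4 ≤ lam ^ n := by rw [hl]; exact quarter_le (by omega)
    rw [h1]
    nlinarith [measureReal_nonneg (μ := volume) (s := K')]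
  exact ⟨{
    A := A, b := b, P := P, v := v, h := h
    conv := hconv'
    comp := hcomp'
    cube := hcube'
    sconv := hslice_conv
    scomp := hslice_comp
    sbdd := fun y _ x hx => (hbdd₁ x y hx).1
    slow := fun y hy => (hPsl y hy).1
    supp := fun y hy => (hPsl y hy).2.1
    scube := fun y hy => (hPsl y hy).2.2
    ne := hPne
    vpos := hv
    hPB := hPB
    hh := hh
    hh6 := hh6
    tree := hT
    hprod := hprod
    hprod' := hprod'
    vol := by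
      calc volume.real K' ≤ 4 * volume.real K₁ := hvol1
        _ ≤ 4 * (64 * Real.exp k * v * volume.real P) := by linarith
        _ = _ := by ring }⟩

theorem thetaL_core {n m k m₀ : ℕ} {c₀ : ℝ} (hndef : n = m + k)
    (hvg : ∀ m : ℕ, m₀ ≤ m →
      ∀ (p : ℕ) [Fact p.Prime], m ^ 8 ≤ p → p ≤ m ^ 10 → ∀ B : ℕ, B ≤ 100 * m ^ 3 →
      ∀ A : Set (Fin m → ℝ), GridBody (m : ℝ) B A → ∀ a : ℕ,
      2 * (m : ℝ) * (p : ℝ) ^ a ≤ volume.real A → volume.real A ≤ 2 * m * (p : ℝ) ^ (a + 1) →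
      ({Φ : Fin a → FV p (m + 1) | alive Φ (gridS p A B) = ∅}.ncard : ℝ)
        ≤ Real.exp (-(c₀ * m / Real.log m)) * ((p : ℝ) ^ (m + 1)) ^ a)
    (hk : 1 ≤ k) (hm₀ : m₀ ≤ m) (hm : 100 ≤ m) (hn2 : n ≤ 2 * m)
    (h8 : 8 * Real.exp k ≤ (n : ℝ) ^ 8) (hpow : 2 * n ^ 8 ≤ m ^ 10)
    (hpow2 : 2 * n ^ 8 ≤ 2 ^ m)
    (hsmall : (((3 * n ^ 2 * (2 * Rbd n k + 1) : ℕ) : ℝ) ^ k
        * (Real.exp (-(c₀ * m / Real.log m)) * ((2 * Rbd n k + 1 : ℕ) : ℝ) ^ k)) ^ (2 ^ k)
        * (2 * (n : ℝ) ^ 8) ^ m < 1)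
    (K : Set (E (m + k))) (hK : IsConvexBody K) :
    thetaL K ≤ ENNReal.ofReal (512 * m * 32 ^ k) := by
  have hn1 : 1 ≤ n := by omega
  have hn2' : 2 ≤ n := by omega
  have hnR : (0 : ℝ) < n := by exact_mod_cast (by omega : 0 < n)
  have hmR : (0 : ℝ) < m := by exact_mod_cast (by omega : 0 < m)
  have hnR1 : (1 : ℝ) ≤ n := by exact_mod_cast hn1
  have hmR1 : (1 : ℝ) ≤ m := by exact_mod_cast (by omega : 1 ≤ m)
  obtain ⟨⟨A, b, P, v, h, hconv', hcomp', hcube', hslice_conv, hslice_comp, hsbdd, hslow, hsupp,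
    hscube, hPne, hv, hPB, hh, hh6, hT, hprod, hprod', hvol⟩⟩ := exists_setup hndef hk hm K hK
  have hprodpos : 0 < ∏ j, h j := Finset.prod_pos fun j _ => hh j
  -- the prime
  obtain ⟨p, hpp, hp1, hp2⟩ := Nat.exists_prime_lt_and_le_two_mul (n ^ 8) (by positivity)
  have : Fact p.Prime := ⟨hpp⟩
  have hpR0 : (0 : ℝ) < p := by exact_mod_cast hpp.pos
  have hpR : (p : ℝ) ≤ 2 * (n : ℝ) ^ 8 := by exact_mod_cast hp2
  have hpR1 : ((n : ℝ)) ^ 8 ≤ p := by exact_mod_cast hp1.le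
  have hp2m : (p : ℝ) ≤ 2 ^ m := by exact_mod_cast hp2.trans hpow2
  -- lower bound for `v`
  have hvlow : (2 / (n : ℝ)) ^ m ≤ 8 * Real.exp k * v := by
    obtain ⟨y, hy⟩ := hPne
    obtain ⟨c, hc⟩ := hscube y hy
    have h2 := hsupp y hy
    have h3 := volume_ge_of_cube (r := 1 / (n : ℝ)) (by positivity)
      (hslice_comp y hy).measure_ne_top hc
    calc (2 / (n : ℝ)) ^ m = (2 * (1 / (n : ℝ))) ^ m := by congr 1; ring
      _ ≤ _ := h3
      _ ≤ _ := h2
  have hbig : 2 * (m : ℝ) ≤ v * (2 * n * m) ^ m := by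
    have h1 : (8 * Real.exp k) * (2 * (m : ℝ)) ≤ (8 * Real.exp k * v) * (2 * n * m) ^ m := by
      calc (8 * Real.exp k) * (2 * (m : ℝ)) ≤ (n : ℝ) ^ 8 * (2 * m) := by gcongr
        _ = (2 * (n : ℝ) ^ 8) * m := by ring
        _ ≤ 2 ^ m * m := by
            apply mul_le_mul_of_nonneg_right _ hmR.le
            exact_mod_cast hpow2
        _ ≤ 4 ^ m * (m : ℝ) ^ m := by
            apply mul_le_mul
            · exact pow_le_pow_left₀ (by norm_num) (by norm_num) m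
            · exact le_self_pow₀ hmR1 (by omega)
            · positivity
            · positivity
        _ = (2 / (n : ℝ)) ^ m * (2 * n * m) ^ m := by
            rw [← mul_pow, ← mul_pow]
            congr 1
            field_simp
            norm_num
        _ ≤ _ := mul_le_mul_of_nonneg_right hvlow (by positivity)
    have h2 : (8 * Real.exp k) * (2 * (m : ℝ)) ≤ (8 * Real.exp k) * (v * (2 * n * m) ^ m) := by
      calc _ ≤ _ := h1
        _ = _ := by ring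
    exact le_of_mul_le_mul_left h2 (by positivity)
  obtain ⟨s, a, hs1, hs2, hsv⟩ := exists_scale n m p v hv hn1 (by omega) hpp.two_le hp2m hbig
  have hs : 0 < s := lt_of_lt_of_le (by positivity) hs1
  set B : ℕ := 12 * n ^ 3 with hB
  have hB100 : B ≤ 100 * m ^ 3 := by
    have h1 : n ^ 3 ≤ (2 * m) ^ 3 := Nat.pow_le_pow_left hn2 3
    calc B = 12 * n ^ 3 := rfl
      _ ≤ 12 * (2 * m) ^ 3 := by omega
      _ = 96 * m ^ 3 := by ring
      _ ≤ 100 * m ^ 3 := by omega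
  have hmn : (m : ℝ) ≤ n := by exact_mod_cast (by omega : m ≤ n)
  -- the grid bodies
  have hgrid : ∀ y ∈ P, GridBody (m : ℝ) B (scal s (slice ((1 - 1 / (n : ℝ)) • {z | A z + b ∈ K}) y)) := by
    intro y hy
    obtain ⟨c, hc⟩ := hscube y hy
    refine gridBody_scal (b := 1 / n) (D := 6 * n) hs (hslice_conv y hy) (hslice_comp y hy) hc ?_
      (hsbdd y hy) ?_
    · rw [mul_one_div, le_div_iff₀ hnR]; linarith
    · rw [hB]; push_cast
      calc s * (6 * n) ≤ (2 * n * m) * (6 * n) := by gcongr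
        _ ≤ (2 * n * n) * (6 * n) := by gcongr
        _ = 12 * (n : ℝ) ^ 3 := by ring
  have hvolS : ∀ y ∈ P, 2 * (m : ℝ) * (p : ℝ) ^ a ≤ volume.real (scal s (slice ((1 - 1 / (n : ℝ)) • {z | A z + b ∈ K}) y)) ∧
      volume.real (scal s (slice ((1 - 1 / (n : ℝ)) • {z | A z + b ∈ K}) y)) ≤ 2 * m * (p : ℝ) ^ (a + 1) := by
    intro y hy
    have h1 := hslow y hy
    have h2 := hsupp y hy
    rw [volume_scal hs, ← hsv]
    constructor
    · rw [mul_comm v]; exact mul_le_mul_of_nonneg_left h1 (by positivity)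
    · calc s ^ m * volume.real (slice ((1 - 1 / (n : ℝ)) • {z | A z + b ∈ K}) y) ≤ s ^ m * (8 * Real.exp k * v) :=
            mul_le_mul_of_nonneg_left h2 (by positivity)
        _ = (8 * Real.exp k) * (v * s ^ m) := by ring
        _ = (8 * Real.exp k) * (2 * m * (p : ℝ) ^ a) := by rw [hsv]
        _ ≤ p * (2 * m * (p : ℝ) ^ a) := by
            apply mul_le_mul_of_nonneg_right (h8.trans hpR1) (by positivity)
        _ = 2 * m * (p : ℝ) ^ (a + 1) := by ring
  have hm8 : m ^ 8 ≤ p := le_trans (Nat.pow_le_pow_left (by omega) 8) hp1.le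
  have hp10 : p ≤ m ^ 10 := hp2.trans hpow
  obtain ⟨Φ, w, hsurj, hw⟩ := exists_layered (p := p) (a := a) (B := B) hn1 hk _ s h hh hh6 P hT
    hPB hprod' (Real.exp (-(c₀ * m / Real.log m))) (Real.exp_pos _).le
    (fun y hy => hvg m hm₀ p hm8 hp10 B hB100 _ (hgrid y hy) a (hvolS y hy).1 (hvolS y hy).2)
    (by
      refine lt_of_le_of_lt ?_ hsmall
      apply mul_le_mul_of_nonneg_left _ (by positivity)
      exact pow_le_pow_left₀ hpR0.le hpR m)
  -- the covering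
  have hcov := cover_core (B := B) (N := 3 * n ^ 2) hn2' (by have := Nat.one_le_pow 2 n hn1; omega)
    _ hconv' hcube' s hs (by nlinarith) h hh (by
      intro j
      have h1 := hh6 j
      push_cast
      nlinarith) Φ w hw
  set D := dscale (m := m) s hs.ne' h (fun j => (hh j).ne') with hD
  have key := thetaL_le_of_hom K hK.2.1 p a (D.trans A) b (psiHom Φ w) (psiHom_surjective Φ w hsurj)
    (by
      intro x y
      obtain ⟨u, t, h1, h2⟩ := hcov x y
      exact ⟨u, t, h1, h2⟩)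
  refine key.trans ?_
  have hset : {z : (Fin m → ℝ) × (Fin k → ℝ) | (D.trans A) z + b ∈ K} = {z | D z ∈ {z | A z + b ∈ K}} := rfl
  rw [hset, hD, volume_dscale hs hh {z | A z + b ∈ K}]
  have hK't : volume {z | A z + b ∈ K} ≠ ⊤ := hcomp'.measure_ne_top
  have hvK : volume {z | A z + b ∈ K} = ENNReal.ofReal (volume.real {z | A z + b ∈ K}) := (ofReal_measureReal hK't).symm
  rw [hvK, ← ENNReal.ofReal_mul (by positivity), ← ENNReal.ofReal_div_of_pos (by positivity)]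
  apply ENNReal.ofReal_le_ofReal
  -- numerics
  exact final_num hv hpR0 hs hprodpos hsv hvol hprod

theorem thetaL_upper : ∃ C : ℝ, 0 < C ∧ ∀ᶠ n : ℕ in Filter.atTop, ∀ K : Set (E n),
    IsConvexBody K → thetaL K ≤ ENNReal.ofReal (C * n * (Real.log n) ^ 10) := by
  obtain ⟨c₀, hc₀, m₀, hvg⟩ := void_grid
  obtain ⟨C, hC, hev⟩ := num_final c₀ hc₀ m₀
  refine ⟨C, hC, ?_⟩
  filter_upwards [hev] with n hn K hK
  obtain ⟨m, k, hndef, hk, hm₀, hm, hn2, h8, hpow, hpow2, hsmall, hfin⟩ := hn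
  subst hndef
  exact (thetaL_core rfl hvg hk hm₀ hm hn2 h8 hpow hpow2 hsmall K hK).trans
    (ENNReal.ofReal_le_ofReal hfin)

end Vale.Agent.P230
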