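import Vale.Agent.Lib.P230L.DefsL

/-!
# P230, lattice half: choice of the functionals (module M19)
-/

namespace Vale.Agent.P230

open MeasureTheory Set

/-- Splitting functionals in homogeneous coordinates. -/
def splitFun (p m a : ℕ) :
    (Fin a → FV p (m + 1)) ≃ (Fin a → FV p m) × (Fin a → ZMod p) where
  toFun Φ := (fun j l => Φ j l.succ, fun j => -Φ j 0)
  invFun q := fun j => Matrix.vecCons (-q.2 j) (q.1 j)
  left_inv Φ := by
    funext j l
    refine Fin.cases ?_ (fun l => ?_) l <;> simp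
  right_inv q := by
    ext <;> simp

theorem ncard_eq_sum_ite {α : Type*} [Fintype α] (P : α → Prop) [DecidablePred P] :
    {x | P x}.ncard = ∑ x, if P x then 1 else 0 := by
  rw [Set.ncard_eq_toFinset_card', Set.toFinset_ofFinset, Finset.card_filter]
  rfl

theorem dot_homZ {p m : ℕ} (φ : FV p (m + 1)) (h : Fin m → ℤ) :
    φ ⬝ᵥ homZ p h = φ 0 + (fun l : Fin m => φ l.succ) ⬝ᵥ (fun l => (h l : ZMod p)) := by
  unfold homZ
  rw [Matrix.dotProduct_cons, mul_one]
  rfl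

theorem sum_bad {p m a : ℕ} [Fact p.Prime] (S : Finset (Fin m → ℤ)) :
    ∑ φ : Fin a → FV p m,
      {c : Fin a → ZMod p | ∀ h ∈ S, ∃ j, φ j ⬝ᵥ (fun l => (h l : ZMod p)) ≠ c j}.ncard
      = {Φ : Fin a → FV p (m + 1) | ∀ h ∈ S, ∃ j, Φ j ⬝ᵥ homZ p h ≠ 0}.ncard := by
  classical
  simp only [ncard_eq_sum_ite]
  rw [← Fintype.sum_prod_type']
  symm
  refine Fintype.sum_equiv (splitFun p m a) _ _ fun Φ => ?_
  have e : (∀ h ∈ S, ∃ j, Φ j ⬝ᵥ homZ p h ≠ 0) ↔
      (∀ h ∈ S, ∃ j, (splitFun p m a Φ).1 j ⬝ᵥ (fun l => (h l : ZMod p)) ≠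
        (splitFun p m a Φ).2 j) := by
    refine forall₂_congr fun h _ => exists_congr fun j => not_congr ?_
    rw [dot_homZ]
    change _ ↔ (fun l : Fin m => Φ j l.succ) ⬝ᵥ (fun l => (h l : ZMod p)) = - Φ j 0
    rw [eq_neg_iff_add_eq_zero, add_comm]
  by_cases h : ∀ h ∈ S, ∃ j, Φ j ⬝ᵥ homZ p h ≠ 0
  · rw [if_pos h, if_pos (e.1 h)]
  · rw [if_neg h, if_neg (fun h' => h (e.2 h'))]

/-- preimages under a surjective homomorphism of finite groups -/
theorem ncard_preimage_mul {G H : Type*} [AddGroup G] [AddGroup H] [Fintype G] [Fintype H]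
    (f : G →+ H) (hf : Function.Surjective f) (T : Set H) :
    (f ⁻¹' T).ncard * Fintype.card H = T.ncard * Fintype.card G := by
  classical
  have key : ∀ U : Finset H, (Finset.univ.filter (fun g => f g ∈ U)).card
      = U.card * (Finset.univ.filter (fun g => f g = 0)).card := by
    intro U
    rw [Finset.card_eq_sum_card_fiberwise (f := f) (s := Finset.univ.filter (fun g => f g ∈ U))
      (t := U) (fun g hg => by simpa using hg)]
    rw [Finset.sum_const_nat (m := (Finset.univ.filter (fun g => f g = 0)).card)]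
    intro x hx
    rw [Finset.filter_filter]
    have h1 := AddMonoidHom.card_fiber_eq_of_mem_range f (x := x) (y := 0) (hf x) (hf 0)
    rw [← h1]
    congr 1
    ext g
    simp only [Finset.mem_filter, Finset.mem_univ, true_and]
    constructor
    · exact fun h => h.2
    · exact fun h => ⟨h ▸ hx, h⟩
  have h1 := key T.toFinset
  have h2 := key Finset.univ
  simp only [Finset.mem_univ, Finset.filter_true, Finset.card_univ] at h2
  have h3 : (f ⁻¹' T).ncard = (Finset.univ.filter (fun g => f g ∈ T.toFinset)).card := by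
    rw [Set.ncard_eq_toFinset_card']
    congr 1
    ext g
    simp
  rw [h3, h1, h2, Set.ncard_eq_toFinset_card' T]
  ring

/-- M19 -/
theorem exists_functionals {p m a : ℕ} [Fact p.Prime] {ι : Type} [Fintype ι] [Nonempty ι]
    (S : ι → Finset (Fin m → ℤ)) (ε : ℝ) (hε : ε * Fintype.card ι < 1 / 2)
    (hS : ∀ i, ({Φ : Fin a → FV p (m + 1) | ∀ h ∈ S i, ∃ j, Φ j ⬝ᵥ homZ p h ≠ 0}.ncard : ℝ)
      ≤ ε * ((p : ℝ) ^ (m + 1)) ^ a) :
    ∃ Φ : Fin a → FV p m, (Function.Surjective fun (z : FV p m) (j : Fin a) => Φ j ⬝ᵥ z) ∧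
      ∀ i, ({z : FV p m | ∀ h ∈ S i, ∃ j, Φ j ⬝ᵥ (fun l => (h l : ZMod p)) ≠ Φ j ⬝ᵥ z}.ncard : ℝ)
        ≤ (ε * Fintype.card ι) * (p : ℝ) ^ m := by
  classical
  have hp : p.Prime := Fact.out
  have hp0 : (0 : ℝ) < p := by exact_mod_cast hp.pos
  let bad : (Fin a → FV p m) → ι → ℕ := fun φ i =>
    {c : Fin a → ZMod p | ∀ h ∈ S i, ∃ j, φ j ⬝ᵥ (fun l => (h l : ZMod p)) ≠ c j}.ncard
  -- averaging
  obtain ⟨φ, hφ⟩ : ∃ φ : Fin a → FV p m,
      ((∑ i, bad φ i : ℕ) : ℝ) ≤ ε * Fintype.card ι * (p : ℝ) ^ a := by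
    by_contra hcon
    push Not at hcon
    have h1 : ∑ _φ : Fin a → FV p m, ε * Fintype.card ι * (p : ℝ) ^ a
        < ∑ φ : Fin a → FV p m, ((∑ i, bad φ i : ℕ) : ℝ) :=
      Finset.sum_lt_sum_of_nonempty Finset.univ_nonempty fun φ _ => hcon φ
    have h2 : ∑ φ : Fin a → FV p m, ((∑ i, bad φ i : ℕ) : ℝ)
        ≤ ∑ _i : ι, ε * ((p : ℝ) ^ (m + 1)) ^ a := by
      push_cast
      rw [Finset.sum_comm]
      refine Finset.sum_le_sum fun i _ => ?_
      have h3 := sum_bad (p := p) (m := m) (a := a) (S i)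
      have h4 : ∑ φ : Fin a → FV p m, (bad φ i : ℝ)
          = ({Φ : Fin a → FV p (m + 1) | ∀ h ∈ S i, ∃ j, Φ j ⬝ᵥ homZ p h ≠ 0}.ncard : ℝ) := by
        rw [← h3]
        push_cast
        rfl
      rw [h4]
      exact hS i
    rw [Finset.sum_const, Finset.card_univ, nsmul_eq_mul] at h1 h2
    have h3 : (Fintype.card (Fin a → FV p m) : ℝ) = ((p : ℝ) ^ m) ^ a := by
      simp [ZMod.card]
    rw [h3] at h1
    have h4 := h1.trans_le h2
    apply absurd h4
    apply not_lt.2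
    apply le_of_eq
    rw [pow_succ (p : ℝ) m, mul_pow]
    ring
  have hφ' : ((∑ i, bad φ i : ℕ) : ℝ) < 1 / 2 * (p : ℝ) ^ a :=
    hφ.trans_lt (mul_lt_mul_of_pos_right hε (pow_pos hp0 a))
  let f : FV p m →+ (Fin a → ZMod p) :=
    { toFun := fun z j => φ j ⬝ᵥ z
      map_zero' := by funext j; simp
      map_add' := fun x y => by funext j; simp [dotProduct_add] }
  have hcC : (Fintype.card (Fin a → ZMod p) : ℝ) = (p : ℝ) ^ a := by simp [ZMod.card]
  have hcV : (Fintype.card (FV p m) : ℝ) = (p : ℝ) ^ m := by simp [ZMod.card]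
  have hf : Function.Surjective f := by
    by_contra hns
    have hne : f.range ≠ ⊤ := fun h => hns (AddMonoidHom.range_eq_top.1 h)
    have hidx := AddSubgroup.one_lt_index_of_ne_top hne
    have hcard := f.range.card_mul_index
    obtain ⟨i⟩ := ‹Nonempty ι›
    have h1 : ((f.range : Set (Fin a → ZMod p))ᶜ).ncard ≤ bad φ i := by
      refine Set.ncard_le_ncard ?_ (Set.toFinite _)
      intro c hc h _
      by_contra hcon
      push Not at hcon
      exact hc ⟨fun l => (h l : ZMod p), funext fun j => hcon j⟩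
    have h2 : bad φ i ≤ ∑ i, bad φ i := Finset.single_le_sum (fun _ _ => Nat.zero_le _)
      (Finset.mem_univ i)
    have h3 := Set.ncard_add_ncard_compl (f.range : Set (Fin a → ZMod p))
    have h4 : (f.range : Set (Fin a → ZMod p)).ncard = Nat.card f.range := rfl
    rw [h4] at h3
    have h5 : 2 * Nat.card f.range ≤ Nat.card (Fin a → ZMod p) := by
      rw [← hcard]
      nlinarith [Nat.card_pos (α := f.range)]
    have h6 : Nat.card (Fin a → ZMod p) ≤ 2 * ∑ i, bad φ i := by omega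
    have h7 : ((Nat.card (Fin a → ZMod p) : ℕ) : ℝ) = (p : ℝ) ^ a := by
      rw [Nat.card_eq_fintype_card, hcC]
    have h8 : ((Nat.card (Fin a → ZMod p) : ℕ) : ℝ) ≤ 2 * ((∑ i, bad φ i : ℕ) : ℝ) := by
      exact_mod_cast h6
    rw [h7] at h8
    linarith
  refine ⟨φ, hf, fun i => ?_⟩
  have h1 := ncard_preimage_mul f hf
    {c : Fin a → ZMod p | ∀ h ∈ S i, ∃ j, φ j ⬝ᵥ (fun l => (h l : ZMod p)) ≠ c j}
  have h2 : ((({z : FV p m | ∀ h ∈ S i, ∃ j, φ j ⬝ᵥ (fun l => (h l : ZMod p)) ≠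
      φ j ⬝ᵥ z}.ncard : ℕ)) : ℝ) * (p : ℝ) ^ a = (bad φ i : ℝ) * (p : ℝ) ^ m := by
    rw [← hcC, ← hcV]
    exact_mod_cast h1
  have h3 : (bad φ i : ℝ) ≤ ε * Fintype.card ι * (p : ℝ) ^ a := by
    refine le_trans ?_ hφ
    exact_mod_cast Finset.single_le_sum (f := fun i => bad φ i) (fun _ _ => Nat.zero_le _)
      (Finset.mem_univ i)
  have h4 : (0 : ℝ) < (p : ℝ) ^ a := pow_pos hp0 a
  refine le_of_mul_le_mul_right ?_ h4
  rw [h2]
  calc (bad φ i : ℝ) * (p : ℝ) ^ m ≤ (ε * Fintype.card ι * (p : ℝ) ^ a) * (p : ℝ) ^ m :=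
        mul_le_mul_of_nonneg_right h3 (pow_nonneg hp0.le m)
    _ = _ := by ring

end Vale.Agent.P230
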