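import Mathlib

/-!
# P230, lattice half, module M21: the final numerics
-/

namespace Vale.Agent.P230

/-- The bound for the integer heights. -/
def Rbd (n k : ℕ) : ℕ := 1152 * 32 ^ k * n ^ (2 * k + 2)

namespace NumFinal

open Filter Real

theorem two_Rbd_le {n k : ℕ} (hn : 2305 ≤ n) (hk : 2 ^ k ≤ n) :
    2 * Rbd n k + 1 ≤ n ^ (2 * k + 8) := by
  unfold Rbd
  have h32 : 32 ^ k ≤ n ^ 5 := by
    calc 32 ^ k = (2 ^ k) ^ 5 := by rw [← pow_mul, mul_comm k 5, pow_mul]; norm_num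
      _ ≤ n ^ 5 := Nat.pow_le_pow_left hk 5
  have h1 : 1 ≤ n ^ 5 * n ^ (2 * k + 2) := Nat.one_le_iff_ne_zero.2 (by positivity)
  calc 2 * (1152 * 32 ^ k * n ^ (2 * k + 2)) + 1
      ≤ 2304 * (n ^ 5 * n ^ (2 * k + 2)) + n ^ 5 * n ^ (2 * k + 2) := by
        have : 2 * (1152 * 32 ^ k * n ^ (2 * k + 2)) = 2304 * (32 ^ k * n ^ (2 * k + 2)) := by ring
        rw [this]
        gcongr
    _ = 2305 * (n ^ 5 * n ^ (2 * k + 2)) := by ring
    _ ≤ n * (n ^ 5 * n ^ (2 * k + 2)) := by gcongr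
    _ = n ^ (2 * k + 8) := by ring

theorem a_le {n k : ℕ} (hn : 2305 ≤ n) (hk : 2 ^ k ≤ n) :
    3 * n ^ 2 * (2 * Rbd n k + 1) ≤ n ^ (2 * k + 11) := by
  calc 3 * n ^ 2 * (2 * Rbd n k + 1) ≤ n * n ^ 2 * n ^ (2 * k + 8) := by
        gcongr
        · omega
        · exact two_Rbd_le hn hk
    _ = n ^ (2 * k + 11) := by ring

theorem ab_le {n k : ℕ} (hn : 2305 ≤ n) (hk : 2 ^ k ≤ n) (hk1 : 1 ≤ k) :
    ((3 * n ^ 2 * (2 * Rbd n k + 1) : ℕ) : ℝ) ^ k * ((2 * Rbd n k + 1 : ℕ) : ℝ) ^ k ≤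
      exp (23 * k ^ 2 * log n) := by
  have hn0 : (0 : ℝ) < n := by
    have : 0 < n := by omega
    exact_mod_cast this
  have h1 : (3 * n ^ 2 * (2 * Rbd n k + 1)) ^ k * (2 * Rbd n k + 1) ^ k ≤ n ^ (23 * k ^ 2) := by
    calc (3 * n ^ 2 * (2 * Rbd n k + 1)) ^ k * (2 * Rbd n k + 1) ^ k
        ≤ (n ^ (2 * k + 11)) ^ k * (n ^ (2 * k + 8)) ^ k := by
          gcongr
          · exact a_le hn hk
          · exact two_Rbd_le hn hk
      _ = n ^ (k * (4 * k + 19)) := by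
          rw [← pow_mul, ← pow_mul, ← pow_add]
          congr 1
          ring
      _ ≤ n ^ (23 * k ^ 2) := by
          apply Nat.pow_le_pow_right (by omega)
          nlinarith
  have h2 : (((3 * n ^ 2 * (2 * Rbd n k + 1)) ^ k * (2 * Rbd n k + 1) ^ k : ℕ) : ℝ) ≤
      ((n ^ (23 * k ^ 2) : ℕ) : ℝ) := by exact_mod_cast h1
  have h3 : ((n ^ (23 * k ^ 2) : ℕ) : ℝ) = exp (23 * k ^ 2 * log n) := by
    rw [Nat.cast_pow, ← Real.rpow_natCast, Real.rpow_def_of_pos hn0]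
    congr 1
    push_cast
    ring
  rw [h3] at h2
  refine le_trans (le_of_eq ?_) h2
  push_cast
  ring

/-- choice of `k` -/
theorem exists_k {Y : ℝ} (hY : 1 < Y) : ∃ k : ℕ, 1 ≤ k ∧ Y ≤ (2 : ℝ) ^ k ∧ (2 : ℝ) ^ k ≤ 2 * Y := by
  have hex : ∃ k : ℕ, Y ≤ (2 : ℝ) ^ k := by
    obtain ⟨k, hk⟩ := pow_unbounded_of_one_lt Y (one_lt_two : (1 : ℝ) < 2)
    exact ⟨k, hk.le⟩
  classical
  set k := Nat.find hex with hk
  have h1 : Y ≤ (2 : ℝ) ^ k := Nat.find_spec hex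
  have hk1 : 1 ≤ k := by
    by_contra hcon
    have : k = 0 := by omega
    rw [this, pow_zero] at h1
    linarith
  refine ⟨k, hk1, h1, ?_⟩
  have h2 : ¬ Y ≤ (2 : ℝ) ^ (k - 1) := Nat.find_min hex (by omega)
  have h3 : (2 : ℝ) ^ k = 2 * 2 ^ (k - 1) := by
    rw [← pow_succ']
    congr 1
    omega
  rw [h3]
  linarith [not_le.1 h2]

theorem eventually_log_pow (j : ℕ) {c : ℝ} (hc : 0 < c) :
    ∀ᶠ n : ℕ in atTop, (log n) ^ j ≤ c * n := by
  have h := (isLittleO_pow_log_id_atTop (n := j)).def hc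
  have h2 := tendsto_natCast_atTop_atTop (R := ℝ) |>.eventually h
  filter_upwards [h2] with n hn
  simp only [norm_eq_abs, id_eq, Nat.abs_cast] at hn
  exact (le_abs_self _).trans hn

theorem eventually_pow_le : ∀ᶠ m : ℕ in atTop, 512 * m ^ 8 ≤ 2 ^ m := by
  have h := (isLittleO_pow_const_const_pow_of_one_lt (R := ℝ) 8 (one_lt_two : (1 : ℝ) < 2)).def
    (show (0 : ℝ) < 1 / 512 by norm_num)
  filter_upwards [h] with m hm
  simp only [norm_pow, norm_natCast, norm_ofNat] at hm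
  have : (512 : ℝ) * m ^ 8 ≤ 2 ^ m := by linarith
  exact_mod_cast this

end NumFinal

open NumFinal Filter in
/-- M21 -/
theorem num_final (c₀ : ℝ) (hc₀ : 0 < c₀) (m₀ : ℕ) : ∃ C : ℝ, 0 < C ∧
    ∀ᶠ n : ℕ in Filter.atTop, ∃ m k : ℕ, n = m + k ∧ 1 ≤ k ∧ m₀ ≤ m ∧ 100 ≤ m ∧ n ≤ 2 * m ∧
      8 * Real.exp k ≤ (n : ℝ) ^ 8 ∧ 2 * n ^ 8 ≤ m ^ 10 ∧ 2 * n ^ 8 ≤ 2 ^ m ∧
      ((((3 * n ^ 2 * (2 * Rbd n k + 1) : ℕ) : ℝ) ^ k
        * (Real.exp (-(c₀ * m / Real.log m)) * ((2 * Rbd n k + 1 : ℕ) : ℝ) ^ k)) ^ (2 ^ k)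
        * (2 * (n : ℝ) ^ 8) ^ m < 1) ∧
      512 * (m : ℝ) * 32 ^ k ≤ C * n * (Real.log n) ^ 10 := by
  set C₁ : ℝ := 20 / c₀ with hC₁
  have hC₁0 : 0 < C₁ := by positivity
  refine ⟨512 * (2 * C₁) ^ 5, by positivity, ?_⟩
  obtain ⟨M₁, hM₁⟩ := eventually_atTop.1 eventually_pow_le
  have hlogtop : Tendsto (fun n : ℕ => Real.log n) atTop atTop :=
    Real.tendsto_log_atTop.comp tendsto_natCast_atTop_atTop
  have hsq : ∀ᶠ n : ℕ in atTop, 1 < C₁ * (Real.log n) ^ 2 := by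
    have h1 : Tendsto (fun n : ℕ => C₁ * (Real.log n) ^ 2) atTop atTop :=
      Tendsto.const_mul_atTop hC₁0 ((tendsto_pow_atTop two_ne_zero).comp hlogtop)
    exact h1.eventually_gt_atTop 1
  filter_upwards [eventually_log_pow 2 (show (0 : ℝ) < 1 / (4 * C₁) by positivity),
    eventually_log_pow 6 (show (0 : ℝ) < c₀ / (4 * 92 * C₁ ^ 2) by positivity), hsq,
    eventually_ge_atTop (max 2305 (2 * (max (max m₀ 100) M₁)))] with n hE1 hE2 hY hnbig
  have hn1 : 2305 ≤ n := (le_max_left _ _).trans hnbig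
  have hn2 : 2 * (max (max m₀ 100) M₁) ≤ n := (le_max_right _ _).trans hnbig
  set x := Real.log n with hx
  obtain ⟨k, hk1, hk2, hk3⟩ := exists_k hY
  have hn0 : (0 : ℝ) < n := by
    have : 0 < n := by omega
    exact_mod_cast this
  have hx1 : 1 ≤ x := by
    rw [hx, Real.le_log_iff_exp_le hn0]
    have h1 : Real.exp 1 < 3 := by
      have := Real.exp_one_lt_d9
      linarith
    have h2 : (2305 : ℝ) ≤ n := by exact_mod_cast hn1
    linarith
  have h2k : (2 : ℝ) ^ k ≤ n / 2 := by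
    have h1 : x ^ 2 ≤ 1 / (4 * C₁) * n := hE1
    calc (2 : ℝ) ^ k ≤ 2 * (C₁ * x ^ 2) := hk3
      _ ≤ 2 * (C₁ * (1 / (4 * C₁) * n)) := by gcongr
      _ = n / 2 := by field_simp; ring
  have h2kn : 2 ^ k ≤ n := by
    have : (2 : ℝ) ^ k ≤ n := by linarith
    exact_mod_cast this
  have hkn : 2 * k ≤ n := by
    have h1 : (k : ℝ) < 2 ^ k := by exact_mod_cast Nat.lt_two_pow_self
    have h2 : (2 : ℝ) * k ≤ n := by linarith
    exact_mod_cast h2
  refine ⟨n - k, k, by omega, hk1, ?_, ?_, by omega, ?_, ?_, ?_, ?_, ?_⟩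
  · have : m₀ ≤ max (max m₀ 100) M₁ := (le_max_left _ _).trans (le_max_left _ _)
    omega
  · have : 100 ≤ max (max m₀ 100) M₁ := (le_max_right _ _).trans (le_max_left _ _)
    omega
  · -- `8 e^k ≤ n^8`
    have h1 : Real.exp k ≤ (n : ℝ) ^ 2 := by
      calc Real.exp k = Real.exp 1 ^ k := by rw [← Real.exp_nat_mul, mul_one]
        _ ≤ 4 ^ k := by
            gcongr
            have := Real.exp_one_lt_d9
            linarith
        _ = ((2 : ℝ) ^ k) ^ 2 := by rw [← pow_mul, mul_comm k 2, pow_mul]; norm_num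
        _ ≤ (n : ℝ) ^ 2 := by
            gcongr
            linarith
    have h2 : (8 : ℝ) ≤ (n : ℝ) ^ 6 := by
      have : (2305 : ℝ) ≤ n := by exact_mod_cast hn1
      calc (8 : ℝ) ≤ 2305 ^ 6 := by norm_num
        _ ≤ (n : ℝ) ^ 6 := by gcongr
    calc 8 * Real.exp k ≤ (n : ℝ) ^ 6 * (n : ℝ) ^ 2 := by gcongr
      _ = (n : ℝ) ^ 8 := by ring
  · -- `2 n^8 ≤ m^10`
    set m := n - k with hm
    have h1 : n ≤ 2 * m := by omega
    have h2 : 2048 ≤ n ^ 2 := by nlinarith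
    have h3 : 1024 * (2 * n ^ 8) ≤ 1024 * m ^ 10 := by
      calc 1024 * (2 * n ^ 8) = 2048 * n ^ 8 := by ring
        _ ≤ n ^ 2 * n ^ 8 := by gcongr
        _ = n ^ 10 := by ring
        _ ≤ (2 * m) ^ 10 := by gcongr
        _ = 1024 * m ^ 10 := by ring
    omega
  · -- `2 n^8 ≤ 2^m`
    set m := n - k with hm
    have h1 : n ≤ 2 * m := by omega
    have h2 : M₁ ≤ m := by
      have : M₁ ≤ max (max m₀ 100) M₁ := le_max_right _ _
      omega
    calc 2 * n ^ 8 ≤ 2 * (2 * m) ^ 8 := by gcongr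
      _ = 512 * m ^ 8 := by ring
      _ ≤ 2 ^ m := hM₁ m h2
  · -- the main inequality
    set m := n - k with hm
    have hmn : m ≤ n := Nat.sub_le _ _
    have h1 : n ≤ 2 * m := by omega
    have hm100 : 100 ≤ m := by omega
    have hm0 : (0 : ℝ) < m := by
      have : 0 < m := by omega
      exact_mod_cast this
    have hlogm : 0 < Real.log m := Real.log_pos (by
      have : 1 < m := by omega
      exact_mod_cast this)
    have hlogmn : Real.log m ≤ x := Real.log_le_log hm0 (by exact_mod_cast hmn)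
    have hx0 : 0 < x := by linarith
    set q : ℝ := m / Real.log m with hq
    have hq0 : 0 < q := by positivity
    have hqx : (m : ℝ) / x ≤ q := by
      rw [hq]
      gcongr
    have hab := ab_le hn1 h2kn hk1
    have hkk : 23 * (k : ℝ) ^ 2 * x ≤ c₀ / 2 * q := by
      have h3 : (k : ℝ) ≤ 2 * (C₁ * x ^ 2) := by
        have h4 : (k : ℝ) < 2 ^ k := by exact_mod_cast Nat.lt_two_pow_self
        linarith
      have hk0 : (0 : ℝ) ≤ k := Nat.cast_nonneg k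
      have h5 : (k : ℝ) ^ 2 ≤ 4 * C₁ ^ 2 * x ^ 4 := by
        calc (k : ℝ) ^ 2 ≤ (2 * (C₁ * x ^ 2)) ^ 2 := by gcongr
          _ = 4 * C₁ ^ 2 * x ^ 4 := by ring
      have h6 : 23 * (k : ℝ) ^ 2 * x * x ≤ c₀ / 2 * m := by
        have h7 : x ^ 6 ≤ c₀ / (4 * 92 * C₁ ^ 2) * n := hE2
        have h8 : (n : ℝ) ≤ 2 * m := by exact_mod_cast h1
        calc 23 * (k : ℝ) ^ 2 * x * x ≤ 23 * (4 * C₁ ^ 2 * x ^ 4) * x * x := by gcongr
          _ = 92 * C₁ ^ 2 * x ^ 6 := by ring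
          _ ≤ 92 * C₁ ^ 2 * (c₀ / (4 * 92 * C₁ ^ 2) * n) := by gcongr
          _ = c₀ / 4 * n := by field_simp
          _ ≤ c₀ / 4 * (2 * m) := by gcongr
          _ = c₀ / 2 * m := by ring
      calc 23 * (k : ℝ) ^ 2 * x ≤ c₀ / 2 * m / x := by
            rw [le_div_iff₀ hx0]
            exact h6
        _ = c₀ / 2 * (m / x) := by ring
        _ ≤ c₀ / 2 * q := by gcongr
    have hbr : (((3 * n ^ 2 * (2 * Rbd n k + 1) : ℕ) : ℝ) ^ k
        * (Real.exp (-(c₀ * m / Real.log m)) * ((2 * Rbd n k + 1 : ℕ) : ℝ) ^ k)) ≤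
        Real.exp (-(c₀ / 2 * q)) := by
      calc (((3 * n ^ 2 * (2 * Rbd n k + 1) : ℕ) : ℝ) ^ k
        * (Real.exp (-(c₀ * m / Real.log m)) * ((2 * Rbd n k + 1 : ℕ) : ℝ) ^ k))
          = (((3 * n ^ 2 * (2 * Rbd n k + 1) : ℕ) : ℝ) ^ k * ((2 * Rbd n k + 1 : ℕ) : ℝ) ^ k) *
            Real.exp (-(c₀ * m / Real.log m)) := by ring
        _ ≤ Real.exp (23 * k ^ 2 * x) * Real.exp (-(c₀ * m / Real.log m)) := by gcongr
        _ = Real.exp (23 * k ^ 2 * x - c₀ * q) := by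
            rw [← Real.exp_add, hq]
            congr 1
            ring
        _ ≤ Real.exp (-(c₀ / 2 * q)) := by
            apply Real.exp_le_exp.2
            linarith
    have hbr0 : 0 ≤ (((3 * n ^ 2 * (2 * Rbd n k + 1) : ℕ) : ℝ) ^ k
        * (Real.exp (-(c₀ * m / Real.log m)) * ((2 * Rbd n k + 1 : ℕ) : ℝ) ^ k)) := by positivity
    have hn8 : 2 * (n : ℝ) ^ 8 ≤ Real.exp (9 * x) := by
      have h3 : Real.exp (9 * x) = (n : ℝ) ^ 9 := by
        have : (9 : ℝ) * x = ((9 : ℕ) : ℝ) * x := by norm_num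
        rw [this, Real.exp_nat_mul, hx, Real.exp_log hn0]
      rw [h3]
      have : (2 : ℝ) ≤ n := by
        have : 2 ≤ n := by omega
        exact_mod_cast this
      calc 2 * (n : ℝ) ^ 8 ≤ n * (n : ℝ) ^ 8 := by gcongr
        _ = (n : ℝ) ^ 9 := by ring
    calc _ ≤ (Real.exp (-(c₀ / 2 * q))) ^ (2 ^ k) * (Real.exp (9 * x)) ^ m := by
          gcongr
      _ = Real.exp (-(2 ^ k * (c₀ / 2 * q)) + m * (9 * x)) := by
          rw [← Real.exp_nat_mul, ← Real.exp_nat_mul, ← Real.exp_add]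
          congr 1
          push_cast
          ring
      _ < 1 := by
          rw [Real.exp_lt_one_iff]
          have h3 : (m : ℝ) * (10 * x) ≤ 2 ^ k * (c₀ / 2 * q) := by
            calc (m : ℝ) * (10 * x) = C₁ * x ^ 2 * (c₀ / 2 * (m / x)) := by
                  rw [hC₁]
                  field_simp
                  ring
              _ ≤ 2 ^ k * (c₀ / 2 * q) := by gcongr
          have h4 : 0 < (m : ℝ) * x := by positivity
          nlinarith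
  · -- the last inequality
    have hmn : ((n - k : ℕ) : ℝ) ≤ n := by exact_mod_cast Nat.sub_le _ _
    have h32 : (32 : ℝ) ^ k = ((2 : ℝ) ^ k) ^ 5 := by
      rw [← pow_mul, mul_comm k 5, pow_mul]; norm_num
    have hx0 : 0 < x := by linarith
    calc 512 * ((n - k : ℕ) : ℝ) * 32 ^ k ≤ 512 * n * (2 * (C₁ * x ^ 2)) ^ 5 := by
          rw [h32]
          gcongr
      _ = 512 * (2 * C₁) ^ 5 * n * x ^ 10 := by ring

end Vale.Agent.P230
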