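import Vale.Agent.Lib.P230L.Cover
import Vale.Agent.Lib.P230L.NumFinal

/-!
# P230, lattice half: bounds for the integer heights
-/

namespace Vale.Agent.P230

open MeasureTheory Set
open scoped ENNReal Pointwise

/-- The layer distances are not too small. -/
lemma h_lower {n k : ℕ} (hn : 1 ≤ n) (h : Fin k → ℝ) (hh : ∀ j, 0 < h j)
    (hB : ∀ j, h j ≤ 6 * n) (hprod : (3 / 32 : ℝ) ^ k * ((2 / (n : ℝ)) ^ k / 64) ≤ ∏ j, h j)
    (j : Fin k) : 18 * (n : ℝ) ^ 3 / h j ≤ Rbd n k := by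
  have hn0 : (0 : ℝ) < n := by exact_mod_cast hn
  have hk : 1 ≤ k := by have := j.2; omega
  have h1 : ∏ j, h j ≤ h j * (6 * n) ^ (k - 1) := by
    rw [← Finset.mul_prod_erase Finset.univ h (Finset.mem_univ j)]
    apply mul_le_mul_of_nonneg_left _ (hh j).le
    calc ∏ i ∈ Finset.univ.erase j, h i ≤ ∏ i ∈ Finset.univ.erase j, (6 * (n : ℝ)) :=
          Finset.prod_le_prod (fun i _ => (hh i).le) fun i _ => hB i
      _ = (6 * n) ^ (k - 1) := by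
          rw [Finset.prod_const, Finset.card_erase_of_mem (Finset.mem_univ j), Finset.card_univ,
            Fintype.card_fin]
  have h2 := hprod.trans h1
  rw [div_le_iff₀ (hh j)]
  -- `64 (32/3)^k (n/2)^k (6n)^(k-1) h_j ≥ 1`
  have h3 : 1 ≤ 64 * ((32 / 3 : ℝ) ^ k * (n / 2) ^ k) * (h j * (6 * n) ^ (k - 1)) := by
    calc (1 : ℝ) = 64 * ((32 / 3 : ℝ) ^ k * (n / 2) ^ k) *
          ((3 / 32 : ℝ) ^ k * ((2 / (n : ℝ)) ^ k / 64)) := by
          have e1 : (32 / 3 : ℝ) ^ k * (3 / 32) ^ k = 1 := by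
            rw [← mul_pow]; norm_num
          have e2 : ((n : ℝ) / 2) ^ k * (2 / n) ^ k = 1 := by
            rw [← mul_pow]
            have : (n : ℝ) / 2 * (2 / n) = 1 := by field_simp
            rw [this, one_pow]
          calc (1 : ℝ) = ((32 / 3 : ℝ) ^ k * (3 / 32) ^ k) * (((n : ℝ) / 2) ^ k * (2 / n) ^ k) := by
                rw [e1, e2, one_mul]
            _ = _ := by ring
      _ ≤ _ := mul_le_mul_of_nonneg_left h2 (by positivity)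
  have h4 : 64 * ((32 / 3 : ℝ) ^ k * (n / 2) ^ k) * (6 * n) ^ (k - 1) ≤
      64 * 32 ^ k * n ^ (2 * k - 1) := by
    have e1 : (6 * (n : ℝ)) ^ (k - 1) ≤ 6 ^ k * n ^ (k - 1) := by
      rw [mul_pow]
      apply mul_le_mul_of_nonneg_right _ (by positivity)
      exact pow_le_pow_right₀ (by norm_num) (by omega)
    calc 64 * ((32 / 3 : ℝ) ^ k * (n / 2) ^ k) * (6 * n) ^ (k - 1)
        ≤ 64 * ((32 / 3 : ℝ) ^ k * (n / 2) ^ k) * (6 ^ k * n ^ (k - 1)) :=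
          mul_le_mul_of_nonneg_left e1 (by positivity)
      _ = 64 * ((32 / 3 : ℝ) ^ k * (1 / 2) ^ k * 6 ^ k) * (n ^ k * n ^ (k - 1)) := by
          rw [div_pow (n : ℝ) 2 k, one_div, inv_pow]; ring
      _ = 64 * 32 ^ k * n ^ (2 * k - 1) := by
          rw [← mul_pow, ← mul_pow, ← pow_add]
          have e2 : k + (k - 1) = 2 * k - 1 := by omega
          rw [e2]
          norm_num
  have h5 : 18 * (n : ℝ) ^ 3 ≤ 18 * (n : ℝ) ^ 3 * ((64 * 32 ^ k * n ^ (2 * k - 1)) * h j) := by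
    have : 1 ≤ (64 * 32 ^ k * (n : ℝ) ^ (2 * k - 1)) * h j := by
      calc (1 : ℝ) ≤ 64 * ((32 / 3 : ℝ) ^ k * (n / 2) ^ k) * (h j * (6 * n) ^ (k - 1)) := h3
        _ = (64 * ((32 / 3 : ℝ) ^ k * (n / 2) ^ k) * (6 * n) ^ (k - 1)) * h j := by ring
        _ ≤ _ := mul_le_mul_of_nonneg_right h4 (hh j).le
    nlinarith [pow_pos hn0 3]
  refine h5.trans (le_of_eq ?_)
  have e3 : 3 + (2 * k - 1) = 2 * k + 2 := by omega
  unfold Rbd
  push_cast
  calc 18 * (n : ℝ) ^ 3 * ((64 * 32 ^ k * n ^ (2 * k - 1)) * h j)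
      = 1152 * 32 ^ k * (n ^ 3 * n ^ (2 * k - 1)) * h j := by ring
    _ = _ := by rw [← pow_add, e3]

lemma ht_bound {n k : ℕ} (hn : 1 ≤ n) (h : Fin k → ℝ) (hh : ∀ j, 0 < h j)
    (hB : ∀ j, h j ≤ 6 * n) (hprod : (3 / 32 : ℝ) ^ k * ((2 / (n : ℝ)) ^ k / 64) ≤ ∏ j, h j)
    (τ : Fin k → ℤ) (hτ : ∀ j, |ht h (3 * n ^ 2) τ j| ≤ 6 * n) (j : Fin k) :
    |τ j| ≤ (Rbd n k : ℤ) := by
  have hn0 : (0 : ℝ) < n := by exact_mod_cast hn
  have h1 := hτ j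
  unfold ht at h1
  push_cast at h1
  rw [abs_div, abs_mul, abs_of_pos (hh j), abs_of_pos (by positivity : (0 : ℝ) < 3 * n ^ 2),
    div_le_iff₀ (by positivity)] at h1
  have h2 : |(τ j : ℝ)| ≤ 18 * (n : ℝ) ^ 3 / h j := by
    rw [le_div_iff₀ (hh j)]
    calc |(τ j : ℝ)| * h j ≤ 6 * n * (3 * n ^ 2) := h1
      _ = 18 * (n : ℝ) ^ 3 := by ring
  have h3 := h2.trans (h_lower hn h hh hB hprod j)
  exact_mod_cast h3

end Vale.Agent.P230
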