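import Vale.Agent.Lib.P230L.DefsL

/-!
# P230, lattice half, module M13: the doubling lemma for layers
-/

namespace Vale.Agent.P230

open Set

/-- The number of pairs `(w, z)` with `z - t w ∈ A` and `z - (t+1) w ∈ B`, as a sum over `w`. -/
theorem layer_pair {G : Type} [AddCommGroup G] [Fintype G] (A B : Set G) (t : ℤ) :
    ∑ w : G, (({z : G | z - t • w ∈ A ∧ z - (t + 1) • w ∈ B}.ncard : ℕ) : ℝ)
      ≤ (A.ncard : ℝ) * B.ncard := by
  classical
  have h1 : ∀ w : G, ({z : G | z - t • w ∈ A ∧ z - (t + 1) • w ∈ B}.ncard : ℕ)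
      = (Finset.univ.filter (fun z : G => z - t • w ∈ A ∧ z - (t + 1) • w ∈ B)).card := by
    intro w
    rw [Set.ncard_eq_toFinset_card']
    congr 1
    ext z
    simp
  have hA : A.ncard = (Finset.univ.filter (fun z : G => z ∈ A)).card := by
    rw [Set.ncard_eq_toFinset_card']
    congr 1
    ext z
    simp
  have hB : B.ncard = (Finset.univ.filter (fun z : G => z ∈ B)).card := by
    rw [Set.ncard_eq_toFinset_card']
    congr 1
    ext z
    simp
  have h2 : ∑ w : G, (Finset.univ.filter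
      (fun z : G => z - t • w ∈ A ∧ z - (t + 1) • w ∈ B)).card
      ≤ (Finset.univ.filter (fun z : G => z ∈ A)).card
        * (Finset.univ.filter (fun z : G => z ∈ B)).card := by
    rw [← Finset.card_sigma, ← Finset.card_product]
    refine Finset.card_le_card_of_injOn
      (fun x : (Σ _ : G, G) => (x.2 - t • x.1, x.2 - (t + 1) • x.1)) ?_ ?_
    · intro x hx
      simp only [Finset.coe_sigma, Finset.coe_univ, Set.mem_sigma_iff, Set.mem_univ,
        Finset.coe_filter, Finset.mem_univ, true_and, Set.mem_setOf_eq] at hx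
      simp only [Finset.coe_product, Finset.coe_filter, Finset.mem_univ, true_and,
        Set.mem_prod, Set.mem_setOf_eq]
      exact hx
    · intro x _ y _ hxy
      obtain ⟨w, z⟩ := x
      obtain ⟨w', z'⟩ := y
      simp only [Prod.mk.injEq] at hxy
      obtain ⟨e1, e2⟩ := hxy
      have e3 : w = w' := by
        have h3 : (z - t • w) - (z - (t + 1) • w) = (z' - t • w') - (z' - (t + 1) • w') := by
          rw [e1, e2]
        have h4 : ∀ (a b : G), (a - t • b) - (a - (t + 1) • b) = b := by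
          intro a b
          rw [add_smul, one_smul]
          abel
        rwa [h4, h4] at h3
      subst e3
      have e4 : z = z' := by
        have := congrArg (fun u => u + t • w) e1
        simpa using this
      subst e4
      rfl
  calc ∑ w : G, (({z : G | z - t • w ∈ A ∧ z - (t + 1) • w ∈ B}.ncard : ℕ) : ℝ)
      = ((∑ w : G, (Finset.univ.filter
          (fun z : G => z - t • w ∈ A ∧ z - (t + 1) • w ∈ B)).card : ℕ) : ℝ) := by
        push_cast
        refine Finset.sum_congr rfl (fun w _ => ?_)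
        rw [h1 w]
    _ ≤ (((Finset.univ.filter (fun z : G => z ∈ A)).card
        * (Finset.univ.filter (fun z : G => z ∈ B)).card : ℕ) : ℝ) := by
        exact_mod_cast h2
    _ = (A.ncard : ℝ) * B.ncard := by
        rw [hA, hB]
        push_cast
        ring

/-- One step of the doubling: some `w₀` works for all the first coordinates and all heights. -/
theorem layer_step {G : Type} [AddCommGroup G] [Fintype G] (N R : ℕ) (k : ℕ)
    {ι : Type} [Fintype ι] (V : ι → (Fin (k + 1) → ℤ) → Set G) (Q : Set (Fin (k + 1) → ℤ))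
    (ε : ℝ) (hε : 0 ≤ ε)
    (hV : ∀ i, ∀ a ∈ Q, ((V i a).ncard : ℝ) ≤ ε * Fintype.card G)
    (Q' : Set (Fin k → ℤ)) (hQ' : ∀ a ∈ Q', ∀ j, |a j| ≤ (R : ℤ))
    (hstep : ∀ y ∈ Q', ∀ s : ℤ, ∃ t : ℤ,
      (Fin.cons (s - N * t) y : Fin (k + 1) → ℤ) ∈ Q ∧
      (Fin.cons (s - N * (t + 1)) y : Fin (k + 1) → ℤ) ∈ Q) :
    ∃ w₀ : G, ∀ i : ι, ∀ s : Fin N, ∀ y ∈ Q',
      (({z : G | ∀ t : ℤ, z - t • w₀ ∈ V i (Fin.cons ((s : ℕ) - N * t) y)}.ncard : ℕ) : ℝ)
        ≤ (Fintype.card ι * N * (2 * (R : ℝ) + 1) ^ k * ε ^ 2) * Fintype.card G := by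
  classical
  set Bx : Finset (Fin k → ℤ) :=
    (Fintype.piFinset fun _ : Fin k => Finset.Icc (-(R : ℤ)) R).filter (fun y => y ∈ Q') with hBx
  have hBmem : ∀ y ∈ Q', y ∈ Bx := by
    intro y hy
    rw [hBx, Finset.mem_filter, Fintype.mem_piFinset]
    refine ⟨fun j => ?_, hy⟩
    rw [Finset.mem_Icc]
    exact abs_le.mp (hQ' y hy j)
  have hBcard : (Bx.card : ℝ) ≤ (2 * (R : ℝ) + 1) ^ k := by
    have h1 : Bx.card ≤ (2 * R + 1) ^ k := by
      refine (Finset.card_filter_le _ _).trans ?_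
      rw [Fintype.card_piFinset]
      simp only [Int.card_Icc, Finset.prod_const, Finset.card_univ, Fintype.card_fin]
      refine Nat.pow_le_pow_left ?_ k
      omega
    calc (Bx.card : ℝ) ≤ (((2 * R + 1) ^ k : ℕ) : ℝ) := by exact_mod_cast h1
      _ = (2 * (R : ℝ) + 1) ^ k := by push_cast; ring
  have hG : (0 : ℝ) < Fintype.card G := by
    have : 0 < Fintype.card G := Fintype.card_pos
    exact_mod_cast this
  -- the cost of `w`
  set F : G → ℝ := fun w => ∑ i : ι, ∑ s : Fin N, ∑ y ∈ Bx,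
    (({z : G | ∀ t : ℤ, z - t • w ∈ V i (Fin.cons ((s : ℕ) - N * t) y)}.ncard : ℕ) : ℝ) with hF
  have hone : ∀ i : ι, ∀ s : Fin N, ∀ y ∈ Bx, ∑ w : G,
      (({z : G | ∀ t : ℤ, z - t • w ∈ V i (Fin.cons ((s : ℕ) - N * t) y)}.ncard : ℕ) : ℝ)
      ≤ ε ^ 2 * (Fintype.card G : ℝ) ^ 2 := by
    intro i s y hy
    have hyQ : y ∈ Q' := (Finset.mem_filter.mp hy).2
    obtain ⟨t, ht1, ht2⟩ := hstep y hyQ ((s : ℕ) : ℤ)
    calc ∑ w : G,
        (({z : G | ∀ t : ℤ, z - t • w ∈ V i (Fin.cons ((s : ℕ) - N * t) y)}.ncard : ℕ) : ℝ)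
        ≤ ∑ w : G, (({z : G | z - t • w ∈ V i (Fin.cons ((s : ℕ) - N * t) y) ∧
            z - (t + 1) • w ∈ V i (Fin.cons ((s : ℕ) - N * (t + 1)) y)}.ncard : ℕ) : ℝ) := by
          refine Finset.sum_le_sum (fun w _ => ?_)
          have hsub : {z : G | ∀ t : ℤ, z - t • w ∈ V i (Fin.cons ((s : ℕ) - N * t) y)}
              ⊆ {z : G | z - t • w ∈ V i (Fin.cons ((s : ℕ) - N * t) y) ∧
                z - (t + 1) • w ∈ V i (Fin.cons ((s : ℕ) - N * (t + 1)) y)} :=
            fun z hz => ⟨hz t, hz (t + 1)⟩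
          exact_mod_cast Set.ncard_le_ncard hsub (Set.toFinite _)
      _ ≤ _ := layer_pair _ _ t
      _ ≤ (ε * Fintype.card G) * (ε * Fintype.card G) := by
          refine mul_le_mul (hV i _ ht1) (hV i _ ht2) (Nat.cast_nonneg _) ?_
          positivity
      _ = ε ^ 2 * (Fintype.card G : ℝ) ^ 2 := by ring
  have hsum : ∑ w : G, F w
      ≤ ∑ _w : G, (Fintype.card ι * N * (2 * (R : ℝ) + 1) ^ k * ε ^ 2) * Fintype.card G := by
    have e1 : ∑ w : G, F w = ∑ i : ι, ∑ s : Fin N, ∑ y ∈ Bx, ∑ w : G,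
        (({z : G | ∀ t : ℤ, z - t • w ∈ V i (Fin.cons ((s : ℕ) - N * t) y)}.ncard : ℕ) : ℝ) := by
      rw [hF]
      rw [Finset.sum_comm]
      refine Finset.sum_congr rfl (fun i _ => ?_)
      rw [Finset.sum_comm]
      refine Finset.sum_congr rfl (fun s _ => ?_)
      rw [Finset.sum_comm]
    rw [e1]
    calc _ ≤ ∑ i : ι, ∑ s : Fin N, ∑ y ∈ Bx, ε ^ 2 * (Fintype.card G : ℝ) ^ 2 :=
          Finset.sum_le_sum (fun i _ => Finset.sum_le_sum (fun s _ =>
            Finset.sum_le_sum (fun y hy => hone i s y hy)))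
      _ = (Fintype.card ι * N) * (Bx.card * (ε ^ 2 * (Fintype.card G : ℝ) ^ 2)) := by
          simp only [Finset.sum_const, Finset.card_univ, Fintype.card_fin, nsmul_eq_mul]
          ring
      _ ≤ (Fintype.card ι * N) * ((2 * (R : ℝ) + 1) ^ k * (ε ^ 2 * (Fintype.card G : ℝ) ^ 2)) := by
          refine mul_le_mul_of_nonneg_left ?_ (by positivity)
          exact mul_le_mul_of_nonneg_right hBcard (by positivity)
      _ = _ := by
          simp only [Finset.sum_const, Finset.card_univ, nsmul_eq_mul]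
          ring
  obtain ⟨w₀, _, hw₀⟩ := Finset.exists_le_of_sum_le (s := (Finset.univ : Finset G))
    ⟨0, Finset.mem_univ _⟩ hsum
  refine ⟨w₀, fun i s y hy => le_trans ?_ hw₀⟩
  rw [hF]
  have s1 : (({z : G | ∀ t : ℤ, z - t • w₀ ∈ V i (Fin.cons ((s : ℕ) - N * t) y)}.ncard : ℕ) : ℝ)
      ≤ ∑ y ∈ Bx,
      (({z : G | ∀ t : ℤ, z - t • w₀ ∈ V i (Fin.cons ((s : ℕ) - N * t) y)}.ncard : ℕ) : ℝ) :=
    Finset.single_le_sum (f := fun y =>
      (({z : G | ∀ t : ℤ, z - t • w₀ ∈ V i (Fin.cons ((s : ℕ) - N * t) y)}.ncard : ℕ) : ℝ))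
      (fun _ _ => Nat.cast_nonneg _) (hBmem y hy)
  have s2 : ∑ y ∈ Bx,
      (({z : G | ∀ t : ℤ, z - t • w₀ ∈ V i (Fin.cons ((s : ℕ) - N * t) y)}.ncard : ℕ) : ℝ)
      ≤ ∑ s : Fin N, ∑ y ∈ Bx,
      (({z : G | ∀ t : ℤ, z - t • w₀ ∈ V i (Fin.cons ((s : ℕ) - N * t) y)}.ncard : ℕ) : ℝ) :=
    Finset.single_le_sum (f := fun s : Fin N => ∑ y ∈ Bx,
      (({z : G | ∀ t : ℤ, z - t • w₀ ∈ V i (Fin.cons ((s : ℕ) - N * t) y)}.ncard : ℕ) : ℝ))
      (fun _ _ => Finset.sum_nonneg (fun _ _ => Nat.cast_nonneg _)) (Finset.mem_univ s)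
  have s3 : ∑ s : Fin N, ∑ y ∈ Bx,
      (({z : G | ∀ t : ℤ, z - t • w₀ ∈ V i (Fin.cons ((s : ℕ) - N * t) y)}.ncard : ℕ) : ℝ)
      ≤ ∑ i : ι, ∑ s : Fin N, ∑ y ∈ Bx,
      (({z : G | ∀ t : ℤ, z - t • w₀ ∈ V i (Fin.cons ((s : ℕ) - N * t) y)}.ncard : ℕ) : ℝ) :=
    Finset.single_le_sum (f := fun i : ι => ∑ s : Fin N, ∑ y ∈ Bx,
      (({z : G | ∀ t : ℤ, z - t • w₀ ∈ V i (Fin.cons ((s : ℕ) - N * t) y)}.ncard : ℕ) : ℝ))
      (fun _ _ => Finset.sum_nonneg (fun _ _ => Finset.sum_nonneg (fun _ _ => Nat.cast_nonneg _)))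
      (Finset.mem_univ i)
  exact s1.trans (s2.trans s3)

/-- M13 -/
theorem layer {G : Type} [AddCommGroup G] [Fintype G] (N R : ℕ) (hN : 1 ≤ N) (k : ℕ)
    {ι : Type} [Fintype ι] [Nonempty ι] (V : ι → (Fin k → ℤ) → Set G) (Q : Set (Fin k → ℤ))
    (hQ : ∀ a ∈ Q, ∀ j, |a j| ≤ (R : ℤ)) (ε : ℝ) (hε : 0 ≤ ε)
    (hV : ∀ i, ∀ a ∈ Q, ((V i a).ncard : ℝ) ≤ ε * Fintype.card G) (hT : TreeZ N k Q) :
    ∃ w : Fin k → G, ∀ i, ∀ a : Fin k → ℤ,
      ({z : G | ∀ t : Fin k → ℤ, z - ∑ j, t j • w j ∈ V i (fun j => a j - N * t j)}.ncard : ℝ)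
        ≤ (Fintype.card ι * ((N * (2 * R + 1) : ℕ) : ℝ) ^ k * ε) ^ (2 ^ k) * Fintype.card G := by
  induction k generalizing ι ε with
  | zero =>
    refine ⟨fun _ => 0, fun i a => ?_⟩
    obtain ⟨b, hb⟩ : Q.Nonempty := hT
    have hab : a = b := Subsingleton.elim _ _
    have hι : (1 : ℝ) ≤ Fintype.card ι := by
      have : 0 < Fintype.card ι := Fintype.card_pos
      exact_mod_cast this
    have h1 : {z : G | ∀ t : Fin 0 → ℤ,
        z - ∑ j, t j • (0 : G) ∈ V i (fun j => a j - N * t j)} ⊆ V i b := by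
      intro z hz
      have h2 := hz (fun _ => 0)
      simp only [Finset.univ_eq_empty, Finset.sum_empty, sub_zero] at h2
      have h3 : (fun j : Fin 0 => a j - (N : ℤ) * 0) = b := Subsingleton.elim _ _
      rwa [h3] at h2
    calc _ ≤ ((V i b).ncard : ℝ) := by
          exact_mod_cast Set.ncard_le_ncard h1 (Set.toFinite _)
      _ ≤ ε * Fintype.card G := hV i b hb
      _ ≤ (Fintype.card ι * ε) * Fintype.card G := by
          refine mul_le_mul_of_nonneg_right ?_ (Nat.cast_nonneg _)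
          nlinarith
      _ = _ := by simp
  | succ k ih =>
    set Q' : Set (Fin k → ℤ) := {y : Fin k → ℤ | ∀ s : ℤ, ∃ t : ℤ,
      (Fin.cons (s - N * t) y : Fin (k + 1) → ℤ) ∈ Q ∧
      (Fin.cons (s - N * (t + 1)) y : Fin (k + 1) → ℤ) ∈ Q} with hQ'def
    have hQ' : ∀ y ∈ Q', ∀ j, |y j| ≤ (R : ℤ) := by
      intro y hy j
      obtain ⟨t, ht, _⟩ := hy 0
      have := hQ _ ht j.succ
      simpa using this
    obtain ⟨w₀, hw₀⟩ := layer_step N R k V Q ε hε hV Q' hQ' (fun y hy => hy)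
    have hNe : Nonempty (Fin N) := ⟨⟨0, hN⟩⟩
    obtain ⟨w', hw'⟩ := ih (ι := ι × Fin N)
      (fun p y => {z : G | ∀ t : ℤ, z - t • w₀ ∈ V p.1 (Fin.cons (((p.2 : ℕ) : ℤ) - N * t) y)})
      Q' hQ' ((Fintype.card ι * N * (2 * (R : ℝ) + 1) ^ k * ε ^ 2)) (by positivity)
      (fun p y hy => hw₀ p.1 p.2 y hy) hT
    refine ⟨Fin.cons w₀ w', fun i a => ?_⟩
    have hN0 : (0 : ℤ) < N := by exact_mod_cast hN
    set q : ℤ := a 0 / N with hq
    set s : ℤ := a 0 % N with hs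
    have hs0 : 0 ≤ s := Int.emod_nonneg _ hN0.ne'
    have hs1 : s < N := Int.emod_lt_of_pos _ hN0
    have hsq : a 0 = s + N * q := by
      rw [hs, hq]
      exact (Int.emod_add_mul_ediv (a 0) N).symm
    have hsn : s.toNat < N := by omega
    have hsc : ((s.toNat : ℕ) : ℤ) = s := Int.toNat_of_nonneg hs0
    have key := hw' (i, ⟨s.toNat, hsn⟩) (Fin.tail a)
    have hle : ({z : G | ∀ t : Fin (k + 1) → ℤ,
        z - ∑ j, t j • (Fin.cons w₀ w' : Fin (k + 1) → G) j ∈ V i (fun j => a j - N * t j)}).ncard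
        ≤ ({z : G | ∀ t : Fin k → ℤ, z - ∑ j, t j • w' j ∈
          {z : G | ∀ t₀ : ℤ, z - t₀ • w₀ ∈ V (i, (⟨s.toNat, hsn⟩ : Fin N)).1
            (Fin.cons ((((i, (⟨s.toNat, hsn⟩ : Fin N)).2 : ℕ) : ℤ) - N * t₀)
              (fun j => Fin.tail a j - N * t j))}}).ncard := by
      refine Set.ncard_le_ncard_of_injOn (fun z => z - q • w₀) ?_ ?_ (Set.toFinite _)
      · intro z hz t t₀
        have h1 := hz (Fin.cons (t₀ + q) t)
        rw [Fin.sum_univ_succ] at h1
        simp only [Fin.cons_zero, Fin.cons_succ] at h1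
        have e1 : z - ((t₀ + q) • w₀ + ∑ j, t j • w' j)
            = z - q • w₀ - ∑ j, t j • w' j - t₀ • w₀ := by
          rw [add_smul]
          abel
        rw [e1] at h1
        have e2 : (fun j : Fin (k + 1) =>
            a j - (N : ℤ) * (Fin.cons (t₀ + q) t : Fin (k + 1) → ℤ) j)
            = (Fin.cons (((s.toNat : ℕ) : ℤ) - N * t₀) (fun j => Fin.tail a j - N * t j)
              : Fin (k + 1) → ℤ) := by
          funext j
          refine Fin.cases ?_ (fun j => ?_) j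
          · simp only [Fin.cons_zero]
            rw [hsc, hsq]
            ring
          · simp only [Fin.cons_succ]
            rfl
        rw [e2] at h1
        exact h1
      · intro x _ y _ hxy
        exact sub_left_injective hxy
    calc _ ≤ _ := Nat.cast_le.mpr hle
      _ ≤ _ := key
      _ ≤ _ := by
        refine mul_le_mul_of_nonneg_right ?_ (Nat.cast_nonneg _)
        rw [pow_succ 2 k, mul_comm (2 ^ k) 2, pow_mul _ 2 (2 ^ k)]
        refine pow_le_pow_left₀ (by positivity) ?_ _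
        have hNr : (1 : ℝ) ≤ N := by exact_mod_cast hN
        have hRr : (1 : ℝ) ≤ 2 * (R : ℝ) + 1 := by
          have : (0 : ℝ) ≤ R := Nat.cast_nonneg _
          linarith
        have hcard : (Fintype.card (ι × Fin N) : ℝ) = Fintype.card ι * N := by
          rw [Fintype.card_prod, Fintype.card_fin]
          push_cast
          ring
        rw [hcard]
        push_cast
        have hx : (N : ℝ) * ((N : ℝ) * (2 * (R : ℝ) + 1)) ^ k
            ≤ ((N : ℝ) * (2 * (R : ℝ) + 1)) ^ (k + 1) := by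
          rw [pow_succ, mul_comm]
          refine mul_le_mul_of_nonneg_left ?_ (by positivity)
          nlinarith
        have hy : (N : ℝ) * (2 * (R : ℝ) + 1) ^ k
            ≤ ((N : ℝ) * (2 * (R : ℝ) + 1)) ^ (k + 1) := by
          refine le_trans ?_ hx
          refine mul_le_mul_of_nonneg_left ?_ (by positivity)
          refine pow_le_pow_left₀ (by positivity) ?_ k
          nlinarith
        calc (Fintype.card ι : ℝ) * N * ((N : ℝ) * (2 * (R : ℝ) + 1)) ^ k
              * (Fintype.card ι * N * (2 * (R : ℝ) + 1) ^ k * ε ^ 2)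
            = (Fintype.card ι : ℝ) ^ 2 * ε ^ 2 * ((N * ((N : ℝ) * (2 * (R : ℝ) + 1)) ^ k)
                * (N * (2 * (R : ℝ) + 1) ^ k)) := by ring
          _ ≤ (Fintype.card ι : ℝ) ^ 2 * ε ^ 2 * (((N : ℝ) * (2 * (R : ℝ) + 1)) ^ (k + 1)
                * ((N : ℝ) * (2 * (R : ℝ) + 1)) ^ (k + 1)) := by
              refine mul_le_mul_of_nonneg_left ?_ (by positivity)
              exact mul_le_mul hx hy (by positivity) (by positivity)
          _ = _ := by ring

end Vale.Agent.P230
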