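import Vale.Agent.Lib.P230L.DefsL

/-!
# P230, lattice half: from the real layer structure to the integer layer structure
-/

namespace Vale.Agent.P230

open MeasureTheory Set

theorem treeZ_mono (N : ℕ) : ∀ (k : ℕ) {Q Q' : Set (Fin k → ℤ)}, Q ⊆ Q' → TreeZ N k Q →
    TreeZ N k Q' := by
  intro k
  induction k with
  | zero =>
    intro Q Q' h hQ
    exact Set.Nonempty.mono h hQ
  | succ k ih =>
    intro Q Q' h hQ
    refine ih ?_ hQ
    intro y hy s
    obtain ⟨t, h1, h2⟩ := hy s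
    exact ⟨t, h h1, h h2⟩

theorem treeZ_of_treeR (k : ℕ) (h : Fin k → ℝ) (P : Set (Fin k → ℝ)) (N : ℕ) (hN : 1 ≤ N)
    (hh : ∀ j, 0 < h j) (hT : TreeR k h P) :
    TreeZ N k {s : Fin k → ℤ | (fun j => (s j : ℝ) * h j / N) ∈ P} := by
  induction k with
  | zero =>
    obtain ⟨x, hx⟩ := hT
    refine ⟨fun j => j.elim0, ?_⟩
    have : (fun j : Fin 0 => (((fun j => j.elim0 : Fin 0 → ℤ) j : ℤ) : ℝ) * h j / N) = x :=
      Subsingleton.elim _ _
    show (fun j : Fin 0 => (((fun j => j.elim0 : Fin 0 → ℤ) j : ℤ) : ℝ) * h j / N) ∈ P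
    rw [this]
    exact hx
  | succ k ih =>
    have hNr : (0 : ℝ) < N := by exact_mod_cast hN
    have h0 : 0 < h 0 := hh 0
    have key := ih (Fin.tail h) _ (fun j => hh j.succ) hT
    refine treeZ_mono N k ?_ key
    intro y hy s
    obtain ⟨s0, hs0⟩ := hy
    -- choose t = ⌊ s / N - s0 / h 0 ⌋ - 1
    have hcons : ∀ u : ℤ, (fun j : Fin (k + 1) =>
        (((Fin.cons u y : Fin (k + 1) → ℤ) j : ℤ) : ℝ) * h j / N) =
        (Fin.cons ((u : ℝ) * h 0 / N) (fun j => (y j : ℝ) * Fin.tail h j / N) :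
          Fin (k + 1) → ℝ) := by
      intro u
      funext j
      refine Fin.cases ?_ (fun i => ?_) j
      · simp
      · simp [Fin.tail]
    set v : ℝ := (s : ℝ) / N - s0 / h 0 with hv
    have hf1 : (⌊v⌋ : ℝ) ≤ v := Int.floor_le v
    have hf2 : v < ⌊v⌋ + 1 := Int.lt_floor_add_one v
    refine ⟨⌊v⌋ - 1, ?_, ?_⟩
    · show (fun j : Fin (k + 1) =>
        (((Fin.cons (s - N * (⌊v⌋ - 1)) y : Fin (k + 1) → ℤ) j : ℤ) : ℝ) * h j / N) ∈ P
      rw [hcons]
      apply hs0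
      have e1 : (((s - N * (⌊v⌋ - 1) : ℤ) : ℝ)) * h 0 / N = ((v - ⌊v⌋) + 1) * h 0 + s0 := by
        push_cast
        rw [hv]
        field_simp
        ring
      rw [e1]
      constructor <;> nlinarith
    · show (fun j : Fin (k + 1) =>
        (((Fin.cons (s - N * (⌊v⌋ - 1 + 1)) y : Fin (k + 1) → ℤ) j : ℤ) : ℝ) * h j / N) ∈ P
      rw [hcons]
      apply hs0
      have e1 : (((s - N * (⌊v⌋ - 1 + 1) : ℤ) : ℝ)) * h 0 / N = (v - ⌊v⌋) * h 0 + s0 := by
        push_cast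
        rw [hv]
        field_simp
        ring
      rw [e1]
      constructor <;> nlinarith

end Vale.Agent.P230
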