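import Vale.Agent.Lib.P230L.Heights
import Vale.Agent.Lib.P230L.Layer
import Vale.Agent.Lib.P230L.TreeZR
import Vale.Agent.Lib.P230L.Functionals

/-!
# P230, lattice half: the layered code
-/

namespace Vale.Agent.P230

open MeasureTheory Set
open scoped ENNReal Pointwise

lemma alive_gridS_eq_empty {p m a : ℕ} (A : Set (Fin m → ℝ)) (B : ℕ) (Φ : Fin a → FV p (m + 1)) :
    alive Φ (gridS p A B) = ∅ ↔ ∀ h ∈ gridPts A B, ∃ j, Φ j ⬝ᵥ homZ p h ≠ 0 := by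
  classical
  unfold alive gridS
  rw [Finset.filter_eq_empty_iff]
  constructor
  · intro h g hg
    have := h (Finset.mem_image_of_mem _ hg)
    push Not at this
    exact this
  · intro h x hx
    obtain ⟨g, hg, rfl⟩ := Finset.mem_image.mp hx
    obtain ⟨j, hj⟩ := h g hg
    exact fun hcon => hj (hcon j)

theorem exists_layered {p m k a n B : ℕ} [Fact p.Prime] (hn : 1 ≤ n) (hk : 1 ≤ k)
    (K₁ : Set ((Fin m → ℝ) × (Fin k → ℝ))) (s : ℝ) (h : Fin k → ℝ) (hh : ∀ j, 0 < h j)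
    (hB6 : ∀ j, h j ≤ 6 * n) (P : Set (Fin k → ℝ)) (hT : TreeR k h P)
    (hPB : ∀ y ∈ P, ∀ j, |y j| ≤ 6 * n)
    (hprod : (3 / 32 : ℝ) ^ k * ((2 / (n : ℝ)) ^ k / 64) ≤ ∏ j, h j) (ε₁ : ℝ) (hε₁ : 0 ≤ ε₁)
    (hvoid : ∀ y ∈ P, ({Φ : Fin a → FV p (m + 1) |
      alive Φ (gridS p (scal s (slice K₁ y)) B) = ∅}.ncard : ℝ) ≤ ε₁ * ((p : ℝ) ^ (m + 1)) ^ a)
    (hsmall : (((3 * n ^ 2 * (2 * Rbd n k + 1) : ℕ) : ℝ) ^ k
        * (ε₁ * ((2 * Rbd n k + 1 : ℕ) : ℝ) ^ k)) ^ (2 ^ k) * (p : ℝ) ^ m < 1) :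
    ∃ (Φ : Fin a → FV p m) (w : Fin k → FV p m),
      (Function.Surjective fun (z : FV p m) (j : Fin a) => Φ j ⬝ᵥ z) ∧
      ∀ τ : Fin k → ℤ, ∀ z : FV p m, ∃ t : Fin k → ℤ,
        z - ∑ j, t j • w j ∉ voidSet Φ K₁ s h (3 * n ^ 2) B
          (fun j => τ j - ((3 * n ^ 2 : ℕ) : ℤ) * t j) := by
  classical
  set N : ℕ := 3 * n ^ 2 with hNdef
  set R : ℕ := Rbd n k with hRdef
  have hN : 1 ≤ N := by
    rw [hNdef]; have := Nat.one_le_pow 2 n hn; omega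
  have hp1 : (1 : ℝ) ≤ p := by exact_mod_cast (Fact.out : p.Prime).one_lt.le
  set Q : Set (Fin k → ℤ) := {τ | ht h N τ ∈ P} with hQ
  have hTZ : TreeZ N k Q := treeZ_of_treeR k h P N hN hh hT
  have hQne : Q.Nonempty := treeZ_nonempty N k Q hTZ
  have hQB : ∀ τ ∈ Q, ∀ j, |τ j| ≤ (R : ℤ) := fun τ hτ j =>
    ht_bound hn h hh hB6 hprod τ (fun j => hPB _ hτ j) j
  set Qf : Finset (Fin k → ℤ) :=
    (Fintype.piFinset fun _ => Finset.Icc (-(R : ℤ)) R).filter (fun τ => τ ∈ Q) with hQf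
  have hmemQf : ∀ τ, τ ∈ Qf ↔ τ ∈ Q := by
    intro τ
    rw [hQf, Finset.mem_filter, Fintype.mem_piFinset]
    constructor
    · exact fun h => h.2
    · intro h
      refine ⟨fun j => ?_, h⟩
      rw [Finset.mem_Icc]
      exact abs_le.mp (hQB τ h j)
  have hcardQ : (Qf.card : ℝ) ≤ ((2 * R + 1 : ℕ) : ℝ) ^ k := by
    have h1 : Qf.card ≤ (2 * R + 1) ^ k := by
      refine (Finset.card_filter_le _ _).trans ?_
      rw [Fintype.card_piFinset]
      simp only [Int.card_Icc, Finset.prod_const, Finset.card_univ, Fintype.card_fin]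
      apply le_of_eq
      congr 1
      omega
    exact_mod_cast h1
  have : Nonempty Qf := by
    obtain ⟨τ, hτ⟩ := hQne
    exact ⟨⟨τ, (hmemQf τ).mpr hτ⟩⟩
  have hcardι : (Fintype.card Qf : ℝ) = Qf.card := by rw [Fintype.card_coe]
  set X : ℝ := ((N * (2 * R + 1) : ℕ) : ℝ) ^ k * (ε₁ * ((2 * R + 1 : ℕ) : ℝ) ^ k) with hX
  have hX0 : 0 ≤ X := by positivity
  have hX1 : X < 1 := by
    by_contra hcon
    push Not at hcon
    have h1 : 1 ≤ X ^ (2 ^ k) := one_le_pow₀ hcon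
    have h2 : 1 ≤ (p : ℝ) ^ m := one_le_pow₀ hp1
    have h3 : 1 ≤ X ^ (2 ^ k) * (p : ℝ) ^ m := one_le_mul_of_one_le_of_one_le h1 h2
    linarith
  have hεsmall : ε₁ * Fintype.card Qf < 1 / 2 := by
    have h1 : (3 : ℝ) ≤ ((N * (2 * R + 1) : ℕ) : ℝ) ^ k := by
      have h2 : (3 : ℝ) ≤ ((N * (2 * R + 1) : ℕ) : ℝ) := by
        have : 3 ≤ N * (2 * R + 1) := by
          have hn2 := Nat.one_le_pow 2 n hn
          have : 3 ≤ N := by rw [hNdef]; omega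
          nlinarith
        exact_mod_cast this
      calc (3 : ℝ) ≤ ((N * (2 * R + 1) : ℕ) : ℝ) := h2
        _ ≤ _ := le_self_pow₀ (by linarith) (by omega)
    have h2 : 3 * (ε₁ * ((2 * R + 1 : ℕ) : ℝ) ^ k) ≤ X := by
      rw [hX]; exact mul_le_mul_of_nonneg_right h1 (by positivity)
    have h3 : ε₁ * Fintype.card Qf ≤ ε₁ * ((2 * R + 1 : ℕ) : ℝ) ^ k := by
      rw [hcardι]; exact mul_le_mul_of_nonneg_left hcardQ hε₁
    linarith
  obtain ⟨Φ, hsurj, hΦ⟩ := exists_functionals (p := p) (m := m) (a := a)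
    (fun i : Qf => gridPts (scal s (slice K₁ (ht h N i))) B) ε₁ hεsmall (by
      intro i
      have h1 := hvoid (ht h N i) ((hmemQf i).mp i.2)
      have h2 : {Φ : Fin a → FV p (m + 1) |
          ∀ h_1 ∈ gridPts (scal s (slice K₁ (ht h N i))) B, ∃ j, Φ j ⬝ᵥ homZ p h_1 ≠ 0}
          = {Φ : Fin a → FV p (m + 1) |
            alive Φ (gridS p (scal s (slice K₁ (ht h N i))) B) = ∅} := by
        ext Φ
        exact (alive_gridS_eq_empty _ _ Φ).symm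
      rw [h2]
      exact h1)
  have hcardG : (Fintype.card (FV p m) : ℝ) = (p : ℝ) ^ m := by
    rw [Fintype.card_fun, ZMod.card, Fintype.card_fin]; push_cast; rfl
  obtain ⟨w, hw⟩ := layer (G := FV p m) N R hN k (ι := Unit)
    (fun _ τ => voidSet Φ K₁ s h N B τ) Q hQB (ε₁ * ((2 * R + 1 : ℕ) : ℝ) ^ k) (by positivity) (by
      intro _ τ hτ
      have h1 := hΦ ⟨τ, (hmemQf τ).mpr hτ⟩
      rw [hcardG]
      refine h1.trans ?_
      apply mul_le_mul_of_nonneg_right _ (by positivity)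
      rw [hcardι]; exact mul_le_mul_of_nonneg_left hcardQ hε₁) hTZ
  refine ⟨Φ, w, hsurj, fun τ z => ?_⟩
  by_contra hcon
  push Not at hcon
  have h1 := hw () τ
  rw [hcardG, Fintype.card_unit, Nat.cast_one, one_mul] at h1
  have h2 : ({z : FV p m | ∀ t : Fin k → ℤ,
      z - ∑ j, t j • w j ∈ voidSet Φ K₁ s h N B (fun j => τ j - N * t j)}.ncard : ℝ) < 1 :=
    lt_of_le_of_lt h1 hsmall
  have h3 : {z : FV p m | ∀ t : Fin k → ℤ,
      z - ∑ j, t j • w j ∈ voidSet Φ K₁ s h N B (fun j => τ j - N * t j)}.ncard = 0 := by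
    have : {z : FV p m | ∀ t : Fin k → ℤ,
      z - ∑ j, t j • w j ∈ voidSet Φ K₁ s h N B (fun j => τ j - N * t j)}.ncard < 1 := by
      exact_mod_cast h2
    omega
  rw [Set.ncard_eq_zero (Set.toFinite _)] at h3
  have h4 : z ∈ {z : FV p m | ∀ t : Fin k → ℤ,
      z - ∑ j, t j • w j ∈ voidSet Φ K₁ s h N B (fun j => τ j - N * t j)} := hcon
  rw [h3] at h4
  exact h4

end Vale.Agent.P230
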