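import Vale.Agent.Lib.P230L.DefsL

/-!
# P230, lattice half: preliminary lemmas for the assembly
-/

namespace Vale.Agent.P230

open MeasureTheory Set
open scoped ENNReal Pointwise

/-- A set in `ℝᵐ` that contains a cube of half side `r` has volume at least `(2r)ᵐ`. -/
lemma volume_ge_of_cube {m : ℕ} {r : ℝ} (hr : 0 ≤ r) {A : Set (Fin m → ℝ)} (hA : volume A ≠ ⊤)
    {c : Fin m → ℝ} (hc : ∀ x : Fin m → ℝ, (∀ i, |x i - c i| ≤ r) → x ∈ A) :
    (2 * r) ^ m ≤ volume.real A := by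
  have hsub : Metric.closedBall c r ⊆ A := by
    intro x hx
    apply hc
    intro i
    rw [Metric.mem_closedBall, dist_pi_le_iff hr] at hx
    have := hx i
    rwa [Real.dist_eq] at this
  have h1 : volume.real (Metric.closedBall c r) = (2 * r) ^ m := by
    rw [Measure.real, Real.volume_pi_closedBall _ hr, ENNReal.toReal_ofReal (by positivity),
      Fintype.card_fin]
  rw [← h1]
  exact measureReal_mono hsub hA

lemma volume_gridBody_ge {m : ℕ} {r : ℝ} (hr : 0 ≤ r) {B : ℕ} {A : Set (Fin m → ℝ)}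
    (hA : GridBody r B A) : (2 * r) ^ m ≤ volume.real A := by
  obtain ⟨c, hc⟩ := hA.cube
  exact volume_ge_of_cube hr hA.compact.measure_ne_top hc

/-- Choice of the scale `s` and of the number `a` of functionals. -/
lemma exists_scale (n m p : ℕ) (v : ℝ) (hv : 0 < v) (hn : 1 ≤ n) (hm : 1 ≤ m) (hp : 2 ≤ p)
    (hp2 : (p : ℝ) ≤ 2 ^ m) (hbig : 2 * (m : ℝ) ≤ v * (2 * n * m) ^ m) :
    ∃ (s : ℝ) (a : ℕ), (n : ℝ) * m ≤ s ∧ s ≤ 2 * n * m ∧ v * s ^ m = 2 * m * (p : ℝ) ^ a := by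
  have hn0 : (0 : ℝ) < n := by exact_mod_cast hn
  have hm0 : (0 : ℝ) < m := by exact_mod_cast hm
  have hp0 : (0 : ℝ) < p := by exact_mod_cast (by omega : 0 < p)
  have hp1 : (1 : ℝ) < p := by exact_mod_cast (by omega : 1 < p)
  have hmne : m ≠ 0 := by omega
  set T : ℝ := v * (2 * n * m) ^ m / (2 * m) with hT
  have hT1 : 1 ≤ T := by
    rw [hT, le_div_iff₀ (by positivity)]; linarith
  obtain ⟨a, ha1, ha2⟩ := exists_nat_pow_near hT1 hp1
  set x : ℝ := 2 * m * (p : ℝ) ^ a / v with hx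
  have hx0 : 0 ≤ x := by positivity
  refine ⟨x ^ ((m : ℝ)⁻¹), a, ?_, ?_, ?_⟩
  · have h1 : ((n : ℝ) * m) ^ m ≤ x := by
      rw [hx, le_div_iff₀ hv]
      have h2 : T < (p : ℝ) ^ a * p := by rw [← pow_succ]; exact ha2
      have h3 : v * (2 * n * m) ^ m < (p : ℝ) ^ a * p * (2 * m) := by
        rw [hT, div_lt_iff₀ (by positivity)] at h2; exact h2
      have h4 : (2 * (n : ℝ) * m) ^ m = 2 ^ m * ((n : ℝ) * m) ^ m := by
        rw [← mul_pow]; congr 1; ring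
      rw [h4] at h3
      have h5 : v * (2 ^ m * ((n : ℝ) * m) ^ m) < (p : ℝ) ^ a * 2 ^ m * (2 * m) := by
        refine h3.trans_le ?_
        gcongr
      have h6 : (2 : ℝ) ^ m * (((n : ℝ) * m) ^ m * v) < 2 ^ m * (2 * m * (p : ℝ) ^ a) := by
        calc (2 : ℝ) ^ m * (((n : ℝ) * m) ^ m * v) = v * (2 ^ m * ((n : ℝ) * m) ^ m) := by ring
          _ < (p : ℝ) ^ a * 2 ^ m * (2 * m) := h5
          _ = 2 ^ m * (2 * m * (p : ℝ) ^ a) := by ring
      exact (lt_of_mul_lt_mul_left h6 (by positivity)).le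
    calc (n : ℝ) * m = (((n : ℝ) * m) ^ m) ^ ((m : ℝ)⁻¹) := by
          rw [Real.pow_rpow_inv_natCast (by positivity) hmne]
      _ ≤ x ^ ((m : ℝ)⁻¹) := Real.rpow_le_rpow (by positivity) h1 (by positivity)
  · have h1 : x ≤ (2 * (n : ℝ) * m) ^ m := by
      rw [hx, div_le_iff₀ hv]
      have h2 : (p : ℝ) ^ a * (2 * m) ≤ v * (2 * n * m) ^ m := by
        rw [hT, le_div_iff₀ (by positivity)] at ha1; exact ha1
      calc 2 * (m : ℝ) * (p : ℝ) ^ a = (p : ℝ) ^ a * (2 * m) := by ring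
        _ ≤ v * (2 * n * m) ^ m := h2
        _ = (2 * (n : ℝ) * m) ^ m * v := by ring
    calc x ^ ((m : ℝ)⁻¹) ≤ ((2 * (n : ℝ) * m) ^ m) ^ ((m : ℝ)⁻¹) :=
          Real.rpow_le_rpow hx0 h1 (by positivity)
      _ = 2 * n * m := Real.pow_rpow_inv_natCast (by positivity) hmne
  · rw [Real.rpow_inv_natCast_pow hx0 hmne, hx]
    field_simp

/-- The set `s · S` as a preimage. -/
def scal {m : ℕ} (s : ℝ) (S : Set (Fin m → ℝ)) : Set (Fin m → ℝ) := {x | s⁻¹ • x ∈ S}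

lemma volume_scal {m : ℕ} {s : ℝ} (hs : 0 < s) (S : Set (Fin m → ℝ)) :
    volume.real (scal s S) = s ^ m * volume.real S := by
  have h1 : scal s S = (fun x => s⁻¹ • x) ⁻¹' S := rfl
  rw [h1, Measure.real, Measure.addHaar_preimage_smul volume (inv_ne_zero hs.ne'),
    ENNReal.toReal_mul, ENNReal.toReal_ofReal (abs_nonneg _)]
  rw [Module.finrank_fin_fun, inv_pow, inv_inv, abs_of_pos (by positivity)]
  rfl

lemma gridBody_scal {m : ℕ} {s r b : ℝ} {B : ℕ} (hs : 0 < s) {S : Set (Fin m → ℝ)}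
    (hconv : Convex ℝ S) (hcomp : IsCompact S) {c : Fin m → ℝ}
    (hc : ∀ x : Fin m → ℝ, (∀ i, |x i - c i| ≤ b) → x ∈ S) (hrb : r ≤ s * b)
    {D : ℝ} (hD : ∀ x ∈ S, ∀ i, |x i| ≤ D) (hB : s * D ≤ B) : GridBody r B (scal s S) := by
  refine ⟨?_, ?_, ⟨s • c, ?_⟩, ?_⟩
  · exact hconv.smul_preimage s⁻¹
  · have h1 : scal s S = s • S := by
      rw [← Set.preimage_smul_inv₀ hs.ne']; rfl
    rw [h1]; exact hcomp.smul s
  · intro x hx
    apply hc
    intro i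
    have h1 := hx i
    simp only [Pi.smul_apply, smul_eq_mul] at h1 ⊢
    have h2 : s⁻¹ * x i - c i = s⁻¹ * (x i - s * c i) := by field_simp
    rw [h2, abs_mul, abs_of_pos (inv_pos.mpr hs), inv_mul_le_iff₀ hs]
    exact h1.trans hrb
  · intro x hx i
    have h1 := hD _ hx i
    simp only [Pi.smul_apply, smul_eq_mul] at h1
    rw [abs_mul, abs_of_pos (inv_pos.mpr hs), inv_mul_le_iff₀ hs] at h1
    exact h1.trans hB

/-- A layered set of heights is nonempty. -/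
lemma treeZ_nonempty (N : ℕ) : ∀ (k : ℕ) (Q : Set (Fin k → ℤ)), TreeZ N k Q → Q.Nonempty
  | 0, _, h => h
  | k + 1, Q, h => by
    obtain ⟨y, hy⟩ := treeZ_nonempty N k _ h
    obtain ⟨t, ht, _⟩ := hy 0
    exact ⟨_, ht⟩

/-- The diagonal scaling `(x, y) ↦ (s⁻¹ x, (h_j y_j)_j)`. -/
noncomputable def dscale {m k : ℕ} (s : ℝ) (hs : s ≠ 0) (h : Fin k → ℝ) (hh : ∀ j, h j ≠ 0) :
    ((Fin m → ℝ) × (Fin k → ℝ)) ≃ₗ[ℝ] ((Fin m → ℝ) × (Fin k → ℝ)) :=
  LinearEquiv.prodCongr (LinearEquiv.smulOfNeZero ℝ (Fin m → ℝ) s⁻¹ (inv_ne_zero hs))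
    (LinearEquiv.piCongrRight fun j => LinearEquiv.smulOfNeZero ℝ ℝ (h j) (hh j))

lemma dscale_apply {m k : ℕ} (s : ℝ) (hs : s ≠ 0) (h : Fin k → ℝ) (hh : ∀ j, h j ≠ 0)
    (z : (Fin m → ℝ) × (Fin k → ℝ)) :
    dscale s hs h hh z = (s⁻¹ • z.1, fun j => h j * z.2 j) := rfl

instance isAddHaar_prod (m k : ℕ) :
    (volume : Measure ((Fin m → ℝ) × (Fin k → ℝ))).IsAddHaarMeasure :=
  Measure.prod.instIsAddHaarMeasure (volume : Measure (Fin m → ℝ)) (volume : Measure (Fin k → ℝ))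

lemma volume_dscale {m k : ℕ} {s : ℝ} (hs : 0 < s) {h : Fin k → ℝ} (hh : ∀ j, 0 < h j)
    (S : Set ((Fin m → ℝ) × (Fin k → ℝ))) :
    volume {z : (Fin m → ℝ) × (Fin k → ℝ) | dscale s hs.ne' h (fun j => (hh j).ne') z ∈ S}
      = ENNReal.ofReal (s ^ m / ∏ j, h j) * volume S := by
  have hprod : 0 < ∏ j, h j := Finset.prod_pos fun j _ => hh j
  set f : ((Fin m → ℝ) × (Fin k → ℝ)) →ₗ[ℝ] ((Fin m → ℝ) × (Fin k → ℝ)) :=
    LinearMap.prodMap (s⁻¹ • LinearMap.id) (Matrix.toLin' (Matrix.diagonal h)) with hf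
  have hfe : ∀ z, f z = dscale s hs.ne' h (fun j => (hh j).ne') z := by
    intro z
    rw [dscale_apply, hf, LinearMap.prodMap_apply]
    congr 1
    ext j
    rw [Matrix.toLin'_apply, Matrix.mulVec_diagonal]
  have hdet : LinearMap.det f = (s⁻¹) ^ m * ∏ j, h j := by
    rw [hf, LinearMap.det_prodMap, LinearMap.det_smul, LinearMap.det_id, Module.finrank_fin_fun,
      LinearMap.det_toLin', Matrix.det_diagonal, mul_one]
  have hdet0 : LinearMap.det f ≠ 0 := by rw [hdet]; positivity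
  have hset : {z : (Fin m → ℝ) × (Fin k → ℝ) | dscale s hs.ne' h (fun j => (hh j).ne') z ∈ S}
      = f ⁻¹' S := by
    ext z
    rw [mem_preimage, hfe]; rfl
  rw [hset, Measure.addHaar_preimage_linearMap volume hdet0, hdet, mul_inv, inv_pow, inv_inv,
    abs_of_pos (by positivity)]
  rfl

end Vale.Agent.P230
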