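import Vale.Agent.Lib.P230L.DefsL

/-!
# P230, lattice half: integer points of a convex body satisfy few relations with a non-unit multiplier

A two-dimensional lattice argument modulo `p`: the coordinates of the differences of the
solutions `(h, g)` of `g = lam h + c` are multiples of one primitive pair.  This file contains the
argument with the count of the points of a residue class as a hypothesis.
-/

namespace Vale.Agent.P230

open MeasureTheory Set

/-- the small pairs on the line `v = lam u` modulo `p` are pairwise proportional -/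
theorem rel_det_zero {p : ℕ} {B : ℕ} (hB : 8 * B ^ 2 < p) (lam : ZMod p) {u v u' v' : ℤ}
    (hu : |u| ≤ 2 * B) (hv : |v| ≤ 2 * B) (hu' : |u'| ≤ 2 * B) (hv' : |v'| ≤ 2 * B)
    (h : (v : ZMod p) = lam * (u : ZMod p)) (h' : (v' : ZMod p) = lam * (u' : ZMod p)) :
    u * v' = u' * v := by
  have hz : ((u * v' - u' * v : ℤ) : ZMod p) = 0 := by
    push_cast
    rw [h, h']
    ring
  have hdvd : (p : ℤ) ∣ u * v' - u' * v := (ZMod.intCast_zmod_eq_zero_iff_dvd _ _).mp hz
  have habs : |u * v' - u' * v| < p := by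
    have h1 : |u * v' - u' * v| ≤ |u| * |v'| + |u'| * |v| := by
      calc |u * v' - u' * v| ≤ |u * v'| + |u' * v| := abs_sub _ _
        _ = |u| * |v'| + |u'| * |v| := by rw [abs_mul, abs_mul]
    have h2 : |u| * |v'| ≤ (2 * B) * (2 * B) := mul_le_mul hu hv' (abs_nonneg _) (by positivity)
    have h3 : |u'| * |v| ≤ (2 * B) * (2 * B) := mul_le_mul hu' hv (abs_nonneg _) (by positivity)
    have h4 : ((8 * B ^ 2 : ℕ) : ℤ) < p := by exact_mod_cast hB
    push_cast at h4
    nlinarith
  have := Int.eq_zero_of_abs_lt_dvd hdvd habs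
  linarith

/-- the existence of a primitive pair, one entry of which is at least two in absolute value -/
theorem rel_primitive {p : ℕ} [Fact p.Prime] {B : ℕ} (hB : 8 * B ^ 2 < p) (lam : ZMod p)
    (h0 : lam ≠ 0) (h1 : lam ≠ 1) (h2 : lam ≠ -1) {u₀ v₀ : ℤ}
    (hu₀ : |u₀| ≤ 2 * B) (hv₀ : |v₀| ≤ 2 * B) (hne : u₀ ≠ 0)
    (hr : (v₀ : ZMod p) = lam * (u₀ : ZMod p)) :
    ∃ α β : ℤ, (2 ≤ |α| ∨ 2 ≤ |β|) ∧ ∀ u v : ℤ, |u| ≤ 2 * B → |v| ≤ 2 * B →
      (v : ZMod p) = lam * (u : ZMod p) → α ∣ u ∧ β ∣ v := by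
  have hBpos : 1 ≤ B := by
    rcases Nat.eq_zero_or_pos B with hB0 | hB0
    · exfalso
      subst hB0
      simp at hu₀
      exact hne hu₀
    · exact hB0
  have hlt : (2 * (B : ℤ)) < p := by
    have : 2 * B < p := by nlinarith
    exact_mod_cast this
  have hgpos : 0 < Int.gcd u₀ v₀ := Int.gcd_pos_of_ne_zero_left _ hne
  obtain ⟨α, β, hcop', hα, hβ⟩ := Int.exists_gcd_one hgpos
  have hcop : IsCoprime α β := Int.isCoprime_iff_gcd_eq_one.mpr hcop'
  set d : ℤ := ((Int.gcd u₀ v₀ : ℕ) : ℤ) with hd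
  have hdpos : 0 < d := by
    rw [hd]
    exact_mod_cast hgpos
  have hdle : d ≤ |u₀| := Int.le_of_dvd (abs_pos.mpr hne) ((dvd_abs _ _).mpr ⟨α, by rw [hα]; ring⟩)
  -- `d` is invertible modulo `p`
  have hdne : ((d : ℤ) : ZMod p) ≠ 0 := by
    intro hcon
    have := (ZMod.intCast_zmod_eq_zero_iff_dvd _ _).mp hcon
    have := Int.le_of_dvd hdpos this
    omega
  have hαβ : (β : ZMod p) = lam * (α : ZMod p) := by
    rw [hα, hβ] at hr
    push_cast at hr
    have : (β : ZMod p) * (d : ZMod p) = (lam * (α : ZMod p)) * (d : ZMod p) := by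
      rw [hr]; ring
    exact mul_right_cancel₀ hdne this
  have hα0 : α ≠ 0 := by
    rintro rfl
    rw [zero_mul] at hα
    exact hne hα
  have hβ0 : β ≠ 0 := by
    rintro rfl
    have hu : IsUnit α := isCoprime_zero_right.mp hcop
    rcases Int.isUnit_iff.mp hu with h | h
    · rw [h] at hαβ
      push_cast at hαβ
      rw [mul_one] at hαβ
      exact h0 hαβ.symm
    · rw [h] at hαβ
      push_cast at hαβ
      apply h0
      have : lam = -(lam * -1) := by ring
      rw [this, ← hαβ, neg_zero]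
  refine ⟨α, β, ?_, ?_⟩
  · by_contra hcon
    push Not at hcon
    obtain ⟨hc1, hc2⟩ := hcon
    have ha1 : α = 1 ∨ α = -1 := by
      rcases abs_lt.mp hc1 with ⟨h3, h4⟩
      omega
    have hb1 : β = 1 ∨ β = -1 := by
      rcases abs_lt.mp hc2 with ⟨h3, h4⟩
      omega
    rcases ha1 with ha | ha <;> rcases hb1 with hb | hb <;> rw [ha, hb] at hαβ <;>
      push_cast at hαβ
    · exact h1 (by rw [mul_one] at hαβ; exact hαβ.symm)
    · exact h2 (by rw [mul_one] at hαβ; exact hαβ.symm)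
    · exact h2 (by rw [hαβ]; ring)
    · exact h1 (by
        have : lam = -(lam * -1) := by ring
        rw [this, ← hαβ]; ring)
  · intro u v hu hv huv
    have hdet := rel_det_zero hB lam hu hv hu₀ hv₀ huv hr
    -- `u * v₀ = u₀ * v`
    have h3 : u * β = α * v := by
      have h4 : (u * β) * d = (α * v) * d := by
        calc (u * β) * d = u * v₀ := by rw [hβ]; ring
          _ = u₀ * v := hdet
          _ = (α * v) * d := by rw [hα]; ring
      exact mul_right_cancel₀ hdpos.ne' h4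
    constructor
    · exact hcop.dvd_of_dvd_mul_right ⟨v, h3⟩
    · exact hcop.symm.dvd_of_dvd_mul_left ⟨u, by rw [← h3]; ring⟩

theorem mem_gridPts_abs {m : ℕ} {A : Set (Fin m → ℝ)} {B : ℕ} {h : Fin m → ℤ}
    (hh : h ∈ gridPts A B) (i : Fin m) : |h i| ≤ B := by
  classical
  unfold gridPts at hh
  rw [Finset.mem_filter, Fintype.mem_piFinset] at hh
  have := Finset.mem_Icc.mp (hh.1 i)
  exact abs_le.mpr this

/-- The count of M7, with the count of the points of a residue class as a hypothesis. -/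
theorem rel_count_core {m p : ℕ} [Fact p.Prime] {B : ℕ}
    {A : Set (Fin m → ℝ)} (hB : 8 * B ^ 2 < p) (lam : ZMod p)
    (h0 : lam ≠ 0) (h1 : lam ≠ 1) (h2 : lam ≠ -1) (c : Fin m → ZMod p) (X : ℝ) (hX : 0 ≤ X)
    (hG : ∀ α : ℕ, 2 ≤ α → ∀ v : Fin m → ℤ,
      (({h : Fin m → ℤ | h ∈ gridPts A B ∧ ∀ i, (α : ℤ) ∣ h i - v i}.ncard : ℕ) : ℝ) ≤ X) :
    (({h : Fin m → ℤ | h ∈ gridPts A B ∧ ∃ g ∈ gridPts A B,
        ∀ i, (g i : ZMod p) = lam * (h i : ZMod p) + c i}.ncard : ℕ) : ℝ) ≤ X := by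
  set T : Set (Fin m → ℤ) := {h : Fin m → ℤ | h ∈ gridPts A B ∧ ∃ g ∈ gridPts A B,
        ∀ i, (g i : ZMod p) = lam * (h i : ZMod p) + c i} with hT
  have hfin : ∀ (a : ℕ) (v : Fin m → ℤ),
      {h : Fin m → ℤ | h ∈ gridPts A B ∧ ∀ i, (a : ℤ) ∣ h i - v i}.Finite := fun a v =>
    (gridPts A B).finite_toSet.subset fun h hh => hh.1
  rcases T.eq_empty_or_nonempty with hE | ⟨h', hh', g', hg', hrel'⟩
  · rw [hE]
    simpa using hX
  -- differences of coordinates
  have hdiff : ∀ h g : Fin m → ℤ, h ∈ gridPts A B → g ∈ gridPts A B →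
      (∀ i, (g i : ZMod p) = lam * (h i : ZMod p) + c i) → ∀ i,
      |h i - h' i| ≤ 2 * B ∧ |g i - g' i| ≤ 2 * B ∧
        ((g i - g' i : ℤ) : ZMod p) = lam * ((h i - h' i : ℤ) : ZMod p) := by
    intro h g hh hg hrel i
    refine ⟨?_, ?_, ?_⟩
    · have e1 := mem_gridPts_abs hh i
      have e2 := mem_gridPts_abs hh' i
      rw [abs_le] at *
      constructor <;> linarith [e1.1, e1.2, e2.1, e2.2]
    · have e1 := mem_gridPts_abs hg i
      have e2 := mem_gridPts_abs hg' i
      rw [abs_le] at *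
      constructor <;> linarith [e1.1, e1.2, e2.1, e2.2]
    · push_cast
      rw [hrel i, hrel' i]
      ring
  by_cases hcase : ∃ h ∈ T, ∃ i, h i ≠ h' i
  · obtain ⟨h₁, ⟨hh₁, g₁, hg₁, hrel₁⟩, i₁, hi₁⟩ := hcase
    obtain ⟨hu, hv, huv⟩ := hdiff h₁ g₁ hh₁ hg₁ hrel₁ i₁
    obtain ⟨α, β, hαβ, hdvd⟩ := rel_primitive hB lam h0 h1 h2 hu hv (sub_ne_zero.mpr hi₁) huv
    rcases hαβ with hα | hβ
    · refine le_trans ?_ (hG α.natAbs (by zify; exact hα) h')
      refine Nat.cast_le.mpr ?_
      refine Set.ncard_le_ncard ?_ (hfin _ _)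
      rintro h ⟨hh, g, hg, hrel⟩
      refine ⟨hh, fun i => ?_⟩
      obtain ⟨e1, e2, e3⟩ := hdiff h g hh hg hrel i
      exact Int.natAbs_dvd.mpr (hdvd _ _ e1 e2 e3).1
    · refine le_trans ?_ (hG β.natAbs (by zify; exact hβ) g')
      refine Nat.cast_le.mpr ?_
      classical
      have hch : ∀ h : Fin m → ℤ, ∃ g : Fin m → ℤ, h ∈ T → (g ∈ gridPts A B ∧
          ∀ i, (g i : ZMod p) = lam * (h i : ZMod p) + c i) := by
        intro h
        by_cases hh : h ∈ T
        · obtain ⟨_, g, hg, hrel⟩ := hh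
          exact ⟨g, fun _ => ⟨hg, hrel⟩⟩
        · exact ⟨0, fun hcon => absurd hcon hh⟩
      choose G hG' using hch
      refine Set.ncard_le_ncard_of_injOn G ?_ ?_ (hfin _ _)
      · intro h hh
        obtain ⟨hg, hrel⟩ := hG' h hh
        refine ⟨hg, fun i => ?_⟩
        obtain ⟨e1, e2, e3⟩ := hdiff h (G h) hh.1 hg hrel i
        exact Int.natAbs_dvd.mpr (hdvd _ _ e1 e2 e3).2
      · intro h hh k hk hhk
        obtain ⟨_, hrel⟩ := hG' h hh
        obtain ⟨_, hrelk⟩ := hG' k hk
        funext i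
        have e1 : lam * (h i : ZMod p) = lam * (k i : ZMod p) := by
          have := hrel i
          rw [hhk, hrelk i] at this
          exact (add_right_cancel this).symm
        have e2 : ((h i - k i : ℤ) : ZMod p) = 0 := by
          push_cast
          rw [mul_left_cancel₀ h0 e1, sub_self]
        have e3 := (ZMod.intCast_zmod_eq_zero_iff_dvd _ _).mp e2
        have e4 : |h i - k i| < p := by
          have e5 := mem_gridPts_abs hh.1 i
          have e6 := mem_gridPts_abs hk.1 i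
          have e7 : |h i - k i| ≤ 2 * B := by
            rw [abs_le] at *
            constructor <;> linarith [e5.1, e5.2, e6.1, e6.2]
          have e8 : 2 * B < p := by
            rcases Nat.eq_zero_or_pos B with hB0 | hB0
            · subst hB0
              simpa using hB
            · nlinarith
          have e9 : ((2 * B : ℕ) : ℤ) < p := by exact_mod_cast e8
          push_cast at e9
          linarith
        have := Int.eq_zero_of_abs_lt_dvd e3 e4
        linarith
  · push Not at hcase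
    refine le_trans ?_ (hG 2 le_rfl h')
    refine Nat.cast_le.mpr ?_
    refine Set.ncard_le_ncard ?_ (hfin _ _)
    intro h hh
    refine ⟨hh.1, fun i => ?_⟩
    rw [hcase h hh i, sub_self]
    exact dvd_zero _

end Vale.Agent.P230
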