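import Vale.Agent.Lib.P230L.DefsL

/-!
# P230, lattice half: the one-dimensional Young inequality with a constant smaller than one (M8)
-/

namespace Vale.Agent.P230

open MeasureTheory Set
open scoped ENNReal

namespace YoungOne

/-- quantiles of a probability measure without atoms -/
theorem exists_quantile (μ : Measure ℝ) [IsProbabilityMeasure μ] [NullSingletonClass μ] (c : ℝ)
    (hc0 : 0 < c) (hc1 : c < 1) : ∃ t : ℝ, μ.real (Iic t) = c := by
  have hcont : Continuous (ProbabilityTheory.cdf μ) := by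
    rw [continuous_iff_continuousAt]
    intro a
    have hmono := (ProbabilityTheory.cdf μ).mono
    rw [hmono.continuousAt_iff_leftLim_eq_rightLim, (ProbabilityTheory.cdf μ).rightLim_eq]
    have h1 : (ProbabilityTheory.cdf μ).measure {a} = 0 := by
      rw [ProbabilityTheory.measure_cdf]
      exact measure_singleton a
    rw [StieltjesFunction.measure_singleton, ENNReal.ofReal_eq_zero] at h1
    have h2 := hmono.leftLim_le (le_refl a)
    linarith
  obtain ⟨t, ht⟩ := mem_range_of_exists_le_of_exists_ge hcont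
    (((ProbabilityTheory.tendsto_cdf_atBot μ).eventually_le_const hc0).exists)
    (((ProbabilityTheory.tendsto_cdf_atTop μ).eventually_const_le hc1).exists)
  exact ⟨t, by rw [← ht, ProbabilityTheory.cdf_eq_real]⟩

theorem cs (μ : Measure ℝ) (F G : ℝ → ℝ≥0∞) (hF : Measurable F) (hG : Measurable G) :
    ∫⁻ x, F x * G x ∂μ ≤
      (∫⁻ x, F x ^ (2 : ℝ) ∂μ) ^ (1 / 2 : ℝ) * (∫⁻ x, G x ^ (2 : ℝ) ∂μ) ^ (1 / 2 : ℝ) :=
  ENNReal.lintegral_mul_le_Lp_mul_Lq μ Real.HolderConjugate.two_two hF.aemeasurable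
    hG.aemeasurable

theorem rpow_half_mul_self (x : ℝ≥0∞) : x ^ (1 / 2 : ℝ) * x ^ (1 / 2 : ℝ) = x := by
  rw [← ENNReal.rpow_add_of_nonneg _ _ (by norm_num) (by norm_num)]
  norm_num

/-- the autocorrelation integral -/
noncomputable def Aint (v : ℝ → ℝ≥0∞) (s : ℝ) : ℝ≥0∞ :=
  ∫⁻ x, v x ^ (1 / 2 : ℝ) * v (s - x) ^ (1 / 2 : ℝ)

/-- convolution -/
noncomputable def conv (v : ℝ → ℝ≥0∞) (s : ℝ) : ℝ≥0∞ := ∫⁻ x, v x * v (s - x)

theorem measurable_conv {v : ℝ → ℝ≥0∞} (hv : Measurable v) : Measurable (conv v) := by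
  unfold conv
  have h : Measurable (fun q : ℝ × ℝ => v q.2 * v (q.1 - q.2)) :=
    (hv.comp measurable_snd).mul (hv.comp (measurable_fst.sub measurable_snd))
  exact h.lintegral_prod_right'

/-- the triple integral as a square of the convolution -/
theorem triple_eq (f : ℝ → ℝ≥0∞) (hf : Measurable f) :
    ∫⁻ x, ∫⁻ y, ∫⁻ z, f x * f y * f z * f (x + y - z) = ∫⁻ s, conv f s * conv f s := by
  have h1 : ∀ x y, ∫⁻ z, f x * f y * f z * f (x + y - z) = f x * f y * conv f (x + y) := by
    intro x y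
    rw [conv, ← lintegral_const_mul]
    · refine lintegral_congr fun z => ?_
      ring
    · exact hf.mul (hf.comp (measurable_const.sub measurable_id))
  have h2 : ∀ x, ∫⁻ y, f x * f y * conv f (x + y) = ∫⁻ s, f x * f (s - x) * conv f s := by
    intro x
    rw [← lintegral_sub_right_eq_self (fun y => f x * f y * conv f (x + y)) x]
    refine lintegral_congr fun s => ?_
    rw [add_sub_cancel]
  simp_rw [h1, h2]
  rw [lintegral_lintegral_swap]
  · refine lintegral_congr fun s => ?_
    rw [conv, ← lintegral_mul_const]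
    exact hf.mul (hf.comp (measurable_const.sub measurable_id))
  · refine Measurable.aemeasurable ?_
    exact ((hf.comp measurable_fst).mul (hf.comp (measurable_snd.sub measurable_fst))).mul
      ((measurable_conv hf).comp measurable_snd)

/-- Cauchy-Schwarz for the convolution -/
theorem conv_sq_le (v : ℝ → ℝ≥0∞) (hv : Measurable v) (s : ℝ) :
    conv (fun x => v x ^ (3 / 4 : ℝ)) s * conv (fun x => v x ^ (3 / 4 : ℝ)) s ≤
      conv v s * Aint v s := by
  have hm : Measurable (fun x => v (s - x)) := hv.comp (measurable_const.sub measurable_id)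
  have h1 := cs volume (fun x => (v x * v (s - x)) ^ (1 / 2 : ℝ))
    (fun x => (v x * v (s - x)) ^ (1 / 4 : ℝ)) ((hv.mul hm).pow_const _) ((hv.mul hm).pow_const _)
  have e1 : ∫⁻ x, (v x * v (s - x)) ^ (1 / 2 : ℝ) * (v x * v (s - x)) ^ (1 / 4 : ℝ) =
      conv (fun x => v x ^ (3 / 4 : ℝ)) s := by
    unfold conv
    refine lintegral_congr fun x => ?_
    rw [← ENNReal.rpow_add_of_nonneg _ _ (by norm_num) (by norm_num),
      ← ENNReal.mul_rpow_of_nonneg _ _ (by norm_num)]
    norm_num
  have e2 : ∫⁻ x, ((v x * v (s - x)) ^ (1 / 2 : ℝ)) ^ (2 : ℝ) = conv v s := by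
    unfold conv
    refine lintegral_congr fun x => ?_
    rw [← ENNReal.rpow_mul]
    norm_num
  have e3 : ∫⁻ x, ((v x * v (s - x)) ^ (1 / 4 : ℝ)) ^ (2 : ℝ) = Aint v s := by
    unfold Aint
    refine lintegral_congr fun x => ?_
    rw [← ENNReal.rpow_mul, ← ENNReal.mul_rpow_of_nonneg _ _ (by norm_num)]
    norm_num
  rw [e1, e2, e3] at h1
  refine (mul_le_mul' h1 h1).trans (le_of_eq ?_)
  rw [mul_mul_mul_comm, rpow_half_mul_self, rpow_half_mul_self]

/-- bound for the autocorrelation over a set -/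
theorem Aset_le (v : ℝ → ℝ≥0∞) (hv : Measurable v) (s : ℝ) (S : Set ℝ) :
    ∫⁻ x in S, v x ^ (1 / 2 : ℝ) * v (s - x) ^ (1 / 2 : ℝ) ≤
      (∫⁻ x in S, v x) ^ (1 / 2 : ℝ) * (∫⁻ x in S, v (s - x)) ^ (1 / 2 : ℝ) := by
  have hm : Measurable (fun x => v (s - x)) := hv.comp (measurable_const.sub measurable_id)
  have h1 := cs (volume.restrict S) (fun x => v x ^ (1 / 2 : ℝ))
    (fun x => v (s - x) ^ (1 / 2 : ℝ)) (hv.pow_const _) (hm.pow_const _)
  have e : ∀ y : ℝ≥0∞, (y ^ (1 / 2 : ℝ)) ^ (2 : ℝ) = y := by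
    intro y
    rw [← ENNReal.rpow_mul]; norm_num
  simp only [e] at h1
  exact h1

theorem Aint_le_one (v : ℝ → ℝ≥0∞) (hv : Measurable v) (h1 : ∫⁻ x, v x = 1) (s : ℝ) :
    Aint v s ≤ 1 := by
  have h := Aset_le v hv s univ
  rw [Measure.restrict_univ, lintegral_sub_left_eq_self, h1] at h
  simpa [Aint] using h

theorem lintegral_conv (v : ℝ → ℝ≥0∞) (hv : Measurable v) (S : Set ℝ) (hS : MeasurableSet S) :
    ∫⁻ s in S, conv v s = ∫⁻ x, v x * ∫⁻ u in (fun u => x + u) ⁻¹' S, v u := by
  unfold conv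
  rw [lintegral_lintegral_swap]
  · refine lintegral_congr fun x => ?_
    have hm : Measurable (fun s => v (s - x)) := hv.comp (measurable_id.sub measurable_const)
    rw [lintegral_const_mul _ hm]
    congr 1
    rw [← lintegral_indicator hS, ← lintegral_indicator (measurable_const_add x hS),
      ← lintegral_sub_right_eq_self (fun u => ((fun u => x + u) ⁻¹' S).indicator v u) x]
    refine lintegral_congr fun s => ?_
    by_cases h : s ∈ S
    · rw [indicator_of_mem h, indicator_of_mem]
      simpa using h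
    · rw [indicator_of_notMem h, indicator_of_notMem]
      simpa using h
  · refine Measurable.aemeasurable ?_
    exact (hv.comp measurable_snd).mul (hv.comp (measurable_fst.sub measurable_snd))

theorem sqrt_bound (β : ℝ) (h0 : 0 ≤ β) (h1 : β ≤ 1 / 4) :
    Real.sqrt (1 / 2) * Real.sqrt β + Real.sqrt (1 / 2) * Real.sqrt (1 - β) ≤ 0.966 := by
  have h2 : Real.sqrt β * Real.sqrt (1 - β) ≤ Real.sqrt 3 / 4 := by
    rw [← Real.sqrt_mul h0, Real.sqrt_le_left (by positivity), div_pow,
      Real.sq_sqrt (by norm_num)]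
    nlinarith
  have h3 : Real.sqrt 3 < 1.73206 := by
    rw [Real.sqrt_lt' (by norm_num)]; norm_num
  have hs : (Real.sqrt β + Real.sqrt (1 - β)) ^ 2 ≤ 1.86603 := by
    have e1 := Real.sq_sqrt h0
    have e2 := Real.sq_sqrt (show 0 ≤ 1 - β by linarith)
    nlinarith
  have hh : Real.sqrt (1 / 2) ^ 2 = 1 / 2 := Real.sq_sqrt (by norm_num)
  rw [← mul_add]
  apply le_of_sq_le_sq _ (by norm_num)
  rw [mul_pow, hh]
  nlinarith

theorem lintegral_reflect (v : ℝ → ℝ≥0∞) (s : ℝ) (S : Set ℝ) (hS : MeasurableSet S) :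
    ∫⁻ x in S, v (s - x) = ∫⁻ u in (fun u => s - u) ⁻¹' S, v u := by
  have hS' : MeasurableSet ((fun u => s - u) ⁻¹' S) :=
    (measurable_const.sub measurable_id) hS
  rw [← lintegral_indicator hS, ← lintegral_indicator hS',
    ← lintegral_sub_left_eq_self (fun u => ((fun u => s - u) ⁻¹' S).indicator v u) s]
  refine lintegral_congr fun x => ?_
  by_cases h : x ∈ S
  · rw [indicator_of_mem h, indicator_of_mem]
    simpa using h
  · rw [indicator_of_notMem h, indicator_of_notMem]
    simpa using h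

theorem rpow_half_real (x : ℝ≥0∞) (hx : x ≠ ∞) :
    x ^ (1 / 2 : ℝ) = ENNReal.ofReal (Real.sqrt x.toReal) := by
  rw [Real.sqrt_eq_rpow, ← ENNReal.ofReal_rpow_of_nonneg ENNReal.toReal_nonneg (by norm_num),
    ENNReal.ofReal_toReal hx]

theorem main (v : ℝ → ℝ≥0∞) (hv : Measurable v) (h1 : ∫⁻ x, v x = 1) :
    ∫⁻ s, conv v s * Aint v s ≤ ENNReal.ofReal 0.996 := by
  set μ : Measure ℝ := volume.withDensity v with hμ
  have hprob : IsProbabilityMeasure μ := ⟨by rw [hμ, withDensity_apply _ MeasurableSet.univ,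
    Measure.restrict_univ, h1]⟩
  have hat : NullSingletonClass μ :=
    ⟨fun x => (withDensity_absolutelyContinuous volume v) (measure_singleton x)⟩
  have hμS : ∀ S : Set ℝ, MeasurableSet S → ∫⁻ x in S, v x = μ S := fun S hS =>
    (withDensity_apply v hS).symm
  obtain ⟨t, ht⟩ := exists_quantile μ (1 / 2) (by norm_num) (by norm_num)
  obtain ⟨t', ht'⟩ := exists_quantile μ (3 / 4) (by norm_num) (by norm_num)
  have hci : ∀ a : ℝ, μ.real (Ici a) = 1 - μ.real (Iic a) := by
    intro a
    rw [← measureReal_congr (Ioi_ae_eq_Ici (μ := μ) (a := a)), ← compl_Iic,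
      probReal_compl_eq_one_sub measurableSet_Iic]
  have hti : μ.real (Ici t) = 1 / 2 := by rw [hci, ht]; norm_num
  have hti' : μ.real (Ici t') = 1 / 4 := by rw [hci, ht']; norm_num
  -- the bound for the autocorrelation
  have hA : ∀ s, t + t' ≤ s → Aint v s ≤ ENNReal.ofReal 0.966 := by
    intro s hs
    have e1 := Aset_le v hv s (Iic t)
    have e2 := Aset_le v hv s (Ioi t)
    have hsplit : Aint v s = (∫⁻ x in Iic t, v x ^ (1 / 2 : ℝ) * v (s - x) ^ (1 / 2 : ℝ)) +
        ∫⁻ x in Ioi t, v x ^ (1 / 2 : ℝ) * v (s - x) ^ (1 / 2 : ℝ) := by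
      rw [← compl_Iic, lintegral_add_compl _ measurableSet_Iic, Aint]
    rw [lintegral_reflect v s _ measurableSet_Iic, hμS _ measurableSet_Iic] at e1
    rw [lintegral_reflect v s _ measurableSet_Ioi, hμS _ measurableSet_Ioi] at e2
    have p1 : (fun u => s - u) ⁻¹' Iic t = Ici (s - t) := by
      ext u; simp only [mem_preimage, mem_Iic, mem_Ici]
      constructor <;> intro h <;> linarith
    have p2 : (fun u => s - u) ⁻¹' Ioi t = (Ici (s - t))ᶜ := by
      ext u; simp only [mem_preimage, mem_Ioi, mem_compl_iff, mem_Ici, not_le]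
      constructor <;> intro h <;> linarith
    rw [p1, hμS _ measurableSet_Ici] at e1
    rw [p2, hμS _ measurableSet_Ici.compl] at e2
    set β := μ.real (Ici (s - t)) with hβ
    have hβ0 : 0 ≤ β := measureReal_nonneg
    have hβ1 : β ≤ 1 / 4 := by
      rw [← hti']
      exact measureReal_mono (Ici_subset_Ici.2 (by linarith))
    have hβc : μ.real (Ici (s - t))ᶜ = 1 - β := probReal_compl_eq_one_sub measurableSet_Ici
    have hto : μ.real (Ioi t) = 1 / 2 := by
      rw [measureReal_congr (Ioi_ae_eq_Ici (μ := μ) (a := t)), hti]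
    rw [rpow_half_real _ (measure_ne_top μ _), rpow_half_real _ (measure_ne_top μ _)] at e1 e2
    change _ ≤ ENNReal.ofReal (Real.sqrt (μ.real _)) * ENNReal.ofReal (Real.sqrt (μ.real _)) at e1
    change _ ≤ ENNReal.ofReal (Real.sqrt (μ.real _)) * ENNReal.ofReal (Real.sqrt (μ.real _)) at e2
    rw [ht, ← hβ, ← ENNReal.ofReal_mul (Real.sqrt_nonneg _)] at e1
    rw [hto, hβc, ← ENNReal.ofReal_mul (Real.sqrt_nonneg _)] at e2
    rw [hsplit]
    refine (add_le_add e1 e2).trans ?_
    rw [← ENNReal.ofReal_add (by positivity) (by positivity)]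
    exact ENNReal.ofReal_le_ofReal (sqrt_bound β hβ0 hβ1)
  -- the mass of the convolution
  have htot : ∫⁻ s, conv v s = 1 := by
    have h := lintegral_conv v hv univ MeasurableSet.univ
    simpa only [Measure.restrict_univ, preimage_univ, h1, mul_one] using h
  set P := ∫⁻ s in Ici (t + t'), conv v s with hP
  set P' := ∫⁻ s in (Ici (t + t'))ᶜ, conv v s with hP'
  have hPP : P + P' = 1 := by
    rw [hP, hP', lintegral_add_compl _ measurableSet_Ici, htot]
  have hPlow : ENNReal.ofReal (1 / 8) ≤ P := by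
    rw [hP, lintegral_conv v hv _ measurableSet_Ici]
    calc ENNReal.ofReal (1 / 8) = μ (Ici t) * μ (Ici t') := by
          rw [← ENNReal.ofReal_toReal (measure_ne_top μ (Ici t)),
            ← ENNReal.ofReal_toReal (measure_ne_top μ (Ici t')),
            ← ENNReal.ofReal_mul ENNReal.toReal_nonneg]
          change _ = ENNReal.ofReal (μ.real _ * μ.real _)
          rw [hti, hti']
          norm_num
      _ = ∫⁻ x in Ici t, v x * μ (Ici t') := by
          rw [lintegral_mul_const _ hv, hμS _ measurableSet_Ici]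
      _ ≤ ∫⁻ x in Ici t, v x * ∫⁻ u in (fun u => x + u) ⁻¹' Ici (t + t'), v u := by
          refine setLIntegral_mono' measurableSet_Ici fun x hx => ?_
          refine mul_le_mul' le_rfl ?_
          rw [← hμS _ measurableSet_Ici]
          refine lintegral_mono_set ?_
          intro u hu
          simp only [mem_preimage, mem_Ici] at *
          linarith
      _ ≤ _ := setLIntegral_le_lintegral _ _
  -- conclusion
  rw [← lintegral_add_compl _ (measurableSet_Ici (a := t + t'))]
  have b1 : ∫⁻ s in Ici (t + t'), conv v s * Aint v s ≤ P * ENNReal.ofReal 0.966 := by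
    rw [hP, ← lintegral_mul_const _ (measurable_conv hv)]
    exact setLIntegral_mono' measurableSet_Ici fun s hs => mul_le_mul' le_rfl (hA s hs)
  have b2 : ∫⁻ s in (Ici (t + t'))ᶜ, conv v s * Aint v s ≤ P' := by
    refine setLIntegral_mono' measurableSet_Ici.compl fun s _ => ?_
    calc conv v s * Aint v s ≤ conv v s * 1 := mul_le_mul' le_rfl (Aint_le_one v hv h1 s)
      _ = conv v s := mul_one _
  refine (add_le_add b1 b2).trans ?_
  have hPt : P ≠ ∞ := fun h => by rw [h] at hPP; simp at hPP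
  have hPt' : P' ≠ ∞ := fun h => by rw [h] at hPP; simp at hPP
  have r1 : P.toReal + P'.toReal = 1 := by
    rw [← ENNReal.toReal_add hPt hPt', hPP, ENNReal.toReal_one]
  have r2 : 1 / 8 ≤ P.toReal := by
    have := ENNReal.toReal_mono hPt hPlow
    rwa [ENNReal.toReal_ofReal (by norm_num)] at this
  rw [← ENNReal.ofReal_toReal hPt, ← ENNReal.ofReal_toReal hPt',
    ← ENNReal.ofReal_mul ENNReal.toReal_nonneg, ← ENNReal.ofReal_add (by positivity) (by positivity)]
  exact ENNReal.ofReal_le_ofReal (by linarith)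

end YoungOne

open YoungOne in
/-- M8 -/
theorem young_one (f : ℝ → ℝ≥0∞) (hf : Measurable f) :
    ∫⁻ x, ∫⁻ y, ∫⁻ z, f x * f y * f z * f (x + y - z)
      ≤ ENNReal.ofReal 0.996 * (∫⁻ x, f x ^ (4 / 3 : ℝ)) ^ 3 := by
  rw [triple_eq f hf]
  set I := ∫⁻ x, f x ^ (4 / 3 : ℝ) with hI
  by_cases hI0 : I = 0
  · -- the function is zero almost everywhere
    have h0 : f =ᵐ[volume] 0 := by
      have h := (lintegral_eq_zero_iff (hf.pow_const _)).1 hI0
      filter_upwards [h] with x hx
      simp only [Pi.zero_apply, ENNReal.rpow_eq_zero_iff] at hx ⊢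
      rcases hx with hx | hx
      · exact hx.1
      · exfalso; linarith [hx.2]
    have hc : ∀ s, conv f s = 0 := by
      intro s
      unfold conv
      have hm : Measurable (fun x => f x * f (s - x)) :=
        hf.mul (hf.comp (measurable_const.sub measurable_id))
      rw [lintegral_eq_zero_iff hm]
      filter_upwards [h0] with x hx
      simp [hx]
    simp [hc]
  by_cases hIt : I = ∞
  · rw [hIt]
    have : ENNReal.ofReal 0.996 * (∞ : ℝ≥0∞) ^ 3 = ∞ := by
      rw [ENNReal.top_pow (by norm_num), ENNReal.mul_top]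
      rw [Ne, ENNReal.ofReal_eq_zero, not_le]
      norm_num
    rw [this]
    exact le_top
  set v : ℝ → ℝ≥0∞ := fun x => f x ^ (4 / 3 : ℝ) * I⁻¹ with hv
  have hvm : Measurable v := (hf.pow_const _).mul_const _
  have hv1 : ∫⁻ x, v x = 1 := by
    rw [hv, lintegral_mul_const _ (hf.pow_const _), ← hI, ENNReal.mul_inv_cancel hI0 hIt]
  have hmain := main v hvm hv1
  -- f is a multiple of a power of v
  have hfv : ∀ x, f x = I ^ (3 / 4 : ℝ) * v x ^ (3 / 4 : ℝ) := by
    intro x
    rw [← ENNReal.mul_rpow_of_nonneg _ _ (by norm_num), hv]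
    simp only
    rw [mul_comm (f x ^ (4 / 3 : ℝ)), ← mul_assoc, ENNReal.mul_inv_cancel hI0 hIt, one_mul,
      ← ENNReal.rpow_mul]
    norm_num
  have hconv : ∀ s, conv f s = I ^ (3 / 2 : ℝ) * conv (fun x => v x ^ (3 / 4 : ℝ)) s := by
    intro s
    unfold conv
    rw [← lintegral_const_mul]
    · refine lintegral_congr fun x => ?_
      rw [hfv x, hfv (s - x)]
      have : I ^ (3 / 2 : ℝ) = I ^ (3 / 4 : ℝ) * I ^ (3 / 4 : ℝ) := by
        rw [← ENNReal.rpow_add_of_nonneg _ _ (by norm_num) (by norm_num)]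
        norm_num
      rw [this]
      ring
    · exact (hvm.pow_const _).mul
        ((hvm.comp (measurable_const.sub measurable_id)).pow_const _)
  calc ∫⁻ s, conv f s * conv f s
      = ∫⁻ s, I ^ 3 * (conv (fun x => v x ^ (3 / 4 : ℝ)) s *
          conv (fun x => v x ^ (3 / 4 : ℝ)) s) := by
        refine lintegral_congr fun s => ?_
        rw [hconv s]
        have : I ^ 3 = I ^ (3 / 2 : ℝ) * I ^ (3 / 2 : ℝ) := by
          rw [← ENNReal.rpow_add_of_nonneg _ _ (by norm_num) (by norm_num)]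
          norm_num
        rw [this]
        ring
    _ = I ^ 3 * ∫⁻ s, conv (fun x => v x ^ (3 / 4 : ℝ)) s *
          conv (fun x => v x ^ (3 / 4 : ℝ)) s := by
        rw [lintegral_const_mul]
        exact (measurable_conv (hvm.pow_const _)).mul (measurable_conv (hvm.pow_const _))
    _ ≤ I ^ 3 * ∫⁻ s, conv v s * Aint v s :=
        mul_le_mul' le_rfl (lintegral_mono fun s => conv_sq_le v hvm s)
    _ ≤ I ^ 3 * ENNReal.ofReal 0.996 := mul_le_mul' le_rfl hmain
    _ = _ := mul_comm _ _

end Vale.Agent.P230
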